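import Crest.Agent.R26.PropsD

/-!
# R27 / ABV : level of distribution in a fixed residue class
-/

set_option autoImplicit false
open Finset Real Filter Topology

namespace Crest.Agent.R27

open Crest.Agent.R26

theorem two_tendsto : Tendsto (fun y : ℕ => 2 * y) atTop atTop :=
  tendsto_atTop_mono (fun y => by simp only [id]; omega) tendsto_id

theorem abv_const (C : ℝ) {δ : ℝ} (hδ : 0 < δ) :
    ∀ᶠ x : ℕ in atTop, C * (x : ℝ) ^ (1 - δ) ≤ (x : ℝ) ^ (1 - δ / 2) := by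
  filter_upwards [((tendsto_rpow_atTop (show 0 < δ / 2 by positivity)).comp
    tendsto_natCast_atTop_atTop).eventually_ge_atTop C, eventually_ge_atTop 1] with x h hx
  have hx0 : (0 : ℝ) < x := by exact_mod_cast hx
  rw [show 1 - δ / 2 = δ / 2 + (1 - δ) by ring, Real.rpow_add hx0]
  exact mul_le_mul_of_nonneg_right h (by positivity)

/-- the family `x ↦ G (2x)`.  For `η ≤ 1/2`: `x^{1/2-η} ≤ (2x)^{1/2-η}`, `y ≤ x ≤ 2x`, `(2x)^{1-δ} ≤ x^{1-δ/2}` for large `x`.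
For `η > 1/2` the sum is empty (`x ≥ 2`). -/
theorem bv0_two {G : ℕ → ℕ → ℝ} (h : BV0 G) : BV0 (fun x => G (2 * x)) := by
  intro η hη
  obtain ⟨δ, hδ, hev⟩ := h η hη
  refine ⟨δ / 2, by positivity, ?_⟩
  filter_upwards [two_tendsto.eventually hev, abv_const 2 hδ, eventually_ge_atTop 2]
    with x hx h2 hx2 y hy c hc
  have h0 : (2 : ℝ) ≤ x := by exact_mod_cast hx2
  refine le_trans (sum_le_sum_of_subset_of_nonneg (fun q hq => ?_) fun _ _ _ => abs_nonneg _)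
    ((hx y (by omega) c hc).trans (le_trans ?_ h2))
  · obtain ⟨a1, a2⟩ := mem_Icc.1 hq
    refine mem_Icc.2 ⟨a1, a2.trans (Nat.floor_mono ?_)⟩
    refine Real.rpow_le_rpow (by linarith) (by push_cast; linarith) ?_
    by_contra hneg
    have a3 : (x : ℝ) ^ (1 / 2 - η) < 1 := Real.rpow_lt_one_of_one_lt_of_neg (by linarith) (not_le.1 hneg)
    rw [Nat.floor_eq_zero.2 a3] at a2
    omega
  · push_cast
    rw [Real.mul_rpow (by norm_num) (by linarith)]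
    refine mul_le_mul_of_nonneg_right ?_ (by positivity)
    calc (2 : ℝ) ^ (1 - δ) ≤ 2 ^ (1 : ℝ) := Real.rpow_le_rpow_of_exponent_le (by norm_num) (by linarith)
      _ = 2 := Real.rpow_one 2

/-- one modulus.  If some `t₀` satisfies `t₀ ≡ c (q)`, `t₀ % M = e`, let `l = lcm q M`, `g = gcd t₀ l`.  Then `g` is prime
to `q` (as `t₀` is), so `g ∣ M` (`l ∣ q M`); the `t` in question are those `≡ t₀ (l)`, i.e. `t = g t'` with
`t' ≡ t₀/g (l/g)`, `t' ≤ y/g`, and `(t₀/g, l/g) = 1`.  With `d = gcd q M`: `l / g = q M / (d g)`. -/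
theorem class_sum {g₀ : ℕ → ℝ} {M q c e : ℕ} (hM : 1 ≤ M) (hq : 1 ≤ q) (hc : Nat.Coprime c q)
    (hg : ∀ g t, 1 ≤ g → g ≤ M → g₀ (g * t) = g₀ t) (y : ℕ) :
    ∑ t ∈ (Icc 1 y).filter (fun t => t ≡ c [MOD q]), (if t % M = e then g₀ t else 0) = 0 ∨
    ∃ g ∈ Icc 1 M, ∃ d ∈ Icc 1 M, ∃ q' c' : ℕ, q' * (d * g) = q * M ∧ Nat.Coprime c' q' ∧
      ∀ y : ℕ, ∑ t ∈ (Icc 1 y).filter (fun t => t ≡ c [MOD q]), (if t % M = e then g₀ t else 0) =
        ∑ t ∈ (Icc 1 (y / g)).filter (fun t => t ≡ c' [MOD q']), g₀ t := by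
  by_cases hex : ∃ t₀, t₀ ≡ c [MOD q] ∧ t₀ % M = e
  swap
  · refine Or.inl (sum_eq_zero fun t ht => if_neg fun h => hex ⟨t, (mem_filter.1 ht).2, h⟩)
  obtain ⟨t₀, h1, h2⟩ := hex
  have hl : 0 < Nat.lcm q M := Nat.lcm_pos hq hM
  set l := Nat.lcm q M with hldef
  set g := Nat.gcd t₀ l with hgdef
  have hg0 : 0 < g := Nat.gcd_pos_of_pos_right _ hl
  have ht0 : Nat.Coprime t₀ q := by rw [Nat.Coprime, h1.gcd_eq]; exact hc
  have hgq : Nat.Coprime g q := ht0.of_dvd_left (Nat.gcd_dvd_left _ _)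
  have hgM : g ∣ M := hgq.dvd_of_dvd_mul_left ((Nat.gcd_dvd_right _ _).trans (Nat.lcm_dvd_mul q M))
  have hgle := Nat.le_of_dvd hM hgM
  obtain ⟨q', hq'⟩ : g ∣ l := Nat.gcd_dvd_right _ _
  obtain ⟨c', hc'⟩ : g ∣ t₀ := Nat.gcd_dvd_left _ _
  refine Or.inr ⟨g, mem_Icc.2 ⟨hg0, hgle⟩, Nat.gcd q M, mem_Icc.2 ⟨Nat.gcd_pos_of_pos_left _ hq,
    Nat.gcd_le_right _ hM⟩, q', c', ?_, ?_, fun y => ?_⟩
  · rw [← Nat.gcd_mul_lcm q M, ← hldef, hq']
    ring
  · have := Nat.coprime_div_gcd_div_gcd (m := t₀) (n := l) hg0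
    rwa [← hgdef, Nat.div_eq_of_eq_mul_right hg0 hq', Nat.div_eq_of_eq_mul_right hg0 hc'] at this
  · have key : ∀ t, (t ≡ c [MOD q] ∧ t % M = e) ↔ t ≡ g * c' [MOD g * q'] := by
      intro t
      rw [← hq', ← hc', ← h2]
      constructor
      · rintro ⟨a1, a2⟩
        have a3 : t ≡ t₀ [MOD q] := a1.trans h1.symm
        have a4 : t ≡ t₀ [MOD M] := a2
        rw [Nat.modEq_iff_dvd] at a3 a4 ⊢
        rw [hldef, ← Int.lcm_natCast_natCast]
        exact Int.coe_lcm_dvd a3 a4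
      · intro a1
        exact ⟨(a1.of_dvd (Nat.dvd_lcm_left q M)).trans h1, a1.of_dvd (Nat.dvd_lcm_right q M)⟩
    rw [← sum_filter, filter_filter]
    simp only [key]
    symm
    refine sum_bij (fun t _ => g * t) (fun t ht => ?_) (fun t _ t' _ h => Nat.eq_of_mul_eq_mul_left hg0 h)
      (fun t ht => ?_) fun t _ => (hg g t hg0 hgle).symm
    · obtain ⟨a1, a2⟩ := mem_filter.1 ht
      obtain ⟨a3, a4⟩ := mem_Icc.1 a1
      refine mem_filter.2 ⟨mem_Icc.2 ⟨Nat.mul_pos hg0 a3, ?_⟩, a2.mul_left' g⟩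
      rw [mul_comm]
      exact (Nat.le_div_iff_mul_le hg0).1 a4
    · obtain ⟨a1, a2⟩ := mem_filter.1 ht
      obtain ⟨a3, a4⟩ := mem_Icc.1 a1
      obtain ⟨s, rfl⟩ : g ∣ t := (a2.dvd_iff (dvd_mul_right g q')).2 (dvd_mul_right g c')
      refine ⟨s, mem_filter.2 ⟨mem_Icc.2 ⟨Nat.pos_of_mul_pos_left a3, ?_⟩,
        Nat.ModEq.mul_left_cancel' hg0.ne' a2⟩, rfl⟩
      rw [Nat.le_div_iff_mul_le hg0, mul_comm]
      exact a4

/-- Group the `q` by `(g, d) ∈ [1,M]²` (`class_sum`); for fixed `(g,d)` the map `q ↦ q'` is injective and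
`q' ≤ q M ≤ x^{1/2-η/2}`; apply `BV0` with `η/2`, length `y/g` and the classes `c'` (class `1` for the moduli which do
not occur); `M² x^{1-δ} ≤ x^{1-δ/2}`. -/
theorem bvd_of_bv0 {G : ℕ → ℕ → ℝ} {M : ℕ} (hM : 1 ≤ M)
    (hG : ∀ᶠ x : ℕ in atTop, ∀ g t, 1 ≤ g → g ≤ M → G x (g * t) = G x t) (h : BV0 G) : BVD M G := by
  intro e η hη
  obtain ⟨δ, hδ, hev⟩ := h (η / 2) (by positivity)
  refine ⟨δ / 2, by positivity, ?_⟩
  filter_upwards [hev, hG, abv_const ((M : ℝ) * M) hδ,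
    ((tendsto_rpow_atTop (show 0 < η / 2 by positivity)).comp
      tendsto_natCast_atTop_atTop).eventually_ge_atTop (M : ℝ), eventually_ge_atTop 1]
    with x hx hg h2 h3 hx1 y hy c hc
  have hx0 : (0 : ℝ) < x := by exact_mod_cast hx1
  set Q := ⌊(x : ℝ) ^ (1 / 2 - η)⌋₊ with hQ
  set Q' := ⌊(x : ℝ) ^ (1 / 2 - η / 2)⌋₊ with hQ'
  have hQQ : Q * M ≤ Q' := by
    refine Nat.le_floor ?_
    rw [show 1 / 2 - η / 2 = (1 / 2 - η) + η / 2 by ring, Real.rpow_add hx0, Nat.cast_mul]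
    exact mul_le_mul (Nat.floor_le (by positivity)) h3 (Nat.cast_nonneg _) (by positivity)
  set F : ℕ → ℝ := fun q => |∑ t ∈ (Icc 1 y).filter (fun t => t ≡ c q [MOD q]),
    (if t % M = e then G x t else 0)| with hF
  set P : ℕ → ℕ → ℕ → Prop := fun g d q => ∃ q' c' : ℕ, q' * (d * g) = q * M ∧ Nat.Coprime c' q' ∧
    F q = |∑ t ∈ (Icc 1 (y / g)).filter (fun t => t ≡ c' [MOD q']), G x t| with hP
  have hF0 : ∀ q, 0 ≤ F q := fun q => abs_nonneg _
  classical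
  have a1 : ∀ q ∈ Icc 1 Q, F q ≤ ∑ g ∈ Icc 1 M, ∑ d ∈ Icc 1 M, if P g d q then F q else 0 := by
    intro q hq
    have b0 : ∀ g d, 0 ≤ if P g d q then F q else 0 := fun g d => by split_ifs; exacts [hF0 q, le_rfl]
    rcases class_sum (e := e) hM (mem_Icc.1 hq).1 (hc q) hg y with b | ⟨g, b1, d, b2, q', c', b3, b4, b5⟩
    · have : F q = 0 := by simp only [hF, b, abs_zero]
      rw [this]
      exact sum_nonneg fun g _ => sum_nonneg fun d _ => by split_ifs <;> rfl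
    · refine le_trans ?_ (single_le_sum (fun g _ => sum_nonneg fun d _ => b0 g d) b1)
      refine le_trans ?_ (single_le_sum (fun d _ => b0 g d) b2)
      rw [if_pos ⟨q', c', b3, b4, by simp only [hF, b5 y]⟩]
  have a2 : ∀ g ∈ Icc 1 M, ∀ d ∈ Icc 1 M,
      ∑ q ∈ Icc 1 Q, (if P g d q then F q else 0) ≤ (x : ℝ) ^ (1 - δ) := by
    intro g hg' d hd'
    have hdg : 0 < d * g := Nat.mul_pos (mem_Icc.1 hd').1 (mem_Icc.1 hg').1
    obtain ⟨c'', hc1, hc2⟩ : ∃ c'' : ℕ → ℕ, (∀ q', Nat.Coprime (c'' q') q') ∧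
        ∀ q, P g d q → F q = |∑ t ∈ (Icc 1 (y / g)).filter
          (fun t => t ≡ c'' (q * M / (d * g)) [MOD q * M / (d * g)]), G x t| := by
      have hex : ∀ q' : ℕ, ∃ c', Nat.Coprime c' q' ∧ ∀ q, P g d q → q' * (d * g) = q * M →
          F q = |∑ t ∈ (Icc 1 (y / g)).filter (fun t => t ≡ c' [MOD q']), G x t| := by
        intro q'
        by_cases hq : ∃ q, P g d q ∧ q' * (d * g) = q * M
        · obtain ⟨q, ⟨q₁, c', b1, b2, b3⟩, b4⟩ := hq
          obtain rfl : q₁ = q' := Nat.eq_of_mul_eq_mul_right hdg (b1.trans b4.symm)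
          refine ⟨c', b2, fun q₂ _ b5 => ?_⟩
          obtain rfl : q₂ = q := Nat.eq_of_mul_eq_mul_right hM (b5.symm.trans b4)
          exact b3
        · exact ⟨1, Nat.coprime_one_left _, fun q b1 b2 => absurd ⟨q, b1, b2⟩ hq⟩
      choose c'' b1 b2 using hex
      refine ⟨c'', b1, fun q hq => b2 _ q hq ?_⟩
      obtain ⟨q', -, b3, -⟩ := hq
      rw [← b3, Nat.mul_div_cancel _ hdg]
    refine le_trans ?_ (hx (y / g) ((Nat.div_le_self _ _).trans hy) c'' hc1)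
    rw [← sum_filter, sum_congr rfl fun q hq => hc2 q (mem_filter.1 hq).2]
    rw [← sum_image (g := fun q => q * M / (d * g)) (f := fun q' =>
      |∑ t ∈ (Icc 1 (y / g)).filter (fun t => t ≡ c'' q' [MOD q']), G x t|)]
    · refine sum_le_sum_of_subset_of_nonneg (fun q' hq' => ?_) fun _ _ _ => abs_nonneg _
      obtain ⟨q, b1, rfl⟩ := mem_image.1 hq'
      obtain ⟨b2, q', -, b3, -⟩ := mem_filter.1 b1
      obtain ⟨b4, b5⟩ := mem_Icc.1 b2
      refine mem_Icc.2 ⟨?_, (Nat.div_le_self _ _).trans ((Nat.mul_le_mul_right M b5).trans hQQ)⟩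
      rw [← b3, Nat.mul_div_cancel _ hdg]
      refine Nat.pos_of_ne_zero ?_
      rintro rfl
      have := Nat.mul_pos b4 hM
      omega
    · intro q b1 q₂ b2 b3
      obtain ⟨-, q', -, b4, -⟩ := mem_filter.1 (mem_coe.1 b1)
      obtain ⟨-, q'', -, b5, -⟩ := mem_filter.1 (mem_coe.1 b2)
      simp only at b3
      rw [← b4, ← b5, Nat.mul_div_cancel _ hdg, Nat.mul_div_cancel _ hdg] at b3
      rw [b3] at b4
      exact Nat.eq_of_mul_eq_mul_right hM (b4.symm.trans b5)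
  refine (sum_le_sum a1).trans (le_trans ?_ h2)
  rw [sum_comm]
  refine (sum_le_sum (g := fun _ => M * (x : ℝ) ^ (1 - δ)) fun g hg' => ?_).trans ?_
  · rw [sum_comm]
    refine (sum_le_sum (a2 g hg')).trans ?_
    simp
  · simp [mul_assoc]

end Crest.Agent.R27
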