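import Mathlib

/-!
# R27 / ACls : residue classes on which `a` is a quadratic non-residue and `p - 1` has no small odd prime factor
-/

set_option autoImplicit false
open Finset

namespace Crest.Agent.R27

/-- `S` is a set of reduced classes mod `M`; a prime `p` in one of them does not divide `a`, and `a` is not a
`q`-th power mod `p` for the primes `q ≤ z` dividing `p - 1` -/
structure GoodCls (a : ℤ) (z M : ℕ) (S : Finset ℕ) : Prop where
  pos : 1 ≤ M
  cop : ∀ b ∈ S, b < M ∧ Nat.Coprime b M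
  good : ∀ p : ℕ, p.Prime → p % M ∈ S → ¬ (p : ℤ) ∣ a ∧
    ∀ q : ℕ, q.Prime → q ≤ z → q ∣ p - 1 → (a : ZMod p) ^ ((p - 1) / q) ≠ 1

theorem cls_crt {n : ℕ} (hn : n ≠ 0) (r8 : ℕ) (r : ℕ → ℕ) :
    ∃ b : ℕ, b % 8 = r8 % 8 ∧ ∀ q : ℕ, q.Prime → q ≠ 2 → q ∣ n → b ≡ r q [MOD q] := by
  obtain ⟨b, hb⟩ := Nat.chineseRemainderOfFinset (fun q => if q = 2 then r8 else r q)
    (fun q => if q = 2 then 8 else q) (insert 2 n.primeFactors) (fun q hq => by
      split_ifs with h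
      · norm_num
      · exact (Nat.prime_of_mem_primeFactors ((Finset.mem_insert.1 hq).resolve_left h)).ne_zero) (by
      have pr : ∀ q ∈ ((insert 2 n.primeFactors : Finset ℕ) : Set ℕ), q.Prime := fun q hq => by
        rcases Finset.mem_insert.1 hq with rfl | h
        · exact Nat.prime_two
        · exact Nat.prime_of_mem_primeFactors h
      intro p hp q hq hpq
      have h := (Nat.coprime_primes (pr p hp) (pr q hq)).2 hpq
      change Nat.Coprime (if p = 2 then 8 else p) (if q = 2 then 8 else q)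
      split_ifs with h1 h2 h2
      · exact absurd (h1.trans h2.symm) hpq
      · subst h1; exact Nat.Coprime.pow_left 3 h
      · subst h2; exact Nat.Coprime.pow_right 3 h
      · exact h)
  refine ⟨b, by simpa [Nat.ModEq] using hb 2 (Finset.mem_insert_self _ _), fun q hq h2 hd => ?_⟩
  simpa [h2] using hb q (Finset.mem_insert_of_mem (Nat.mem_primeFactors.2 ⟨hq, hd, hn⟩))

theorem cls_congr {b c n : ℕ} (hn : n ≠ 0) (h : ∀ q : ℕ, q.Prime → q ∣ n → b ≡ c [MOD q]) :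
    jacobiSym b n = jacobiSym c n := by
  induction n using induction_on_primes with
  | zero => exact absurd rfl hn
  | one => simp
  | prime_mul p m hp ih =>
    have hm : m ≠ 0 := right_ne_zero_of_mul hn
    rw [jacobiSym.mul_right' _ hp.ne_zero hm, jacobiSym.mul_right' _ hp.ne_zero hm,
      ih hm fun q hq hd => h q hq (hd.mul_left p),
      jacobiSym.mod_left' (Int.natCast_modEq_iff.2 (h p hp (dvd_mul_right _ _)))]

/-- **The starting class.**  Write `a = ± s k²` with `s` squarefree (`Nat.sq_mul_squarefree` for `|a|`); for `b` odd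
and coprime to `a`, `J(a|b) = J(±s|b)` (`jacobiSym.mul_left`, `jacobiSym.sq_one'`).  Let `N` be the product of the odd
primes dividing `a`.
*Case A: a prime `ℓ ≥ 5` divides `s`*, `s = ℓ 2^e s'`, `s'` odd, prime to `ℓ`.  Take `b ≡ 1 (8)`, `b ≡ 2 (N/ℓ)`, `b ≡ r (ℓ)`
(CRT, `Nat.chineseRemainder`).  As `b ≡ 1 (8)`: `J(-1|b) = J(2|b) = 1` (`jacobiSym.at_neg_one`, `at_two`) and
`J(n|b) = J(b|n)` for odd `n` (`jacobiSym.quadratic_reciprocity_one_mod_four'`), so `J(a|b) = J(r|ℓ) J(2|s')`; choose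
`r = 4` if `J(2|s') = -1` and `r` a non-residue mod `ℓ` (`quadraticChar_exists_neg_one`; it is `≠ 0, 1`) otherwise.
*Case B: `s ∈ {1,2,3,6}`* (`s` squarefree with prime factors in `{2,3}`, so `s ∣ 6`); `±s ≠ 1` (else `a` is a square).
Take `b ≡ 2 (N)` and `b mod 8` equal to `3` for `±s ∈ {-1, 2}`, `5` for `-2`, `1` for `±3, ±6` (then `3 ∣ N`, `b ≡ 2 (3)`,
`J(3|b) = J(b|3) = -1`).  Note that `a = -1` is allowed here. -/
theorem exists_b0 (a : ℤ) (hsq : ¬ IsSquare a) : ∃ b : ℕ, Odd b ∧ jacobiSym a b = -1 ∧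
    ∀ q : ℕ, q.Prime → q ≠ 2 → (q : ℤ) ∣ a → b % q ≠ 0 ∧ b % q ≠ 1 := by
  have ha : a ≠ 0 := fun h => hsq (h ▸ IsSquare.zero)
  obtain ⟨s, k, hk, hs⟩ := Nat.sq_mul_squarefree a.natAbs
  obtain ⟨ε, hε, hε'⟩ : ∃ ε : ℤ, (ε = 1 ∨ ε = -1) ∧ a = (k : ℤ) ^ 2 * (ε * s) := by
    have : (a.natAbs : ℤ) = (k : ℤ) ^ 2 * s := by rw [← hk]; push_cast; rfl
    rcases Int.natAbs_eq a with h | h
    · exact ⟨1, Or.inl rfl, by rw [one_mul, ← this, ← h]⟩
    · exact ⟨-1, Or.inr rfl, by rw [neg_one_mul, mul_neg, ← this, ← h]⟩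
  have main : ∀ (r8 : ℕ) (r : ℕ → ℕ), r8 % 2 = 1 → (∀ q : ℕ, q.Prime → q ≠ 2 → r q % q ≠ 0 ∧ r q % q ≠ 1) →
      (∀ b : ℕ, Odd b → b % 8 = r8 % 8 → (∀ q : ℕ, q.Prime → q ≠ 2 → q ∣ s → b ≡ r q [MOD q]) →
        jacobiSym ε b * jacobiSym s b = -1) → ∃ b : ℕ, Odd b ∧ jacobiSym a b = -1 ∧
          ∀ q : ℕ, q.Prime → q ≠ 2 → (q : ℤ) ∣ a → b % q ≠ 0 ∧ b % q ≠ 1 := by
    intro r8 r h8 hr hJ
    obtain ⟨b, hb8, hb⟩ := cls_crt (Int.natAbs_ne_zero.2 ha) r8 r
    have ho : Odd b := Nat.odd_iff.2 (by omega)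
    have h1 : ∀ q : ℕ, q.Prime → q ≠ 2 → q ∣ a.natAbs → b % q ≠ 0 ∧ b % q ≠ 1 := fun q hq h2 hd => by
      rw [hb q hq h2 hd]; exact hr q hq h2
    refine ⟨b, ho, ?_, fun q hq h2 hd => h1 q hq h2 (Int.natCast_dvd.1 hd)⟩
    have hc : Nat.Coprime k b := Nat.Coprime.symm <| Nat.coprime_of_dvd fun q hq hqb hqk => by
      have h2 : q ≠ 2 := fun e => (Nat.not_even_iff_odd.2 ho) (even_iff_two_dvd.2 (e ▸ hqb))
      exact (h1 q hq h2 (hk ▸ (dvd_pow hqk two_ne_zero).mul_right s)).1 (Nat.mod_eq_zero_of_dvd hqb)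
    rw [hε', jacobiSym.mul_left, jacobiSym.sq_one' (by simpa using hc), one_mul, jacobiSym.mul_left]
    exact hJ b ho hb8 fun q hq h2 hd => hb q hq h2 (hk ▸ hd.mul_left _)
  have two : ∀ q : ℕ, q.Prime → q ≠ 2 → 2 % q ≠ 0 ∧ 2 % q ≠ 1 := fun q hq h2 => by
    have := hq.two_le
    rw [Nat.mod_eq_of_lt (by omega)]; omega
  have m1 : ∀ b : ℕ, b % 4 = 1 → jacobiSym ε b = 1 := fun b hb => by
    rcases hε with rfl | rfl
    · exact jacobiSym.one_left b
    · rw [jacobiSym.at_neg_one (Nat.odd_iff.2 (by omega)), ZMod.χ₄_nat_one_mod_four hb]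
  have t2 : ∀ b : ℕ, Odd b → jacobiSym 2 b = if b % 8 = 1 ∨ b % 8 = 7 then 1 else -1 := fun b hb => by
    rw [jacobiSym.at_two hb, ZMod.χ₈_nat_eq_if_mod_eight, if_neg (by rw [Nat.odd_iff.1 hb]; omega)]
  by_cases hA : ∃ l : ℕ, l.Prime ∧ 5 ≤ l ∧ l ∣ s
  · obtain ⟨l, hl, h5, s1, rfl⟩ := hA
    have hls : ¬ l ∣ s1 := fun h => hl.ne_one (Nat.isUnit_iff.1 (hs l (Nat.mul_dvd_mul_left l h)))
    obtain ⟨e, s', ho, rfl⟩ := Nat.exists_eq_two_pow_mul_odd (n := s1) (fun h => hls (h ▸ dvd_zero l))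
    have := Fact.mk hl
    obtain ⟨r, hr, hrJ⟩ : ∃ r : ℕ, (r % l ≠ 0 ∧ r % l ≠ 1) ∧ jacobiSym r l * jacobiSym (2 : ℕ) s' = -1 := by
      rcases jacobiSym.eq_one_or_neg_one (a := (2 : ℕ)) (b := s')
        (Nat.coprime_two_left.2 ho) with h | h
      · obtain ⟨x, hx⟩ := FiniteField.exists_nonsquare (F := ZMod l) (by rw [ZMod.ringChar_zmod_n]; omega)
        refine ⟨x.val, ?_, ?_⟩
        · rw [Nat.mod_eq_of_lt (ZMod.val_lt x)]
          refine ⟨fun e => hx ?_, fun e => hx ?_⟩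
          · rw [(ZMod.val_eq_zero x).1 e]; exact IsSquare.zero
          · rw [← ZMod.natCast_zmod_val x, e, Nat.cast_one]; exact IsSquare.one
        · rw [h, mul_one, ZMod.nonsquare_iff_jacobiSym_eq_neg_one]
          simpa using hx
      · refine ⟨4, by rw [Nat.mod_eq_of_lt (by omega)]; omega, ?_⟩
        have h4 : jacobiSym ((2 : ℤ) ^ 2) l = 1 := jacobiSym.sq_one'
          (Nat.coprime_two_left.2 (hl.odd_of_ne_two (by omega)))
        rw [h, show ((4 : ℕ) : ℤ) = 2 ^ 2 by norm_num, h4, one_mul]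
    refine main 1 (fun q => if q = l then r else 2) rfl (fun q hq h2 => ?_) fun b hb h8 hq => ?_
    · split_ifs with h
      · exact h ▸ hr
      · exact two q hq h2
    · have b4 : b % 4 = 1 := by omega
      have h1 := hq l hl (by omega) (dvd_mul_right _ _)
      rw [if_pos rfl] at h1
      push_cast
      rw [m1 b b4, one_mul, jacobiSym.mul_left, jacobiSym.mul_left, jacobiSym.pow_left, t2 b hb, if_pos (by omega),
        one_pow, one_mul, jacobiSym.quadratic_reciprocity_one_mod_four' (hl.odd_of_ne_two (by omega)) b4,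
        jacobiSym.quadratic_reciprocity_one_mod_four' ho b4, ← hrJ,
        cls_congr (c := r) hl.ne_zero fun q hq' hd => (Nat.prime_dvd_prime_iff_eq hq' hl).1 hd ▸ h1,
        cls_congr (c := 2) (ho.pos.ne') fun q hq' hd => ?_]
      have h2 : q ≠ 2 := fun e => (Nat.not_even_iff_odd.2 ho) (even_iff_two_dvd.2 (e ▸ hd))
      have := hq q hq' h2 ((hd.mul_left _).mul_left _)
      rwa [if_neg fun (e : q = l) => hls (e ▸ hd.mul_left _)] at this
  have h6 : s ∣ 6 := by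
    rw [← Nat.prod_primeFactors_of_squarefree hs, show 6 = ∏ q ∈ ({2, 3} : Finset ℕ), q by rfl]
    refine Finset.prod_dvd_prod_of_subset _ _ _ fun q hq => ?_
    obtain ⟨h1, h2, _⟩ := Nat.mem_primeFactors.1 hq
    have h3 : q < 5 := not_le.1 fun h => hA ⟨q, h1, h, h2⟩
    have h4 : q ≠ 4 := fun e => absurd (e ▸ h1) (by decide)
    have h5 := h1.two_le
    rw [Finset.mem_insert, Finset.mem_singleton]
    omega
  have t3 : ∀ b : ℕ, b % 8 = 1 → b ≡ 2 [MOD 3] → jacobiSym 3 b = -1 := fun b hb h => by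
    have := jacobiSym.quadratic_reciprocity_one_mod_four' (a := 3) (by decide) (show b % 4 = 1 by omega)
    rw [cls_congr (c := 2) three_ne_zero fun q hq hd => (Nat.prime_dvd_prime_iff_eq hq Nat.prime_three).1 hd ▸ h]
      at this
    exact this.trans (by norm_num)
  have := Nat.le_of_dvd (by norm_num) h6
  interval_cases s
  · omega
  · rcases hε with rfl | rfl
    · exact absurd ⟨k, by rw [hε']; simp [sq]⟩ hsq
    · refine main 3 (fun _ => 2) rfl two fun b hb h8 _ => ?_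
      rw [jacobiSym.at_neg_one hb, ZMod.χ₄_nat_three_mod_four (by omega), Nat.cast_one, jacobiSym.one_left]; rfl
  · rcases hε with rfl | rfl
    · refine main 3 (fun _ => 2) rfl two fun b hb h8 _ => ?_
      rw [jacobiSym.one_left, Nat.cast_ofNat, t2 b hb, if_neg (by omega)]; rfl
    · refine main 5 (fun _ => 2) rfl two fun b hb h8 _ => ?_
      rw [m1 b (by omega), Nat.cast_ofNat, t2 b hb, if_neg (by omega)]; rfl
  · refine main 1 (fun _ => 2) rfl two fun b hb h8 h => ?_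
    rw [m1 b (by omega), Nat.cast_ofNat, t3 b h8 (h 3 Nat.prime_three (by norm_num) dvd_rfl)]; rfl
  · omega
  · omega
  · refine main 1 (fun _ => 2) rfl two fun b hb h8 h => ?_
    rw [m1 b (by omega), show ((6 : ℕ) : ℤ) = 2 * 3 by norm_num, jacobiSym.mul_left, t2 b hb, if_pos (by omega),
      t3 b h8 (h 3 Nat.prime_three (by norm_num) (by norm_num))]; rfl

/-- adding a prime `q ∤ M`, `q ≥ 3`, to the modulus: `S' = {b < M q : b % M ∈ S, b % q ≠ 0, 1}` has `#S (q - 2)`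
elements (CRT: `b ↦ (b % M, b % q)` is a bijection `range (M q) → range M × range q`; only the inequality is needed:
inject `S × Ico 2 q` by `Nat.chineseRemainder`, `Nat.chineseRemainder_lt_mul`). -/
theorem card_step {M q : ℕ} (hM : 1 ≤ M) (hq : q.Prime) (hc : Nat.Coprime M q) {S : Finset ℕ}
    (hS : ∀ b ∈ S, b < M) :
    S.card * (q - 2) ≤ ((range (M * q)).filter (fun b => b % M ∈ S ∧ b % q ≠ 0 ∧ b % q ≠ 1)).card := by
  rw [← Nat.card_Ico 2 q, ← Finset.card_product]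
  refine Finset.card_le_card_of_injOn (fun x => (Nat.chineseRemainder hc x.1 x.2 : ℕ)) (fun x hx => ?_)
    fun x hx y hy e => ?_
  · obtain ⟨h1, h2⟩ := Finset.mem_product.1 hx
    obtain ⟨h3, h4⟩ := Finset.mem_Ico.1 h2
    obtain ⟨h5, h6⟩ := (Nat.chineseRemainder hc x.1 x.2).2
    rw [Nat.ModEq, Nat.mod_eq_of_lt (hS _ h1)] at h5
    rw [Nat.ModEq, Nat.mod_eq_of_lt h4] at h6
    refine Finset.mem_filter.2 ⟨Finset.mem_range.2 (Nat.chineseRemainder_lt_mul hc _ _ (by omega) hq.ne_zero), ?_⟩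
    rw [h5, h6]
    exact ⟨h1, by omega, by omega⟩
  · obtain ⟨h1, h2⟩ := Finset.mem_product.1 hx
    obtain ⟨h3, h4⟩ := Finset.mem_product.1 hy
    obtain ⟨h5, h6⟩ := (Nat.chineseRemainder hc x.1 x.2).2
    obtain ⟨h7, h8⟩ := (Nat.chineseRemainder hc y.1 y.2).2
    beta_reduce at e
    rw [e] at h5 h6
    exact Prod.ext (Nat.ModEq.eq_of_lt_of_lt (h5.symm.trans h7) (hS _ h1) (hS _ h3))
      (Nat.ModEq.eq_of_lt_of_lt (h6.symm.trans h8) (Finset.mem_Ico.1 h2).2 (Finset.mem_Ico.1 h4).2)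

/-- **Good classes have density `≫ 1/√z`.**  Let `D = 4|a|`, `b₀` from `exists_b0`.  Prove by induction on `k ≥ 0`
the existence of `M, S` with: `D ∣ M`, every prime factor of `M` divides `D` or is `≤ 2k+1`; every `b ∈ S` is `< M`,
coprime to `M`, `b ≡ b₀ (D)`; every odd prime `q ≤ 2k+1` divides `M`, and `b % q ≠ 1` for all odd primes `q ∣ M`;
`φ(M)² ≤ 4 φ(D)² #S² max 1 (2k)`... (any constant).  Start: `M = D`, `S = {b₀ % D}`.  Step: if `q = 2k+3` is a prime not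
dividing `D`, use `card_step`, `φ(M q) = φ(M) (q-1)` and `(q-1)² (q-3) ≤ (q-2)² (q-1)`; (for `k = 0`, `q = 3` lose a
constant factor); otherwise keep `M, S`.  For a prime `p` with `p % M ∈ S`: `p ≡ b₀ (4|a|)`, so `p` is odd and
`J(a|p) = J(a|b₀) = -1` (`jacobiSym.mod_right`), hence `p ∤ a` and `a^((p-1)/2) = -1 ≠ 1` in `ZMod p`
(`legendreSym.eq_pow`, `jacobiSym.legendreSym.to_jacobiSym`); an odd prime `q ≤ z` divides `M` and `p % q ≠ 1`, so
`q ∤ p - 1`. -/
theorem exists_cls (a : ℤ) (hsq : ¬ IsSquare a) : ∃ c : ℝ, 0 < c ∧ ∀ z : ℕ, 1 ≤ z →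
    ∃ (M : ℕ) (S : Finset ℕ), GoodCls a z M S ∧ c * M.totient ≤ S.card * Real.sqrt z := by
  have ha : a ≠ 0 := fun h => hsq (h ▸ IsSquare.zero)
  obtain ⟨b0, ho, hJ, hb⟩ := exists_b0 a hsq
  set D := 4 * a.natAbs with hD
  have hD0 : 0 < D := Nat.mul_pos (by norm_num) (Int.natAbs_pos.2 ha)
  have cm : ∀ b M : ℕ, Nat.Coprime (b % M) M ↔ Nat.Coprime b M := fun b M => by
    rw [Nat.Coprime, ← Nat.gcd_rec, Nat.gcd_comm]
  have hq4 : ∀ q : ℕ, q.Prime → q ≠ 2 → q ∣ D → (q : ℤ) ∣ a := fun q hq h2 hd =>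
    Int.natCast_dvd.2 ((hq.dvd_mul.1 hd).resolve_left fun h =>
      h2 ((Nat.prime_dvd_prime_iff_eq hq Nat.prime_two).1 (hq.dvd_of_dvd_pow (n := 2) h)))
  have key : ∀ k : ℕ, ∃ (M : ℕ) (S : Finset ℕ), D ∣ M ∧ 1 ≤ M ∧
      (∀ b ∈ S, b < M ∧ Nat.Coprime b M ∧ b ≡ b0 [MOD D] ∧ ∀ q : ℕ, q.Prime → q ≠ 2 → q ∣ M → b % q ≠ 1) ∧
      (∀ q : ℕ, q.Prime → q ≠ 2 → q ≤ 2 * k + 1 → q ∣ M) ∧
      M.totient ^ 2 ≤ D.totient ^ 2 * S.card ^ 2 * max 1 (4 * k) := by
    intro k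
    induction k with
    | zero =>
      refine ⟨D, {b0 % D}, dvd_rfl, hD0, fun b hb' => ?_, fun q hq _ h => absurd hq.two_le (by omega), by simp⟩
      obtain rfl := Finset.mem_singleton.1 hb'
      refine ⟨Nat.mod_lt _ hD0, (cm _ _).2 (Nat.coprime_of_dvd fun q hq h1 h2 => ?_), Nat.mod_modEq _ _,
        fun q hq h2 hd => by rw [Nat.mod_mod_of_dvd _ hd]; exact (hb q hq h2 (hq4 q hq h2 hd)).2⟩
      have h3 : q ≠ 2 := fun e => (Nat.not_even_iff_odd.2 ho) (even_iff_two_dvd.2 (e ▸ h1))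
      exact (hb q hq h3 (hq4 q hq h3 h2)).1 (Nat.mod_eq_zero_of_dvd h1)
    | succ k ih =>
      obtain ⟨M, S, h1, h2, h3, h4, h5⟩ := ih
      have hev : ∀ q : ℕ, q.Prime → q ≠ 2 → q ≤ 2 * (k + 1) + 1 → q ∣ M ∨ q = 2 * k + 3 := fun q hq hq2 hle => by
        have := Nat.odd_iff.1 (hq.odd_of_ne_two hq2)
        by_cases h : q ≤ 2 * k + 1
        · exact Or.inl (h4 q hq hq2 h)
        · exact Or.inr (by omega)
      by_cases hc : (2 * k + 3).Prime ∧ ¬ (2 * k + 3) ∣ M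
      · have hco : Nat.Coprime M (2 * k + 3) := ((Nat.Prime.coprime_iff_not_dvd hc.1).2 hc.2).symm
        refine ⟨M * (2 * k + 3), (range (M * (2 * k + 3))).filter
          (fun b => b % M ∈ S ∧ b % (2 * k + 3) ≠ 0 ∧ b % (2 * k + 3) ≠ 1), h1.mul_right _,
          Nat.mul_pos h2 (by omega), fun b hb' => ?_, fun q hq hq2 hle => ?_, ?_⟩
        · obtain ⟨g1, g2, g3, g4⟩ := Finset.mem_filter.1 hb'
          obtain ⟨_, g6, g7, g8⟩ := h3 _ g2
          refine ⟨Finset.mem_range.1 g1, Nat.Coprime.mul_right ((cm _ _).1 g6)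
            ((Nat.Prime.coprime_iff_not_dvd hc.1).2 fun h => g3 (Nat.mod_eq_zero_of_dvd h)).symm,
            ((Nat.mod_modEq b M).of_dvd h1).symm.trans g7, fun q hq hq2 hd => ?_⟩
          rcases hq.dvd_mul.1 hd with h | h
          · rw [← Nat.mod_mod_of_dvd _ h]; exact g8 q hq hq2 h
          · rw [(Nat.prime_dvd_prime_iff_eq hq hc.1).1 h]; exact g4
        · rcases hev q hq hq2 hle with h | rfl
          · exact h.mul_right _
          · exact dvd_mul_left _ _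
        · have g1 := card_step h2 hc.1 hco fun b hb' => (h3 b hb').1
          have g2 : (2 * k + 2) ^ 2 * max 1 (4 * k) ≤ (2 * k + 1) ^ 2 * max 1 (4 * (k + 1)) := by
            rcases Nat.eq_zero_or_pos k with rfl | hk
            · norm_num
            · rw [max_eq_right (by omega), max_eq_right (by omega)]; nlinarith
          rw [Nat.totient_mul hco, Nat.totient_prime hc.1, mul_pow]
          change S.card * (2 * k + 1) ≤ _ at g1
          change _ * (2 * k + 2) ^ 2 ≤ _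
          calc _ ≤ D.totient ^ 2 * S.card ^ 2 * max 1 (4 * k) * (2 * k + 2) ^ 2 := by gcongr
            _ = D.totient ^ 2 * S.card ^ 2 * ((2 * k + 2) ^ 2 * max 1 (4 * k)) := by ring
            _ ≤ D.totient ^ 2 * S.card ^ 2 * ((2 * k + 1) ^ 2 * max 1 (4 * (k + 1))) := by gcongr
            _ = D.totient ^ 2 * (S.card * (2 * k + 1)) ^ 2 * max 1 (4 * (k + 1)) := by ring
            _ ≤ _ := by gcongr
      · refine ⟨M, S, h1, h2, h3, fun q hq hq2 hle => ?_, h5.trans (by gcongr; omega)⟩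
        rcases hev q hq hq2 hle with h | rfl
        · exact h
        · exact not_not.1 fun h => hc ⟨hq, h⟩
  have hφ : (0 : ℝ) < D.totient := by exact_mod_cast Nat.totient_pos.2 hD0
  refine ⟨1 / (2 * D.totient), by positivity, fun z hz => ?_⟩
  obtain ⟨M, S, h1, h2, h3, h4, h5⟩ := key (z / 2)
  refine ⟨M, S, ⟨h2, fun b hb' => ⟨(h3 b hb').1, (h3 b hb').2.1⟩, fun p hp hS => ?_⟩, ?_⟩
  · obtain ⟨_, _, g1, g2⟩ := h3 _ hS
    have g3 : p ≡ b0 [MOD D] := ((Nat.mod_modEq p M).of_dvd h1).symm.trans g1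
    have g4 : Odd p := by
      have : p ≡ b0 [MOD 2] := g3.of_dvd (Dvd.dvd.mul_right (by norm_num) _)
      rw [Nat.odd_iff, this, Nat.odd_iff.1 ho]
    have := Fact.mk hp
    have g5 : legendreSym p a = -1 := by
      rw [jacobiSym.legendreSym.to_jacobiSym, jacobiSym.mod_right a g4, ← hJ, jacobiSym.mod_right a ho, ← hD, g3]
    refine ⟨fun h => ?_, fun q hq hqz hd => ?_⟩
    · rw [(legendreSym.eq_zero_iff p a).2 ((ZMod.intCast_zmod_eq_zero_iff_dvd a p).2 h)] at g5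
      omega
    · have g6 := Nat.odd_iff.1 g4
      have g7 := hp.two_le
      by_cases h : q = 2
      · subst h
        have := Fact.mk (show 2 < p by omega)
        rw [show (p - 1) / 2 = p / 2 by omega, ← legendreSym.eq_pow, g5]
        simpa using ZMod.neg_one_ne_one
      · have g8 := h4 q hq h (by omega)
        refine absurd ?_ (g2 q hq h g8)
        rw [Nat.mod_mod_of_dvd _ g8, ← Nat.mod_eq_of_lt hq.one_lt]
        exact ((Nat.modEq_iff_dvd' hp.one_le).2 hd).symm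
  · have g1 : (M.totient : ℝ) ^ 2 ≤ (2 * D.totient * (S.card * Real.sqrt z)) ^ 2 := by
      have g2 : M.totient ^ 2 ≤ D.totient ^ 2 * S.card ^ 2 * (4 * z) := h5.trans (by gcongr; omega)
      have g3 : (M.totient : ℝ) ^ 2 ≤ D.totient ^ 2 * S.card ^ 2 * (4 * z) := by exact_mod_cast g2
      rw [mul_pow, mul_pow, mul_pow, Real.sq_sqrt (Nat.cast_nonneg z)]
      linarith
    rw [one_div, inv_mul_le_iff₀ (by positivity)]
    exact le_of_sq_le_sq g1 (by positivity)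

end Crest.Agent.R27
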