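import Crest.Agent.R312.BDefs
import Crest.Agent.R312.B7Euler

/-!
# R27 / KDefs : the Kummer bound, definitions and README (helper4).  DO NOT EDIT.

GOAL (`R27/KB.lean`): `kb a : 2 ≤ |a| → KB a`, an upper bound for the primes `p ≤ y`, `p ≡ 1 mod q`, modulo
which `a` is a `q`-th power, uniform in the prime `q`.

PROOF.  `r = q > max(|a|,3)` prime, `F = ℚ(ζ_r) ⊆ K = ℚ(ζ_{3r})`, `f = 3 r |a|`.
* `KChr1-3`: a ray class character `ψ ≠ one0 f` of `F` mod `f`, `ψ^r = 1`, with `ψ(P) = 1 ↔ a^((l-1)/r) = 1 mod l`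
  for `N P = l` prime (Eisenstein reciprocity through Stickelberger, on top of `R312/B8*`).
* `KLF` (on top of the port `R27/T*`): `L(s,ψ)` continues for every ray class character of `ℚ(ζ_m)`, `m ≥ 3`,
  with uniform growth.
* `KEul`: `Lser ψ s = exp (∑_l c1 ψ l · l^{-s} + h s)`, `h` holomorphic and bounded on `Re s > 5/8`.
* `ψ_j = pw f ψ j`, `φ_j = ψ_j · χ₋₃(N ·)`, `Ψ_j = pw f (ψ ∘ N_{K/F}) j`; `∑_j c1 Ψ_j = ∑_j c1 ψ_j + ∑_j c1 φ_j`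
  (`KCnt`, `KNrm`), so `∏ L_K(Ψ_j) = e^H ∏ L_F(ψ_j) ∏ L_F(φ_j)`; the left side has no zero on `Re s > 11/12`
  (`R312.zf`, hypothesis `ZFK`), hence `ZZ r ψ = (s-1) ∏_j L_F(ψ_j)` has none (`KZf`).
* `KAna`: Borel-Carathéodory + Riesz mean give `∑_{l ≤ y} c(l) log l ≤ 2 y + C A y^{15/16}` for
  `c = ∑_j c1 ψ_j = r (r-1) 1[l ≡ 1, a is an r-th power mod l, l ∤ f]` (`KBd`, `KMain`).
-/

set_option autoImplicit false
set_option linter.unusedSectionVars false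
set_option linter.unusedVariables false

noncomputable section

open Finset NumberField
open scoped Classical

namespace Crest.Agent.R27

open Crest.Agent.R312 (Lser Ef Lf one0 PI)

/-- the Kummer bound -/
def KB (a : ℤ) : Prop := ∃ (C : ℝ) (A q0 : ℕ) (th : ℝ), 0 ≤ C ∧ th < 1 ∧ ∀ q : ℕ, q.Prime → q0 ≤ q →
  ∀ y : ℝ, 1 ≤ y →
    ∑ p ∈ (Icc 1 ⌊y⌋₊).filter (fun p : ℕ => p.Prime ∧ p % q = 1 ∧ (a : ZMod p) ^ ((p - 1) / q) = 1),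
      Real.log p ≤ C * (y / (q : ℝ) ^ 2 + y ^ th * (q : ℝ) ^ A)

variable {k : Type} [Field k] [NumberField k]

/-- `I` is prime to the integer `f` -/
abbrev Cop (f : ℕ) (I : Ideal (𝓞 k)) : Prop := IsCoprime I (Ideal.span {(f : 𝓞 k)})

/-- ray class characters modulo the integer `f` (trivial at infinity) -/
structure RC (f : ℕ) (ψ : Ideal (𝓞 k) → ℂ) : Prop where
  two_le : 2 ≤ f
  one : ψ 1 = 1
  mul : ∀ I J, ψ (I * J) = ψ I * ψ J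
  zero : ∀ I, ¬ Cop f I → ψ I = 0
  norm : ∀ I, Cop f I → ‖ψ I‖ = 1
  ray : ∀ x : 𝓞 k, (f : 𝓞 k) ∣ x - 1 → ψ (Ideal.span {x}) = 1

/-- analytic continuation of `(s-1) L(s,ψ)` -/
structure Ana (f : ℕ) (ψ : Ideal (𝓞 k) → ℂ) : Prop where
  diff : Differentiable ℂ (Ef ψ)
  eq : ∀ s : ℂ, 1 < s.re → Ef ψ s = (s - 1) * Lser ψ s
  zero : ψ ≠ one0 f → Ef ψ 1 = 0
  pole : ψ = one0 f → Ef ψ 1 ≠ 0

/-- growth of an entire function in the strip `0 ≤ Re s ≤ 4` -/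
def Gr (E : ℂ → ℂ) (A : ℝ) : Prop :=
  ∀ s : ℂ, 0 ≤ s.re → s.re ≤ 4 → ‖E s‖ ≤ Real.exp (A * Real.log (3 + |s.im|))

variable (k) in
/-- the ideals of norm `l` -/
def D1 (l : ℕ) : Finset (Ideal (𝓞 k)) := (Ideal.finite_setOfPred_absNorm_eq (S := 𝓞 k) l).toFinset

/-- the sum of `ψ` over the primes of degree one above `l` -/
def c1 (ψ : Ideal (𝓞 k) → ℂ) (l : ℕ) : ℂ := if l.Prime then ∑ P ∈ D1 k l, ψ P else 0

variable (k) in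
/-- no non-principal character mod `f` is trivial on all primes of degree one -/
def Gen (f : ℕ) : Prop := ∀ ψ : Ideal (𝓞 k) → ℂ, RC f ψ → ψ ≠ one0 f →
  ∃ P : Ideal (𝓞 k), (Ideal.absNorm P).Prime ∧ Cop f P ∧ ψ P ≠ 1

/-- the `j`-th power of a character mod `f` -/
def pw (f : ℕ) (ψ : Ideal (𝓞 k) → ℂ) (j : ℕ) (I : Ideal (𝓞 k)) : ℂ := one0 f I * ψ I ^ j

/-- the character `χ₋₃` -/
def chi3 (n : ℕ) : ℂ := if n % 3 = 1 then 1 else if n % 3 = 2 then -1 else 0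

/-- twist by `χ₋₃ ∘ N` -/
def tw3 (ψ : Ideal (𝓞 k) → ℂ) (I : Ideal (𝓞 k)) : ℂ := ψ I * chi3 (Ideal.absNorm I)

/-- `(s-1) ∏_{j<r} L(s,ψ_j)` when `ψ_0` is the only principal character -/
def ZZ (r : ℕ) (ψ : ℕ → Ideal (𝓞 k) → ℂ) (s : ℂ) : ℂ := Ef (ψ 0) s * ∏ j ∈ Ico 1 r, Lf (ψ j) s

/-- the zero-free half plane over `ℚ(ζ_m)`, `3 ∣ m` (this is `R312.zf`) -/
def ZFK : Prop := ∀ (m : ℕ) [NeZero m], 3 ∣ m → ∀ (K : Type) [Field K] [NumberField K]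
  [IsCyclotomicExtension {m} ℚ K] (f : ℕ) (ψ : Ideal (𝓞 K) → ℂ), RC f ψ →
    ∀ s : ℂ, 11 / 12 < s.re → (s ≠ 1 ∨ ψ ≠ one0 f) → Lf ψ s ≠ 0

/-- continuation and uniform growth over `ℚ(ζ_m)`, `m ≥ 3` (proved in `R27/KLF.lean`) -/
def AnC : Prop := ∃ C : ℝ, 1 ≤ C ∧ ∀ (m : ℕ) [NeZero m], 3 ≤ m → ∀ (K : Type) [Field K] [NumberField K]
  [IsCyclotomicExtension {m} ℚ K] (f : ℕ) (ψ : Ideal (𝓞 K) → ℂ), RC f ψ →
    Ana f ψ ∧ Gr (Ef ψ) (C * (m : ℝ) ^ 2 * f)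

end Crest.Agent.R27
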