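import Crest.Agent.R27.ASm
import Crest.Agent.R27.ACls
import Crest.Agent.R27.KDefs

/-!
# R27 / AFin : Artin's conjecture from Theorem T in progressions and the Kummer bound
-/

set_option autoImplicit false
open Finset Real Filter Topology
open scoped Classical

namespace Crest.Agent.R27

open Crest.Agent.R26

/-- primes in `(y,2y]` modulo which `a` is a `q`-th power for a prime `q ∣ p - 1` in `(z, w]` -/
noncomputable def Bad (a : ℤ) (z : ℕ) (w : ℝ) (y : ℕ) : Finset ℕ :=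
  (Ioc y (2 * y)).filter fun p => p.Prime ∧ ∃ q : ℕ, q.Prime ∧ z < q ∧ (q : ℝ) ≤ w ∧ q ∣ p - 1 ∧
    (a : ZMod p) ^ ((p - 1) / q) = 1

/-- primes in `(y,2y]` with primitive root `a` -/
noncomputable def Art (a : ℤ) (y : ℕ) : Finset ℕ :=
  (Ioc y (2 * y)).filter fun p => p.Prime ∧ ¬ (p : ℤ) ∣ a ∧ orderOf (a : ZMod p) = p - 1

theorem bad_count {a : ℤ} (hK : KB a) : ∃ δ : ℝ, 0 < δ ∧ δ ≤ 1 ∧ ∃ C : ℝ, 0 ≤ C ∧ ∃ z0 : ℕ,
    ∀ z : ℕ, z0 ≤ z → 1 ≤ z → ∀ ε : ℝ, 0 < ε → ∀ᶠ y : ℕ in atTop,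
      ((Bad a z (((2 * y : ℕ) : ℝ) ^ δ) y).card : ℝ) ≤ (C / z + ε) * (y / Real.log y) := by
  obtain ⟨C, A, q0, th, hC, hth, h⟩ := hK
  set c : ℝ := (1 - th) / 2 with hc
  have hc0 : 0 < c := by rw [hc]; linarith
  set δ : ℝ := min 1 (c / (A + 1)) with hδ
  have hδ0 : 0 < δ := lt_min one_pos (by positivity)
  have hδc : (A + 1) * δ ≤ c := by
    have : δ ≤ c / (A + 1) := min_le_right _ _
    rwa [le_div_iff₀' (by positivity)] at this
  refine ⟨δ, hδ0, min_le_left _ _, 2 * C, by positivity, q0, fun z hz0 hz ε hε => ?_⟩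
  filter_upwards [ev_rpow_small hc0 (2 * C) hε, eventually_ge_atTop 2] with y h1 hy
  have h0 : (2 : ℝ) ≤ y := by exact_mod_cast hy
  have hL : 0 < Real.log y := Real.log_pos (by linarith)
  set Y : ℝ := ((2 * y : ℕ) : ℝ) with hY
  have hY' : Y = 2 * y := by rw [hY]; push_cast; ring
  have hY1 : 1 ≤ Y := by linarith
  set w : ℝ := Y ^ δ with hw
  have hw0 : 0 ≤ w := by positivity
  set Q := (Ioc z ⌊w⌋₊).filter Nat.Prime with hQ
  set B : ℕ → Finset ℕ := fun q => (Ioc y (2 * y)).filter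
    (fun p : ℕ => p.Prime ∧ p % q = 1 ∧ (a : ZMod p) ^ ((p - 1) / q) = 1) with hB
  have a1 : Bad a z w y ⊆ Q.biUnion B := by
    intro p hp
    obtain ⟨b1, b2, q, b3, b4, b5, b6, b7⟩ := mem_filter.1 hp
    refine mem_biUnion.2 ⟨q, mem_filter.2 ⟨mem_Ioc.2 ⟨b4, Nat.le_floor b5⟩, b3⟩,
      mem_filter.2 ⟨b1, b2, ?_, b7⟩⟩
    obtain ⟨k, hk⟩ := b6
    have := b2.one_le
    rw [show p = 1 + q * k by omega, Nat.add_mul_mod_self_left, Nat.mod_eq_of_lt b3.one_lt]
  have a2 : ∀ q ∈ Q, ((B q).card : ℝ) * Real.log y ≤ C * (Y * ((q : ℝ) ^ 2)⁻¹ + Y ^ th * w ^ A) := by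
    intro q hq
    obtain ⟨b1, b2⟩ := mem_filter.1 hq
    have b3 := mem_Ioc.1 b1
    have b4 := h q b2 (by omega) Y hY1
    rw [hY, Nat.floor_natCast, ← hY] at b4
    have b5 : (q : ℝ) ≤ w := (Nat.le_floor_iff hw0).1 b3.2
    calc ((B q).card : ℝ) * Real.log y ≤ ∑ p ∈ B q, Real.log p := by
          rw [← nsmul_eq_mul]
          refine card_nsmul_le_sum _ _ _ fun p hp => ?_
          have := (mem_Ioc.1 (mem_filter.1 hp).1).1
          exact Real.log_le_log (by linarith) (by exact_mod_cast this.le)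
      _ ≤ _ := by
          refine sum_le_sum_of_subset_of_nonneg (fun p hp => ?_) fun p _ _ => Real.log_natCast_nonneg p
          obtain ⟨c1, c2⟩ := mem_filter.1 hp
          have := mem_Ioc.1 c1
          exact mem_filter.2 ⟨mem_Icc.2 ⟨by omega, this.2⟩, c2⟩
      _ ≤ _ := b4
      _ ≤ _ := by
          rw [div_eq_mul_inv]
          gcongr
  have a3 : ∑ q ∈ Q, ((q : ℝ) ^ 2)⁻¹ ≤ (z : ℝ)⁻¹ := by
    by_cases hzw : z ≤ ⌊w⌋₊
    · refine (sum_le_sum_of_subset_of_nonneg (filter_subset _ _) fun _ _ _ => by positivity).trans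
        ((sum_Ioc_inv_sq_le_sub (by omega) hzw).trans (sub_le_self _ (by positivity)))
    · rw [hQ, Ioc_eq_empty (by omega), filter_empty, sum_empty]
      positivity
  have a4 : (Q.card : ℝ) ≤ w := by
    refine le_trans ?_ (Nat.floor_le hw0)
    have := card_filter_le (Ioc z ⌊w⌋₊) Nat.Prime
    rw [Nat.card_Ioc] at this
    exact_mod_cast this.trans (Nat.sub_le _ _)
  have a5 : w * (Y ^ th * w ^ A) ≤ 2 * (y : ℝ) ^ (1 - c) := by
    calc w * (Y ^ th * w ^ A) = Y ^ (th + (A + 1) * δ) := by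
          rw [Real.rpow_add (by linarith), mul_comm ((A : ℝ) + 1), Real.rpow_mul (by linarith), ← hw,
            show (A : ℝ) + 1 = ((A + 1 : ℕ) : ℝ) by push_cast; ring, Real.rpow_natCast]
          ring
      _ ≤ Y ^ (1 - c) := Real.rpow_le_rpow_of_exponent_le hY1 (by linarith)
      _ ≤ _ := by
          rw [hY', Real.mul_rpow (by norm_num) (by linarith)]
          refine mul_le_mul_of_nonneg_right ?_ (by positivity)
          calc (2 : ℝ) ^ (1 - c) ≤ 2 ^ (1 : ℝ) :=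
                Real.rpow_le_rpow_of_exponent_le (by norm_num) (by linarith)
            _ = 2 := Real.rpow_one 2
  have a6 : ((Bad a z w y).card : ℝ) * Real.log y ≤ (2 * C / z + ε) * y := by
    calc ((Bad a z w y).card : ℝ) * Real.log y ≤ (∑ q ∈ Q, ((B q).card : ℝ)) * Real.log y := by
          refine mul_le_mul_of_nonneg_right ?_ hL.le
          exact_mod_cast (card_le_card a1).trans card_biUnion_le
      _ ≤ ∑ q ∈ Q, C * (Y * ((q : ℝ) ^ 2)⁻¹ + Y ^ th * w ^ A) := by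
          rw [sum_mul]
          exact sum_le_sum a2
      _ = C * (Y * ∑ q ∈ Q, ((q : ℝ) ^ 2)⁻¹ + Q.card * (Y ^ th * w ^ A)) := by
          rw [← mul_sum, sum_add_distrib, ← mul_sum, sum_const, nsmul_eq_mul]
      _ ≤ C * (Y * (z : ℝ)⁻¹ + w * (Y ^ th * w ^ A)) := by gcongr
      _ ≤ C * (Y * (z : ℝ)⁻¹ + 2 * (y : ℝ) ^ (1 - c)) := by gcongr
      _ = 2 * C / z * y + 2 * C * (y : ℝ) ^ (1 - c) := by rw [hY']; ring
      _ ≤ _ := by linarith
  rw [← mul_div_assoc, le_div_iff₀ hL]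
  exact a6

theorem good_sub {a : ℤ} {z M : ℕ} {S : Finset ℕ} (h : GoodCls a z M S) (w : ℝ) (y : ℕ) :
    S.biUnion (fun b => (PC M b y).filter fun p => Smo w (p - 1)) ⊆ Art a y ∪ Bad a z w y := by
  intro p hp
  obtain ⟨b, hb, hp⟩ := mem_biUnion.1 hp
  obtain ⟨h1, h2⟩ := mem_filter.1 hp
  obtain ⟨h3, h4, h5⟩ := mem_filter.1 h1
  have h6 : p % M ∈ S := by rwa [h5, Nat.mod_eq_of_lt (h.cop b hb).1]
  obtain ⟨h7, h8⟩ := h.good p h4 h6
  by_cases hbad : p ∈ Bad a z w y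
  · exact mem_union_right _ hbad
  refine mem_union_left _ (mem_filter.2 ⟨h3, h4, h7, ?_⟩)
  have := Fact.mk h4
  have h9 : (a : ZMod p) ≠ 0 := fun e => h7 ((ZMod.intCast_zmod_eq_zero_iff_dvd a p).1 e)
  refine orderOf_eq_of_pow_and_pow_div_prime (by have := h4.two_le; omega)
    (ZMod.pow_card_sub_one_eq_one h9) fun q hq hqd e => ?_
  by_cases hz : q ≤ z
  · exact h8 q hq hz hqd e
  · exact hbad (mem_filter.2 ⟨h3, h4, q, hq, not_le.1 hz, h2 q hq hqd, hqd, e⟩)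

theorem artin_nat (hT : ∀ D b : ℕ, 1 ≤ D → ThmTD D b) (hP : PAP) {a : ℤ} (hsq : ¬ IsSquare a) (hK : KB a) :
    ∃ c : ℝ, 0 < c ∧ ∀ᶠ y : ℕ in atTop, c * (y / Real.log y) ≤ (Art a y).card := by
  obtain ⟨δ, hδ, hδ1, C, hC, z0, hbad⟩ := bad_count hK
  obtain ⟨κ, hκ, hsm⟩ := smooth_count hT hP hδ hδ1
  obtain ⟨c, hc, hcls⟩ := exists_cls a hsq
  have hs : Tendsto (fun z : ℕ => Real.sqrt z) atTop atTop :=
    Real.tendsto_sqrt_atTop.comp tendsto_natCast_atTop_atTop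
  obtain ⟨z, hz1, hz2, hz3⟩ := ((hs.eventually_ge_atTop (3 * C / (κ * c))).and
    ((eventually_ge_atTop z0).and (eventually_ge_atTop 1))).exists
  obtain ⟨M, S, hG, hS⟩ := hcls z hz3
  have hz0 : (0 : ℝ) < z := by exact_mod_cast hz3
  have hr : 0 < Real.sqrt z := Real.sqrt_pos.2 hz0
  set ε : ℝ := κ * c / (3 * Real.sqrt z) with hε
  have hε0 : 0 < ε := by positivity
  have hφ : (0 : ℝ) < M.totient := by exact_mod_cast Nat.totient_pos.2 hG.pos
  have b1 : C / z ≤ ε := by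
    rw [div_le_iff₀ (by positivity)] at hz1
    rw [hε, div_le_div_iff₀ hz0 (by positivity)]
    have := mul_le_mul_of_nonneg_right hz1 hr.le
    have e := Real.mul_self_sqrt hz0.le
    nlinarith
  have b2 : 3 * ε ≤ S.card * (κ / M.totient) := by
    rw [hε, ← mul_div_assoc, ← mul_div_assoc, div_le_div_iff₀ (by positivity) hφ]
    have := mul_le_mul_of_nonneg_left hS hκ.le
    nlinarith
  refine ⟨ε, hε0, ?_⟩
  filter_upwards [hbad z hz2 hz3 ε hε0, (eventually_all_finset S).2 fun b hb =>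
    hsm M b hG.pos (hG.cop b hb).2, eventually_ge_atTop 2] with y a1 a2 hy
  have h0 : (2 : ℝ) ≤ y := by exact_mod_cast hy
  have hL : 0 < Real.log y := Real.log_pos (by linarith)
  have hY : 0 < y / Real.log y := by positivity
  set w : ℝ := ((2 * y : ℕ) : ℝ) ^ δ
  have a3 := (card_le_card (good_sub hG w y)).trans (card_union_le _ _)
  rw [card_biUnion] at a3
  · have a4 : S.card * (κ / M.totient * (y / Real.log y)) ≤
        ∑ b ∈ S, (((PC M b y).filter fun p => Smo w (p - 1)).card : ℝ) := by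
      rw [← nsmul_eq_mul]
      exact card_nsmul_le_sum _ _ _ a2
    have a5 : ∑ b ∈ S, (((PC M b y).filter fun p => Smo w (p - 1)).card : ℝ) ≤
        (Art a y).card + (Bad a z w y).card := by exact_mod_cast a3
    have a6 := mul_le_mul_of_nonneg_right b2 hY.le
    have a7 := mul_le_mul_of_nonneg_right b1 hY.le
    nlinarith
  · intro b hb b' hb' hne
    rw [Function.onFun, disjoint_left]
    intro p h1 h2
    have e1 := (mem_filter.1 (mem_filter.1 h1).1).2.2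
    have e2 := (mem_filter.1 (mem_filter.1 h2).1).2.2
    exact hne (Nat.ModEq.eq_of_lt_of_lt (e1.symm.trans e2) (hG.cop b hb).1 (hG.cop b' hb').1)

theorem artin_real (hT : ∀ D b : ℕ, 1 ≤ D → ThmTD D b) (hP : PAP) (hK : ∀ a : ℤ, 2 ≤ |a| → KB a)
    (a : ℤ) (ha : a ≠ -1) (hsq : ¬ IsSquare a) :
    ∃ c : ℝ, 0 < c ∧ ∃ x₀ : ℝ, 2 ≤ x₀ ∧ ∀ x : ℝ, x₀ ≤ x →
      c * x / Real.log x ^ 2 ≤
        (Set.ncard {p : ℕ | p.Prime ∧ x < (p : ℝ) ∧ (p : ℝ) < 2 * x ∧ ¬ ((p : ℤ) ∣ a) ∧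
          orderOf ((a : ℤ) : ZMod p) = p - 1} : ℝ) := by
  have h2 : 2 ≤ |a| := by
    by_contra h
    have h0 : a ≠ 0 := by rintro rfl; exact hsq ⟨0, rfl⟩
    have h1 : a ≠ 1 := by rintro rfl; exact hsq ⟨1, rfl⟩
    have := abs_lt.1 (not_le.1 h)
    omega
  obtain ⟨c, hc, h⟩ := artin_nat hT hP hsq (hK a h2)
  obtain ⟨y0, hy0⟩ := eventually_atTop.1 h
  refine ⟨c / 2, by positivity, y0 + 3, by have := Nat.cast_nonneg (α := ℝ) y0; linarith, fun x hx => ?_⟩
  have hx3 : 3 ≤ x := by have := Nat.cast_nonneg (α := ℝ) y0; linarith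
  set y := ⌊x⌋₊ with hy
  have y1 : y0 + 3 ≤ y := Nat.le_floor (by push_cast; exact hx)
  have y2 : (y : ℝ) ≤ x := Nat.floor_le (by linarith)
  have y3 : x < y + 1 := Nat.lt_floor_add_one x
  have y4 : (3 : ℝ) ≤ y := by exact_mod_cast (by omega : 3 ≤ y)
  have l1 : 1 ≤ Real.log x := by
    rw [Real.le_log_iff_exp_le (by linarith)]
    linarith [Real.exp_one_lt_d9]
  have l2 : 0 < Real.log y := Real.log_pos (by linarith)
  have l3 : Real.log y ≤ Real.log x := Real.log_le_log (by linarith) y2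
  calc c / 2 * x / Real.log x ^ 2 = c * (x / 2 / Real.log x ^ 2) := by ring
    _ ≤ c * (y / Real.log y) := by
        refine mul_le_mul_of_nonneg_left (div_le_div₀ (by linarith) (by linarith) l2 (by nlinarith)) hc.le
    _ ≤ (Art a y).card := hy0 y (by omega)
    _ ≤ _ := by
        rw [← Set.ncard_coe_finset, Nat.cast_le]
        refine Set.ncard_le_ncard (fun p hp => ?_) ?_
        · obtain ⟨b1, b2, b3, b4⟩ := mem_filter.1 (mem_coe.1 hp)
          obtain ⟨b5, b6⟩ := mem_Ioc.1 b1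
          have b7 : (y : ℝ) + 1 ≤ p := by exact_mod_cast b5
          have b8 : p ≠ 2 * y := by
            rintro rfl
            have := (Nat.prime_mul_iff.1 b2)
            omega
          have b9 : (p : ℝ) < 2 * y := by exact_mod_cast lt_of_le_of_ne b6 b8
          exact ⟨b2, by linarith, by linarith, b3, b4⟩
        · refine (Set.finite_Iio ⌈2 * x⌉₊).subset fun p hp => ?_
          exact Nat.lt_ceil.2 hp.2.2.1

end Crest.Agent.R27
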