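import Crest.Agent.R27.ABV
import Crest.Agent.R26.Box

/-!
# R27 / ASm : primes `p ∈ (y, 2y]` in a fixed class with `p - 1` smooth
-/

set_option autoImplicit false
open Finset Real Filter Topology
open scoped Classical

namespace Crest.Agent.R27

open Crest.Agent.R26

/-- primes in `(y, 2y]` in the class `b (mod M)` -/
def PC (M b y : ℕ) : Finset ℕ := (Ioc y (2 * y)).filter (fun p => p.Prime ∧ p ≡ b [MOD M])

/-- all prime factors of `t` are `≤ w` -/
def Smo (w : ℝ) (t : ℕ) : Prop := ∀ q : ℕ, q.Prime → q ∣ t → (q : ℝ) ≤ w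

theorem sum_PC (M b y : ℕ) (F : ℕ → ℝ) : ∑ p ∈ PC M b y, F p =
    ∑ p ∈ (Icc 1 (2 * y)).filter (fun p => p.Prime ∧ p ≡ b [MOD M]), F p -
      ∑ p ∈ (Icc 1 y).filter (fun p => p.Prime ∧ p ≡ b [MOD M]), F p := by
  rw [eq_sub_iff_add_eq, PC, ← sum_union]
  · refine sum_congr ?_ fun _ _ => rfl
    ext p
    simp only [mem_union, mem_filter, mem_Ioc, mem_Icc]
    constructor
    · rintro (h | h)
      · exact ⟨by omega, h.2⟩
      · exact ⟨by omega, h.2⟩
    · intro h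
      by_cases hp : y < p
      · exact Or.inl ⟨by omega, h.2⟩
      · exact Or.inr ⟨by omega, h.2⟩
  · rw [disjoint_left]
    intro p h1 h2
    simp only [mem_filter, mem_Ioc, mem_Icc] at h1 h2
    omega

theorem ev_rpow_small {c : ℝ} (hc : 0 < c) (C : ℝ) {ε : ℝ} (hε : 0 < ε) :
    ∀ᶠ y : ℕ in atTop, C * (y : ℝ) ^ (1 - c) ≤ ε * y := by
  have h : Tendsto (fun y : ℕ => C * (y : ℝ) ^ (-c)) atTop (𝓝 (C * 0)) :=
    ((tendsto_rpow_neg_atTop hc).comp tendsto_natCast_atTop_atTop).const_mul C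
  rw [mul_zero] at h
  filter_upwards [h.eventually_le_const hε, eventually_ge_atTop 1] with y h1 hy
  have hy0 : (0 : ℝ) < y := by exact_mod_cast hy
  rw [sub_eq_neg_add, Real.rpow_add hy0, Real.rpow_one, ← mul_assoc]
  exact mul_le_mul_of_nonneg_right h1 hy0.le

theorem pc_card (hP : PAP) {M b : ℕ} (hM : 1 ≤ M) (hb : Nat.Coprime b M) :
    ∀ᶠ y : ℕ in atTop, y / Real.log y / (4 * M.totient) ≤ (PC M b y).card := by
  obtain ⟨c, hc, C, hC, h⟩ := hP
  have hφ : (0 : ℝ) < M.totient := by exact_mod_cast Nat.totient_pos.2 hM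
  filter_upwards [ev_rpow_small hc (3 * C) (show 0 < 1 / (2 * (M.totient : ℝ)) by positivity),
    eventually_ge_atTop M, eventually_ge_atTop 2] with y h1 hyM hy2
  have hy1 : (2 : ℝ) ≤ y := by exact_mod_cast hy2
  have hyM' : (M : ℝ) ≤ y := by exact_mod_cast hyM
  have a1 := h y M b hM hyM' hb
  have a2 := h (2 * y) M b hM (by linarith) hb
  rw [Nat.floor_natCast] at a1
  rw [show (2 * (y : ℝ)) = ((2 * y : ℕ) : ℝ) by push_cast; ring, Nat.floor_natCast] at a2
  have a3 : ((2 * y : ℕ) : ℝ) ^ (1 - c) ≤ 2 * (y : ℝ) ^ (1 - c) := by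
    push_cast
    rw [Real.mul_rpow (by norm_num) (by linarith)]
    refine mul_le_mul_of_nonneg_right ?_ (by positivity)
    calc (2 : ℝ) ^ (1 - c) ≤ 2 ^ (1 : ℝ) := Real.rpow_le_rpow_of_exponent_le (by norm_num) (by linarith)
      _ = 2 := Real.rpow_one 2
  have a4 : y / (2 * (M.totient : ℝ)) ≤ ∑ p ∈ PC M b y, Real.log p := by
    rw [sum_PC]
    have b1 := (abs_le.1 a1).2
    have b2 := (abs_le.1 a2).1
    have b3 := mul_le_mul_of_nonneg_left a3 hC
    have b4 : ((2 * y : ℕ) : ℝ) / M.totient - y / M.totient - 1 / (2 * (M.totient : ℝ)) * y =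
        y / (2 * (M.totient : ℝ)) := by push_cast; field_simp; ring
    linarith
  have hL : 0 < Real.log y := Real.log_pos (by linarith)
  have a5 : ∑ p ∈ PC M b y, Real.log p ≤ (PC M b y).card * (2 * Real.log y) := by
    rw [← nsmul_eq_mul]
    refine sum_le_card_nsmul _ _ _ fun p hp => ?_
    have hp' := mem_Ioc.1 (mem_filter.1 hp).1
    have b1 : (p : ℝ) ≤ y ^ 2 := by
      have : (p : ℝ) ≤ 2 * y := by exact_mod_cast hp'.2
      nlinarith
    have b2 : (0 : ℝ) < p := by exact_mod_cast (by omega : 0 < p)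
    have := Real.log_le_log b2 b1
    rwa [Real.log_pow] at this
  have a6 := a4.trans a5
  rw [div_le_iff₀ (by positivity)] at a6
  rw [div_div, div_le_iff₀ (by positivity)]
  linarith

theorem nj_mul {j : ℕ} {a : Fin j → ℝ} (b : Fin j → ℝ) (ha : ∀ i, 0 < a i) (M : ℕ) :
    ∀ᶠ x : ℕ in atTop, ∀ g t : ℕ, 1 ≤ g → g ≤ M → NJ x a b (g * t) = NJ x a b t := by
  have hz : Tendsto zz atTop atTop :=
    Real.tendsto_exp_atTop.comp ((tendsto_rpow_atTop (by norm_num)).comp LL_tendsto)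
  filter_upwards [box_NJ_mul b ha, hz.eventually_ge_atTop (M : ℝ)] with x hx hM g
  induction g using Nat.recOnMul with
  | zero => intro t h; omega
  | one => intro t _ _; rw [one_mul]
  | prime p hp => intro t _ h; exact hx p t hp (le_trans (by exact_mod_cast h) hM)
  | mul m n hm hn =>
    intro t h1 h2
    have hm0 : 1 ≤ m := Nat.pos_of_ne_zero (by rintro rfl; omega)
    have hn0 : 1 ≤ n := Nat.pos_of_ne_zero (by rintro rfl; omega)
    rw [mul_assoc, hm _ hm0 (le_trans (Nat.le_mul_of_pos_right _ hn0) h2),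
      hn _ hn0 (le_trans (Nat.le_mul_of_pos_left _ hm0) h2)]

theorem pc_sum (hT : ∀ D b : ℕ, 1 ≤ D → ThmTD D b) {j : ℕ} (a b : Fin j → ℝ)
    (hab : ∀ i, 0 < a i ∧ a i < b i) (hb : ∑ i, b i < 1) {M : ℕ} (hM : 1 ≤ M) (c : ℕ) :
    Tendsto (fun y : ℕ => (∑ p ∈ PC M c y, ((NJ (2 * y) a b (p - 1) : ℝ) - cJ (2 * y) a b)) /
      (y / Real.log y)) atTop (𝓝 0) := by
  have ha := fun i => (hab i).1
  have hc := cJ_tendsto a b hab
  have h1 : ∀ᶠ x : ℕ in atTop, ∀ t, 1 ≤ t → t ≤ x →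
      |(NJ x a b t : ℝ) - cJ x a b| ≤ ∏ i, 1 / a i + (|∏ i, Real.log (b i / a i)| + 1) := by
    filter_upwards [hc.abs.eventually_le_const (lt_add_one _), eventually_ge_atTop 2] with x h2 hx t h3 h4
    refine (abs_sub _ _).trans (add_le_add ?_ h2)
    rw [Nat.abs_cast]
    exact box_NJ_le ha hx h3 h4
  obtain ⟨G, hG⟩ : ∃ G : ℕ → ℕ → ℝ, G = fun x t => (NJ x a b t : ℝ) - cJ x a b := ⟨_, rfl⟩
  have hG' : ∀ x t, (NJ x a b t : ℝ) - cJ x a b = G x t := fun x t => by rw [hG]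
  have hm : ∀ᶠ x : ℕ in atTop, ∀ g t : ℕ, 1 ≤ g → g ≤ M → G x (g * t) = G x t :=
    (nj_mul b ha M).mono fun x hx g t h1 h2 => by rw [← hG', ← hG', hx g t h1 h2]
  have hm' : ∀ᶠ x : ℕ in atTop, ∀ p t : ℕ, p.Prime → (p : ℝ) ≤ zz x → G x (p * t) = 1 * G x t :=
    (box_NJ_mul b ha).mono fun x hx p t hp hz => by rw [← hG', ← hG', hx p t hp hz, one_mul]
  have hB : BV0 G := hG ▸ bvN a b hab hb
  simp only [hG'] at h1 ⊢
  have T1 := hT M c hM G _ 1 abs_one h1 (hm'.mono fun x hx p t hp _ hz _ _ => hx p t hp hz)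
    (bvd_of_bv0 hM hm hB)
  have T2 := hT M c hM (fun x => G (2 * x)) _ 1 abs_one
    ((two_tendsto.eventually h1).mono fun x hx t h3 h4 => hx t h3 (by omega))
    (((two_tendsto.eventually hm').and (eventually_ge_atTop 1)).mono
      fun x hx p t hp _ hz _ _ => by
        refine hx.1 p t hp (hz.trans ?_)
        have h0 : (1 : ℝ) ≤ x := by exact_mod_cast hx.2
        refine Real.exp_le_exp.2 (Real.rpow_le_rpow (Real.log_nonneg h0) ?_ (by norm_num))
        exact Real.log_le_log (by linarith) (by push_cast; linarith))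
    (bvd_of_bv0 (G := fun x => G (2 * x)) hM (two_tendsto.eventually hm) (bv0_two hB))
  have T3 := (T1.comp two_tendsto).zero_mul_isBoundedUnder_le
    (g := fun y : ℕ => 2 * Real.log y / Real.log ((2 * y : ℕ) : ℝ))
    (isBoundedUnder_of_eventually_le (a := 2) (by
      filter_upwards [eventually_ge_atTop 2] with y hy
      have h0 : (2 : ℝ) ≤ y := by exact_mod_cast hy
      have h2 : 0 < Real.log y := Real.log_pos (by linarith)
      have h3 : Real.log y ≤ Real.log ((2 * y : ℕ) : ℝ) :=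
        Real.log_le_log (by linarith) (by push_cast; linarith)
      have h4 : 0 < Real.log ((2 * y : ℕ) : ℝ) := h2.trans_le h3
      simp only [Function.comp]
      rw [Real.norm_of_nonneg (by positivity), div_le_iff₀ h4]
      linarith))
  have T4 := T3.sub T2
  rw [sub_zero] at T4
  refine T4.congr' ?_
  filter_upwards [eventually_ge_atTop 2] with y hy
  have h0 : (2 : ℝ) ≤ y := by exact_mod_cast hy
  have h2 : 0 < Real.log y := Real.log_pos (by linarith)
  have h4 : 0 < Real.log ((2 * y : ℕ) : ℝ) := Real.log_pos (by push_cast; linarith)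
  rw [sum_PC, sub_div]
  simp only [Function.comp]
  congr 1
  generalize Real.log ((2 * y : ℕ) : ℝ) = L at h4
  push_cast
  field_simp

theorem smo_of_NJ {j x t : ℕ} {α β δ : ℝ} (hβ : β ≤ δ) (hj : 1 - δ ≤ j * α) (hx : 1 ≤ x)
    (h1 : 1 ≤ t) (ht : t ≤ x) (h : NJ x (fun _ : Fin j => α) (fun _ => β) t ≠ 0) : Smo ((x : ℝ) ^ δ) t := by
  have hx1 : (1 : ℝ) ≤ x := by exact_mod_cast hx
  have hx0 : (0 : ℝ) < x := by linarith
  obtain ⟨u, hu⟩ := card_ne_zero.1 h
  obtain ⟨hu1, hu2⟩ := mem_filter.1 hu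
  obtain ⟨hu3, hu4⟩ := mem_filter.1 hu1
  have hu5 := fun i => (asym_mem_pI (by positivity) (by positivity)).1 (Fintype.mem_piFinset.1 hu3 i)
  obtain ⟨r, hr⟩ : ∏ i, u i ∣ t := by
    have := Fintype.prod_dvd_of_coprime (s := fun i => (u i : ℤ)) (z := (t : ℤ))
      (fun i l hil => Nat.isCoprime_iff_coprime.2
        ((Nat.coprime_primes (hu5 i).1 (hu5 l).1).2 fun e => hil (hu4 e)))
      fun i => Int.natCast_dvd_natCast.2 (hu2 i)
    exact_mod_cast this
  intro q hq hqt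
  rw [hr, hq.dvd_mul] at hqt
  rcases hqt with h2 | h2
  · obtain ⟨i, -, hi⟩ := (Prime.dvd_finsetProd_iff hq.prime _).1 h2
    rw [(Nat.prime_dvd_prime_iff_eq hq (hu5 i).1).1 hi]
    exact (hu5 i).2.2.trans (Real.rpow_le_rpow_of_exponent_le hx1 hβ)
  · have hr0 : 0 < r := Nat.pos_of_ne_zero (by rintro rfl; omega)
    have h3 : (q : ℝ) ≤ r := by exact_mod_cast Nat.le_of_dvd hr0 h2
    have h4 : (x : ℝ) ^ (1 - δ) ≤ ((∏ i, u i : ℕ) : ℝ) := by
      refine (Real.rpow_le_rpow_of_exponent_le hx1 hj).trans ?_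
      rw [mul_comm, Real.rpow_mul_natCast hx0.le, Nat.cast_prod]
      calc ((x : ℝ) ^ α) ^ j = ∏ _i : Fin j, (x : ℝ) ^ α := by simp
        _ ≤ _ := prod_le_prod (fun _ _ => by positivity) fun i _ => (hu5 i).2.1.le
    have h5 : ((∏ i, u i : ℕ) : ℝ) * r ≤ (x : ℝ) ^ (1 - δ) * (x : ℝ) ^ δ := by
      rw [← Real.rpow_add hx0, sub_add_cancel, Real.rpow_one, ← Nat.cast_mul, ← hr]
      exact_mod_cast ht
    refine h3.trans (le_of_mul_le_mul_left (le_trans ?_ h5) (Real.rpow_pos_of_pos hx0 (1 - δ)))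
    exact mul_le_mul_of_nonneg_right h4 (Nat.cast_nonneg _)

/-- a positive proportion of the primes in a class have `p - 1` smooth -/
theorem smooth_count (hT : ∀ D b : ℕ, 1 ≤ D → ThmTD D b) (hP : PAP) {δ : ℝ} (hδ : 0 < δ) (hδ1 : δ ≤ 1) :
    ∃ κ : ℝ, 0 < κ ∧ ∀ M b : ℕ, 1 ≤ M → Nat.Coprime b M → ∀ᶠ y : ℕ in atTop,
      κ / M.totient * (y / Real.log y) ≤
        ((PC M b y).filter fun p => Smo (((2 * y : ℕ) : ℝ) ^ δ) (p - 1)).card := by
  obtain ⟨j, hj⟩ := exists_nat_gt (1 / δ)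
  have hj0 : (0 : ℝ) < j := lt_trans (by positivity) hj
  set α : ℝ := (1 - δ / 2) / j with hα
  set β : ℝ := (1 - δ / 4) / j with hβ
  have hα0 : 0 < α := div_pos (by linarith) hj0
  have hαβ : α < β := div_lt_div_of_pos_right (by linarith) hj0
  have hβδ : β ≤ δ := by
    rw [div_lt_iff₀ hδ] at hj
    rw [hβ, div_le_iff₀ hj0]
    linarith
  have hjα : 1 - δ ≤ j * α := by rw [hα, mul_div_cancel₀ _ hj0.ne']; linarith
  have hab : ∀ _i : Fin j, 0 < α ∧ α < β := fun _ => ⟨hα0, hαβ⟩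
  have hb : ∑ _i : Fin j, β < 1 := by
    rw [sum_const, card_univ, Fintype.card_fin, nsmul_eq_mul, hβ, mul_div_cancel₀ _ hj0.ne']
    linarith
  set k : ℝ := ∏ _i : Fin j, Real.log (β / α) with hk
  have hk0 : 0 < k := prod_pos fun _ _ => Real.log_pos ((one_lt_div hα0).2 hαβ)
  set B : ℝ := ∏ _i : Fin j, 1 / α with hB
  have hB0 : 0 < B := prod_pos fun _ _ => by positivity
  refine ⟨k / 16 / B, by positivity, fun M b hM hbM => ?_⟩
  have hφ : (0 : ℝ) < M.totient := by exact_mod_cast Nat.totient_pos.2 hM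
  have h1 := (pc_sum hT (fun _ => α) (fun _ => β) hab hb hM b).eventually_const_le
    (show -(k / 16 / M.totient) < 0 by rw [neg_lt_zero]; positivity)
  have h2 := two_tendsto.eventually ((cJ_tendsto (fun _ : Fin j => α) (fun _ => β) hab).eventually_const_le
    (show k / 2 < k by linarith))
  filter_upwards [h1, h2, pc_card hP hM hbM, eventually_ge_atTop 2] with y a1 a2 a3 hy
  have h0 : (2 : ℝ) ≤ y := by exact_mod_cast hy
  have hL : 0 < Real.log y := Real.log_pos (by linarith)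
  have hY : 0 < y / Real.log y := by positivity
  rw [le_div_iff₀ hY, sum_sub_distrib, sum_const, nsmul_eq_mul] at a1
  have a4 : y / Real.log y / (4 * M.totient) * (k / 2) ≤
      (PC M b y).card * cJ (2 * y) (fun _ : Fin j => α) (fun _ => β) :=
    mul_le_mul a3 a2 (by positivity) (Nat.cast_nonneg _)
  have a5 : ∑ p ∈ PC M b y, (NJ (2 * y) (fun _ : Fin j => α) (fun _ => β) (p - 1) : ℝ) ≤
      ((PC M b y).filter fun p => Smo (((2 * y : ℕ) : ℝ) ^ δ) (p - 1)).card * B := by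
    rw [← nsmul_eq_mul, ← sum_const, sum_filter]
    refine sum_le_sum fun p hp => ?_
    obtain ⟨b1, b2⟩ := mem_filter.1 hp
    have b3 := mem_Ioc.1 b1
    split_ifs with hs
    · exact box_NJ_le (fun _ => hα0) (by omega) (by omega) (by omega)
    · by_contra hc
      refine hs (smo_of_NJ hβδ hjα (by omega) (by omega) (by omega) fun e => hc ?_)
      rw [e, Nat.cast_zero]
  have a6 : k / 16 / M.totient * (y / Real.log y) ≤
      ((PC M b y).filter fun p => Smo (((2 * y : ℕ) : ℝ) ^ δ) (p - 1)).card * B := by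
    have : y / Real.log y / (4 * M.totient) * (k / 2) = 2 * (k / 16 / M.totient * (y / Real.log y)) := by
      field_simp; ring
    linarith
  rw [div_right_comm, div_mul_eq_mul_div, div_le_iff₀ hB0]
  exact a6

end Crest.Agent.R27
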