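import Crest.Agent.R27.KDefs
import Crest.Agent.R312.B7Cx
import Crest.Agent.R1.PAP_Perron

/-!
# R27 / KAna : from a zero-free half plane to an upper bound (pure complex analysis)

`ka_perron` is `R1.pap_perron` with `11/12` for `7/8` (copy the proof, only the `hd.mono` line changes).
`ana_bound`: (1) `‖Z s‖ ≤ exp(A log(4+|t|))` on the whole strip `0 ≤ Re s ≤ 4`: for `‖s-1‖ < 1` use the maximum
principle on `ball 1 1` (`Complex.norm_le_of_forall_mem_frontier_norm_le`; on the circle `|Im| ≤ 1`).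
(2) at `c₀ = 2+iτ`: `‖Z c₀‖ ≥ ‖c₀-1‖ exp(-(2A + A))` since `‖LSeries c c₀‖ ≤ A ζ(2) ≤ 2A` (any absolute constant is
fine).  (3) `R312.norm_logDeriv_le` on `ball c₀ (13/12)`, `r = 17/16`, `M = A (log(6+|τ|) + C)`:
`‖logDeriv Z (σ+iτ)‖ ≤ C A (1+|τ|)^{1/2}` for `15/16 ≤ σ ≤ 2`.  (4) `‖deriv h‖ ≤ C A` there
(`R312.norm_deriv_le_of_ball`).  (5) `H = deriv h - logDeriv Z` is holomorphic on `Re s > 11/12`, and on `Re s = 2`
equals `LSeries (c · log) s - 1/(s-1)` (`LSeries_hasDerivAt`/`LSeries_deriv`, `LSeries.logMul`; differentiate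
`Z = (s-1) exp(LSeries c + h)` near `s`).  (6) `ka_perron` at `2y`: `y ∑_{n ≤ y} c n log n ≤
∑_{n ≤ 2y} c n log n (2y - n) ≤ (2y)²/2 + C A (2y)^{31/16}`.
-/

set_option autoImplicit false
set_option linter.unusedSectionVars false
set_option linter.unusedVariables false

noncomputable section

open Finset NumberField
open scoped Classical

namespace Crest.Agent.R27

open Crest.Agent.R312 (Lser Ef Lf one0 PI)

open Complex MeasureTheory Filter Topology Crest.Agent.R1 in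
theorem ka_perron : ∃ C : ℝ, 0 ≤ C ∧ ∀ (a : ℕ → ℂ) (H : ℂ → ℂ) (ρ : ℂ) (A : ℝ), 0 ≤ A →
    LSeriesSummable a (2 : ℝ) → DifferentiableOn ℂ H {s | 11 / 12 < s.re} →
    (∀ σ τ : ℝ, 15 / 16 ≤ σ → σ ≤ 2 → ‖H (σ + τ * I)‖ ≤ A * (1 + ‖τ‖) ^ (1 / 2 : ℝ)) →
    (∀ s : ℂ, s.re = 2 → H s = LSeries a s - ρ / (s - 1)) → ∀ y : ℝ, 0 < y →
    ‖∑ n ∈ Finset.Icc 1 ⌊y⌋₊, a n * (y - n) - ρ * (((max (y - 1) 0) ^ 2 / 2 : ℝ) : ℂ)‖ ≤
      C * A * y ^ (31 / 16 : ℝ) := by
  refine ⟨9 * ∫ τ, papG τ, mul_nonneg (by norm_num) (integral_nonneg papG_nonneg),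
    fun a H ρ A hA ha hd hb he y hy => ?_⟩
  have hx : 0 < y⁻¹ := inv_pos.2 hy
  set x := y⁻¹ with hxy
  have hx0 : (x : ℂ) ≠ 0 := ofReal_ne_zero.2 hx.ne'
  have hF : ∀ σ τ : ℝ, 15 / 16 ≤ σ → σ ≤ 2 →
      ‖H (σ + τ * I) * ((x : ℂ) ^ (-((σ : ℂ) + τ * I)) * papK (σ + τ * I))‖ ≤
        9 * A * y ^ σ * papG τ := fun σ τ h1 h2 => by
    rw [norm_mul, norm_mul, pap_norm_pow hx, hxy, Real.inv_rpow hy.le, Real.rpow_neg hy.le, inv_inv]
    have := Real.rpow_nonneg hy.le σ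
    calc _ ≤ A * (1 + ‖τ‖) ^ (1 / 2 : ℝ) * (y ^ σ * ‖papK (σ + τ * I)‖) := by
          gcongr
          exact hb σ τ h1 h2
      _ = A * y ^ σ * ((1 + ‖τ‖) ^ (1 / 2 : ℝ) * ‖papK (σ + τ * I)‖) := by ring
      _ ≤ A * y ^ σ * (9 * papG τ) := by
          exact mul_le_mul_of_nonneg_left (papK_le (σ := σ) (by linarith) τ) (by positivity)
      _ = _ := by ring
  obtain ⟨iF, sh⟩ := pap_shift (F := fun s => H s * ((x : ℂ) ^ (-s) * papK s)) (a := 15 / 16) (b := 2)
    (by norm_num) ((hd.mono fun s hs => by have := hs.1; change 11 / 12 < s.re; linarith).mul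
      (DifferentiableOn.mul (Differentiable.differentiableOn
        (differentiable_id.neg.const_cpow (Or.inl hx0)))
        (papK_diff.mono fun s hs => by have := hs.1; change 0 < s.re; linarith)))
    (g := fun τ => 9 * A * (y ^ (15 / 16 : ℝ) + y ^ (2 : ℝ)) * papG τ) (papG_int.const_mul _)
    (by simpa using papG_lim.const_mul (9 * A * (y ^ (15 / 16 : ℝ) + y ^ (2 : ℝ))))
    (fun σ τ h1 h2 => (hF σ τ h1 h2).trans (by
      have := papG_nonneg τ
      gcongr
      rcases le_total y 1 with h | h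
      · exact (Real.rpow_le_rpow_of_exponent_ge hy h h1).trans
          (le_add_of_nonneg_right (by positivity))
      · exact (Real.rpow_le_rpow_of_exponent_le h h2).trans
          (le_add_of_nonneg_left (by positivity))))
  have b1 : ‖∫ τ : ℝ, H ((15 / 16 : ℝ) + τ * I) *
      ((x : ℂ) ^ (-(((15 / 16 : ℝ) : ℂ) + τ * I)) * papK ((15 / 16 : ℝ) + τ * I))‖ ≤
      9 * A * y ^ (15 / 16 : ℝ) * ∫ τ, papG τ := by
    rw [← integral_const_mul]
    exact norm_integral_le_of_norm_le (papG_int.const_mul _)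
      (Eventually.of_forall fun τ => hF _ τ le_rfl (by norm_num))
  have i2 := (pap_int_pow hx 2 papK_int').const_mul ρ
  have b2 : ∫ τ : ℝ, LSeries a ((2 : ℝ) + τ * I) *
      ((x : ℂ) ^ (-(((2 : ℝ) : ℂ) + τ * I)) * papK ((2 : ℝ) + τ * I)) =
      (∫ τ : ℝ, H ((2 : ℝ) + τ * I) *
        ((x : ℂ) ^ (-(((2 : ℝ) : ℂ) + τ * I)) * papK ((2 : ℝ) + τ * I))) +
      ρ * (2 * Real.pi * (((max (1 - x) 0) ^ 2 / (2 * x) : ℝ) : ℂ)) := by
    rw [← pap_mellin2 hx, ← integral_const_mul, ← integral_add iF i2]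
    refine integral_congr_ae (Eventually.of_forall fun τ => ?_)
    simp only [he _ (show (((2 : ℝ) : ℂ) + τ * I).re = 2 by simp)]
    ring
  have b3 := (pap_sum ha hx).unique (hasSum_sum_of_ne_finset_zero (s := Finset.Icc 1 ⌊y⌋₊)
    fun n hn => by
      split_ifs with h
      · rfl
      · have h1 : ⌊y⌋₊ < n := by
          rw [Finset.mem_Icc] at hn
          omega
        have h2 : y < n := (Nat.floor_lt hy.le).1 h1
        have h3 : 1 - n * x ≤ 0 := by
          rw [hxy, sub_nonpos, ← div_eq_mul_inv, one_le_div hy]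
          exact h2.le
        simp [max_eq_right h3])
  have hy0 : (y : ℂ) ≠ 0 := ofReal_ne_zero.2 hy.ne'
  have b4 : (∑ n ∈ Finset.Icc 1 ⌊y⌋₊, if n = 0 then 0 else
      a n * (2 * Real.pi * ((max (1 - n * x) 0 : ℝ) : ℂ))) * y =
      2 * Real.pi * ∑ n ∈ Finset.Icc 1 ⌊y⌋₊, a n * (y - n) := by
    rw [Finset.sum_mul, Finset.mul_sum]
    refine Finset.sum_congr rfl fun n hn => ?_
    rw [Finset.mem_Icc] at hn
    have h2 : (n : ℝ) ≤ y := (Nat.le_floor_iff hy.le).1 hn.2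
    have h3 : 0 ≤ 1 - n * x := by
      rw [hxy, sub_nonneg, ← div_eq_mul_inv, div_le_one hy]
      exact h2
    rw [if_neg (by omega), max_eq_left h3, hxy]
    push_cast
    field_simp
  have b5 : (max (1 - x) 0) ^ 2 / (2 * x) * y = (max (y - 1) 0) ^ 2 / 2 := by
    have : max (y - 1) 0 = max (1 - x) 0 * y := by
      rw [max_mul_of_nonneg _ _ hy.le, zero_mul, sub_mul, one_mul, hxy, inv_mul_cancel₀ hy.ne']
    rw [this, hxy]
    field_simp
  have b6 : 2 * Real.pi * (∑ n ∈ Finset.Icc 1 ⌊y⌋₊, a n * (y - n) -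
      ρ * (((max (y - 1) 0) ^ 2 / 2 : ℝ) : ℂ)) = (∫ τ : ℝ, H ((15 / 16 : ℝ) + τ * I) *
      ((x : ℂ) ^ (-(((15 / 16 : ℝ) : ℂ) + τ * I)) * papK ((15 / 16 : ℝ) + τ * I))) * y := by
    rw [mul_sub, ← b4, ← b3, b2, sh, ← b5, ofReal_mul]
    ring
  have b7 := congrArg norm b6
  rw [norm_mul, norm_mul _ (y : ℂ), norm_real, Real.norm_of_nonneg hy.le] at b7
  have b8 : (1 : ℝ) ≤ ‖(2 * Real.pi : ℂ)‖ := by
    rw [norm_mul, norm_real, Real.norm_of_nonneg Real.pi_pos.le, Complex.norm_two]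
    linarith [Real.pi_gt_three]
  refine (le_mul_of_one_le_left (norm_nonneg _) b8).trans (b7.trans_le ?_)
  rw [show (31 / 16 : ℝ) = 15 / 16 + 1 by norm_num, Real.rpow_add hy, Real.rpow_one]
  calc _ ≤ (9 * A * y ^ (15 / 16 : ℝ) * ∫ τ, papG τ) * y := by gcongr
    _ = _ := by ring

theorem ka_L : ∃ B : ℝ, 0 ≤ B ∧ ∀ (c : ℕ → ℂ) (A : ℝ), (∀ n, ‖c n‖ ≤ A) → ∀ s : ℂ, s.re = 2 →
    ‖LSeries c s‖ ≤ A * B := by
  refine ⟨∑' n : ℕ, 1 / (n : ℝ) ^ 2, tsum_nonneg fun n => by positivity, fun c A hc s hs => ?_⟩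
  refine tsum_of_norm_bounded ((Real.summable_one_div_nat_pow.2 one_lt_two).hasSum.mul_left A) fun n => ?_
  rw [LSeries.norm_term_eq, hs]
  split_ifs with h
  · simp [h]
  · rw [mul_one_div, Real.rpow_two]
    exact div_le_div_of_nonneg_right (hc n) (by positivity)

theorem ka_strip {Z : ℂ → ℂ} {A : ℝ} (hA : 1 ≤ A) (hZ : Differentiable ℂ Z)
    (Zb : ∀ s : ℂ, 0 ≤ s.re → s.re ≤ 4 → 1 ≤ ‖s - 1‖ → ‖Z s‖ ≤ Real.exp (A * Real.log (3 + |s.im|))) (s : ℂ)
    (h0 : 0 ≤ s.re) (h4 : s.re ≤ 4) : ‖Z s‖ ≤ Real.exp (A * Real.log (4 + |s.im|)) := by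
  have mono : ∀ a b : ℝ, 0 < a → a ≤ b → Real.exp (A * Real.log a) ≤ Real.exp (A * Real.log b) := fun a b ha hab =>
    Real.exp_le_exp.2 (mul_le_mul_of_nonneg_left (Real.log_le_log ha hab) (by linarith))
  by_cases h : 1 ≤ ‖s - 1‖
  · exact (Zb s h0 h4 h).trans (mono _ _ (by positivity) (by linarith))
  refine le_trans (Complex.norm_le_of_forall_mem_frontier_norm_le (U := Metric.ball 1 1) Metric.isBounded_ball
    hZ.diffContOnCl (C := Real.exp (A * Real.log 4)) (fun z hz => ?_)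
    (subset_closure (mem_ball_iff_norm.2 (not_le.1 h)))) (mono _ _ (by norm_num) (by linarith [abs_nonneg s.im]))
  rw [frontier_ball _ one_ne_zero, mem_sphere_iff_norm] at hz
  have h1 := abs_le.1 ((Complex.abs_re_le_norm _).trans hz.le)
  have h2 := (Complex.abs_im_le_norm _).trans hz.le
  simp at h1 h2
  exact (Zb z (by linarith) (by linarith) hz.ge).trans (mono _ _ (by positivity) (by linarith))

theorem ana_bound : ∃ C : ℝ, 0 ≤ C ∧ ∀ (c : ℕ → ℝ) (Z h : ℂ → ℂ) (A : ℝ), 1 ≤ A →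
    (∀ n, 0 ≤ c n) → (∀ n, c n ≤ A) → Differentiable ℂ Z → (∀ s : ℂ, 11 / 12 < s.re → Z s ≠ 0) →
    (∀ s : ℂ, 0 ≤ s.re → s.re ≤ 4 → 1 ≤ ‖s - 1‖ → ‖Z s‖ ≤ Real.exp (A * Real.log (3 + |s.im|))) →
    DifferentiableOn ℂ h {s | 5 / 8 < s.re} → (∀ s : ℂ, 5 / 8 < s.re → ‖h s‖ ≤ A) →
    (∀ s : ℂ, 5 / 4 ≤ s.re → Z s = (s - 1) * Complex.exp (LSeries (fun n => (c n : ℂ)) s + h s)) →
    ∀ y : ℝ, 1 ≤ y → ∑ n ∈ Icc 1 ⌊y⌋₊, c n * Real.log n ≤ 2 * y + C * A * y ^ (15 / 16 : ℝ) := by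
  obtain ⟨C, hC, hP⟩ := ka_perron
  obtain ⟨B, hB, hL⟩ := ka_L
  refine ⟨4 * C * (8 + 19968 * (7 + B)), by positivity, fun c Z h A hA c0 cA hZ Z0 Zb hh hb he y hy => ?_⟩
  have hcn : ∀ n, ‖(c n : ℂ)‖ ≤ A := fun n => by rw [Complex.norm_real, Real.norm_of_nonneg (c0 n)]; exact cA n
  have habs : ∀ s : ℂ, s.re = 2 → LSeries.abscissaOfAbsConv (fun n => (c n : ℂ)) < s.re := fun s hs =>
    (LSeries.abscissaOfAbsConv_le_of_le_const ⟨A, fun n _ => hcn n⟩).trans_lt (by rw [hs]; exact_mod_cast one_lt_two)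
  have o1 : IsOpen {s : ℂ | 5 / 8 < s.re} := isOpen_lt continuous_const Complex.continuous_re
  have o2 : IsOpen {s : ℂ | 11 / 12 < s.re} := isOpen_lt continuous_const Complex.continuous_re
  have key := hP (LSeries.logMul fun n => (c n : ℂ)) (fun s => deriv h s - logDeriv Z s) 1
    (A * (8 + 19968 * (7 + B))) (by positivity) (LSeriesSummable_logMul_of_lt_re (habs _ (by simp)))
    (((hh.deriv o1).mono fun s hs => by change 11 / 12 < s.re at hs; change 5 / 8 < s.re; linarith).sub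
      (R312.differentiableOn_logDeriv o2 hZ.differentiableOn Z0)) (fun σ τ h1 h2 => ?_) (fun s hs => ?_) (2 * y)
    (by linarith)
  · have e : ∑ n ∈ Icc 1 ⌊2 * y⌋₊, LSeries.logMul (fun n => (c n : ℂ)) n * (((2 * y : ℝ) : ℂ) - n) -
        1 * (((max (2 * y - 1) 0) ^ 2 / 2 : ℝ) : ℂ) =
        ((∑ n ∈ Icc 1 ⌊2 * y⌋₊, c n * Real.log n * (2 * y - n) - (2 * y - 1) ^ 2 / 2 : ℝ) : ℂ) := by
      rw [max_eq_left (by linarith)]
      push_cast
      simp only [LSeries.logMul, one_mul, mul_comm (Complex.log _)]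
    rw [e, Complex.norm_real, show (31 / 16 : ℝ) = 15 / 16 + 1 by norm_num, Real.rpow_add (by linarith),
      Real.rpow_one, Real.mul_rpow (by norm_num) (by linarith)] at key
    have h1 := (le_abs_self _).trans key
    have h2 : (2 : ℝ) ^ (15 / 16 : ℝ) ≤ 2 := by
      simpa using Real.rpow_le_rpow_of_exponent_le one_le_two (show (15 / 16 : ℝ) ≤ 1 by norm_num)
    have h3 : (∑ n ∈ Icc 1 ⌊y⌋₊, c n * Real.log n) * y ≤ ∑ n ∈ Icc 1 ⌊2 * y⌋₊, c n * Real.log n * (2 * y - n) := by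
      rw [Finset.sum_mul]
      refine (Finset.sum_le_sum fun n hn => ?_).trans (Finset.sum_le_sum_of_subset_of_nonneg
        (Finset.Icc_subset_Icc_right (Nat.floor_le_floor (by linarith))) fun n hn _ => ?_)
      · have := (Nat.le_floor_iff (by linarith)).1 (Finset.mem_Icc.1 hn).2
        exact mul_le_mul_of_nonneg_left (by linarith) (mul_nonneg (c0 n) (Real.log_natCast_nonneg n))
      · have := (Nat.le_floor_iff (by linarith)).1 (Finset.mem_Icc.1 hn).2
        exact mul_nonneg (mul_nonneg (c0 n) (Real.log_natCast_nonneg n)) (by linarith)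
    have h4 : C * (A * (8 + 19968 * (7 + B))) * (2 ^ (15 / 16 : ℝ) * y ^ (15 / 16 : ℝ) * (2 * y)) ≤
        C * (A * (8 + 19968 * (7 + B))) * (2 * y ^ (15 / 16 : ℝ) * (2 * y)) := by gcongr
    refine le_of_mul_le_mul_right ?_ (show 0 < y by linarith)
    nlinarith
  · have u1 : 1 ≤ (1 + ‖τ‖) ^ (1 / 2 : ℝ) := Real.one_le_rpow (by simp) (by norm_num)
    have u2 : ((1 + ‖τ‖) ^ (1 / 2 : ℝ)) ^ 2 = 1 + |τ| := by
      rw [← Real.rpow_natCast, ← Real.rpow_mul (by positivity)]; norm_num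
    set u := (1 + ‖τ‖) ^ (1 / 2 : ℝ)
    have l1 : Real.log (6 + |τ|) ≤ 6 * u := by
      have h3 : Real.log (6 + |τ|) ≤ Real.log ((3 * u) ^ 2) :=
        Real.log_le_log (by positivity) (by nlinarith [abs_nonneg τ])
      have h4 := Real.log_le_sub_one_of_pos (show 0 < 3 * u by positivity)
      rw [Real.log_pow] at h3
      push_cast at h3
      linarith
    have l0 : 0 ≤ Real.log (6 + |τ|) := Real.log_nonneg (by linarith [abs_nonneg τ])
    have d1 : ‖deriv h (σ + τ * Complex.I)‖ ≤ A / (1 / 8) := by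
      have hs : ∀ w : ℂ, ‖w - (σ + τ * Complex.I)‖ ≤ 1 / 4 → 5 / 8 < w.re := fun w hw => by
        have := (abs_le.1 ((Complex.abs_re_le_norm _).trans hw)).1
        simp at this
        linarith
      exact R312.norm_deriv_le_of_ball (c := σ + τ * Complex.I) (R := 1 / 4) (r := 0)
        (hh.mono fun w hw => hs w (mem_ball_iff_norm.1 hw).le) (by norm_num) (by norm_num) (by simp)
        fun w hw => hb w (hs w (hw.trans (by norm_num)))
    have hball : ∀ z ∈ Metric.ball (2 + τ * Complex.I) (13 / 12),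
        11 / 12 < z.re ∧ z.re ≤ 4 ∧ |z.im| ≤ |τ| + 2 := fun z hz => by
      have h3 := abs_lt.1 ((Complex.abs_re_le_norm _).trans_lt (mem_ball_iff_norm.1 hz))
      have h4 := (Complex.abs_im_le_norm _).trans_lt (mem_ball_iff_norm.1 hz)
      have h5 := abs_sub_abs_le_abs_sub z.im τ
      simp at h3 h4
      refine ⟨by linarith, by linarith, by linarith⟩
    have hc : Real.exp (-(A * B + A)) ≤ ‖Z (2 + τ * Complex.I)‖ := by
      rw [he _ (by simp; norm_num), norm_mul, Complex.norm_exp]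
      have h3 : 1 ≤ ‖(2 + τ * Complex.I : ℂ) - 1‖ := by
        refine le_trans ?_ (Complex.re_le_norm _)
        simp; norm_num
      refine le_trans (Real.exp_le_exp.2 ?_) (le_mul_of_one_le_left (Real.exp_pos _).le h3)
      have h4 := hL _ A hcn (2 + τ * Complex.I) (by simp)
      have h5 := hb (2 + τ * Complex.I) (by simp; norm_num)
      have h6 := abs_le.1 ((Complex.abs_re_le_norm _).trans ((norm_add_le _ _).trans (add_le_add h4 h5)))
      exact h6.1
    have d2 := R312.norm_logDeriv_le (f := Z) (c := 2 + τ * Complex.I) (z := σ + τ * Complex.I) (R := 13 / 12)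
      (r := 17 / 16) (M := A * (Real.log (6 + |τ|) + B + 1)) hZ.differentiableOn (fun z hz => Z0 z (hball z hz).1)
      (by positivity) (fun z hz => by
        obtain ⟨h3, h4, h5⟩ := hball z hz
        refine (ka_strip hA hZ Zb z (by linarith) h4).trans (le_trans ?_
          (mul_le_mul_of_nonneg_right hc (Real.exp_pos _).le))
        rw [← Real.exp_add]
        refine Real.exp_le_exp.2 ?_
        have := mul_le_mul_of_nonneg_left
          (Real.log_le_log (by positivity) (show 4 + |z.im| ≤ 6 + |τ| by linarith)) (show 0 ≤ A by linarith)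
        linarith) (by norm_num) (by
        rw [add_sub_add_right_eq_sub, ← Complex.ofReal_ofNat, ← Complex.ofReal_sub, Complex.norm_real,
          Real.norm_eq_abs, abs_le]
        constructor <;> linarith)
    refine (norm_sub_le _ _).trans ((add_le_add d1 d2).trans ?_)
    have h3 : Real.log (6 + |τ|) + B + 1 ≤ (7 + B) * u := by nlinarith
    have h4 := mul_le_mul_of_nonneg_left h3 (show 0 ≤ A by linarith)
    have h5 := mul_le_mul_of_nonneg_left u1 (show 0 ≤ A by linarith)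
    norm_num
    nlinarith
  · have h1 : s - 1 ≠ 0 := fun e => by
      have := congrArg Complex.re e
      simp at this
      linarith
    have h2 : HasDerivAt h (deriv h s) s :=
      (hh.differentiableAt (o1.mem_nhds (by change 5 / 8 < s.re; linarith))).hasDerivAt
    have h3 := (((hasDerivAt_id s).sub_const 1).mul ((LSeries_hasDerivAt (habs s hs)).add h2).cexp).congr_of_eventuallyEq
      (f₁ := Z) (by
        filter_upwards [(isOpen_lt continuous_const Complex.continuous_re).mem_nhds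
          (show 5 / 4 < s.re by linarith)] with w hw
        exact he w (le_of_lt hw))
    have h4 := Complex.exp_ne_zero (LSeries (fun n => (c n : ℂ)) s + h s)
    rw [logDeriv_apply, h3.deriv, he s (by linarith)]
    simp only [id, Pi.add_apply]
    field_simp
    ring

end Crest.Agent.R27
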