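import Crest.Agent.R27.KDefs
import Crest.Agent.R27.T3L

/-!
# R27 / KLF : continuation and growth over `ℚ(ζ_m)`

`exists_fld'` is `R312.exists_fld` (B0Setup) with `om = ζ`.
-/

set_option autoImplicit false
set_option linter.unusedSectionVars false
set_option linter.unusedVariables false

noncomputable section

open Finset NumberField
open scoped Classical

namespace Crest.Agent.R27

open Crest.Agent.R312 (Lser Ef Lf one0 PI)
open Crest.Agent.R312.TC

theorem klf_prod (s : Multiset ℂ) (h : ∀ z ∈ s, ‖z‖ ≤ 2) : ‖s.prod‖ ≤ 2 ^ s.card := by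
  induction s using Multiset.induction_on with
  | empty => simp
  | cons a s ih =>
    rw [Multiset.prod_cons, Multiset.card_cons, norm_mul, pow_succ']
    exact mul_le_mul (h a (Multiset.mem_cons_self a s))
      (ih fun z hz => h z (Multiset.mem_cons_of_mem hz)) (norm_nonneg _) (by norm_num)

theorem klf_im {m : ℕ} (hm : 3 ≤ m) {z : ℂ} (hz : IsPrimitiveRoot z m) : z.im ≠ 0 := by
  intro h
  have h1 : ‖z‖ = 1 := hz.norm'_eq_one (by omega)
  have h2 : z = (z.re : ℂ) := Complex.ext (by simp) (by simp [h])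
  have h3 : z ^ 2 = 1 := by
    rw [h2, Complex.norm_real, Real.norm_eq_abs] at h1
    rw [h2, ← Complex.ofReal_pow, ← sq_abs, h1]
    simp
  have := Nat.le_of_dvd two_pos ((hz.pow_eq_one_iff_dvd 2).1 h3)
  omega

open Polynomial in
theorem exists_fld' (m : ℕ) [NeZero m] (h3 : 3 ≤ m) (K : Type) [Field K] [NumberField K]
    [IsCyclotomicExtension {m} ℚ K] :
    ∃ _ : Fld K, ∀ v : Pl K, dl v ≤ 2 ^ Module.finrank ℚ K := by
  have hm : 0 < m := NeZero.pos m
  have hζ := IsCyclotomicExtension.zeta_spec m ℚ K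
  set ζ := IsCyclotomicExtension.zeta m ℚ K with hζdef
  have hint : IsIntegral ℤ ζ := hζ.isIntegral hm
  have hcl := IsCyclotomicExtension.Rat.isIntegralClosure_adjoin_singleton hζ
  have hmem : ∀ x : K, x ∈ Algebra.adjoin ℤ {ζ} ↔ IsIntegral ℤ x := fun x =>
    ⟨fun h => hcl.isIntegral_iff.2 ⟨⟨x, h⟩, rfl⟩, fun h => by
      obtain ⟨y, rfl⟩ := hcl.isIntegral_iff.1 h
      exact y.2⟩
  set δ : K := aeval ζ (derivative (cyclotomic m ℤ)) with hδ
  have hδ' : δ = aeval ζ (derivative (minpoly ℚ ζ)) := by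
    rw [← cyclotomic_eq_minpoly_rat hζ hm, ← map_cyclotomic_int m ℚ, derivative_map, hδ,
      ← algebraMap_int_eq, aeval_map_algebraMap]
  have hδi : IsIntegral ℤ δ := (hmem δ).1 (aeval_mem_adjoin_singleton ℤ ζ)
  have hδ0 : δ ≠ 0 := by
    rw [hδ']
    exact (Algebra.IsSeparable.isSeparable ℚ ζ).aeval_derivative_ne_zero (minpoly.aeval ℚ ζ)
  have hdual := traceForm_dualSubmodule_adjoin ℤ ℚ
    (IsCyclotomicExtension.adjoin_primitive_root_eq_top (A := ℚ) hζ) hint
  rw [← hδ'] at hdual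
  refine ⟨⟨⟨ζ, hint⟩, fun φ => klf_im h3 (hζ.map_of_injective φ.injective), ⟨δ, hδi⟩, ?_, fun x => ?_⟩,
    fun v => ?_⟩
  · exact fun h => hδ0 (congrArg Subtype.val h)
  · change (∀ y : 𝓞 K, ∃ n : ℤ, Algebra.trace ℚ K (x * y / δ) = n) ↔ _
    have h1 : (∀ y : 𝓞 K, ∃ n : ℤ, Algebra.trace ℚ K (x * y / δ) = n) ↔
        δ⁻¹ * x ∈ (Algebra.traceForm ℚ K).dualSubmodule
          (Subalgebra.toSubmodule (Algebra.adjoin ℤ {ζ})) := by
      rw [LinearMap.BilinForm.mem_dualSubmodule]
      constructor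
      · intro h y hy
        obtain ⟨n, hn⟩ := h ⟨y, (hmem y).1 hy⟩
        rw [Submodule.mem_one]
        refine ⟨n, ?_⟩
        rw [Algebra.traceForm_apply, eq_intCast, ← hn]
        congr 1
        change x * y / δ = _
        ring
      · intro h y
        obtain ⟨n, hn⟩ := Submodule.mem_one.1 (h y ((hmem y).2 y.isIntegral_coe))
        refine ⟨n, ?_⟩
        rw [Algebra.traceForm_apply, eq_intCast] at hn
        rw [hn]
        congr 1
        ring
    rw [h1, hdual, ← hmem, ← smul_eq_mul, Submodule.mem_smul_pointwise_iff_exists]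
    constructor
    · rintro ⟨b, hb, e⟩
      have : b = x := mul_left_cancel₀ (inv_ne_zero hδ0) e
      exact this ▸ hb
    · exact fun h => ⟨x, h, rfl⟩
  · obtain ⟨φ, hφ⟩ := v
    change ‖φ δ‖ ≤ _
    have hz : IsPrimitiveRoot (φ ζ) m := hζ.map_of_injective φ.injective
    have e1 : φ δ = eval (φ ζ) (derivative (cyclotomic m ℂ)) := by
      rw [hδ, ← map_cyclotomic_int m ℂ, derivative_map, eval_map, aeval_def, hom_eval₂]
      congr 1
      exact RingHom.ext_int _ _
    have hr : φ ζ ∈ (cyclotomic m ℂ).roots :=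
      (mem_roots (cyclotomic_ne_zero m ℂ)).2 (hz.isRoot_cyclotomic hm)
    rw [e1, (IsAlgClosed.splits _).eval_root_derivative (cyclotomic.monic m ℂ) hr,
      IsCyclotomicExtension.finrank K (cyclotomic.irreducible_rat hm)]
    refine (klf_prod _ fun z hz' => ?_).trans ?_
    · obtain ⟨w, hw, rfl⟩ := Multiset.mem_map.1 hz'
      have hw' : IsPrimitiveRoot w m := (isRoot_cyclotomic_iff_charZero hm).1
        ((mem_roots (cyclotomic_ne_zero m ℂ)).1 (Multiset.mem_of_mem_erase hw))
      refine (norm_sub_le _ _).trans ?_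
      rw [hz.norm'_eq_one hm.ne', hw'.norm'_eq_one hm.ne']
      norm_num
    · refine pow_le_pow_right₀ one_le_two ?_
      rw [Multiset.card_map, ← natDegree_cyclotomic m ℂ]
      exact (Multiset.card_le_card (Multiset.erase_le _ _)).trans (card_roots' _)

theorem klf_arith {C m f T : ℝ} (hC : 0 ≤ C) (hm : 1 ≤ m) (hf : 1 ≤ f) (hT : 1 ≤ T) :
    C * m * ((C + f) + T) + C * (m * m) ≤ (C * (C + 3) + 1) * m ^ 2 * f * T := by
  have h1 : 1 ≤ f * T := one_le_mul_of_one_le_of_one_le hf hT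
  have h2 : f ≤ f * T := le_mul_of_one_le_right (by linarith) hT
  have h3 : T ≤ f * T := le_mul_of_one_le_left (by linarith) hf
  have h4 : C + f + T ≤ (C + 2) * (f * T) := by nlinarith
  have h5 : m ≤ m ^ 2 := by nlinarith
  have h6 : C * m * ((C + f) + T) ≤ C * m ^ 2 * ((C + 2) * (f * T)) := by gcongr
  have h7 : C * (m * m) ≤ C * m ^ 2 * (f * T) := by
    rw [← sq]; exact le_mul_of_one_le_right (by positivity) h1
  have h8 : 0 ≤ m ^ 2 * (f * T) := by positivity
  nlinarith

theorem anC : AnC := by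
  obtain ⟨C, hC⟩ := Ef_growth 0 4
  have hC0 : (0 : ℝ) ≤ C := Nat.cast_nonneg _
  refine ⟨C * (C + 3) + 1, by nlinarith, fun m _ hm K _ _ _ f ψ h => ?_⟩
  obtain ⟨inst, hdl⟩ := exists_fld' m hm K
  have hH : HChar f 0 ψ := ⟨h.two_le, by simp, h.one, h.mul, h.zero, h.norm,
    fun x hx => (h.ray x hx).trans (ch_zero _).symm⟩
  refine ⟨⟨Ef_differentiable hH, fun s hs => Ef_eq hH hs, Ef_one_eq_zero hH, fun e => ?_⟩,
    fun s h0 h4 => (hC K f 0 ψ hH s h0 h4).trans ?_⟩
  · obtain ⟨ρ, hρ, h2⟩ := Ef_one_one0 (K := K) h.two_le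
    rw [e, h2]
    exact_mod_cast hρ.ne'
  · have hn : Module.finrank ℚ K ≤ m := by
      rw [IsCyclotomicExtension.finrank K (Polynomial.cyclotomic.irreducible_rat (NeZero.pos m))]
      exact Nat.totient_le m
    have hd := two_mul_dd' (K := K)
    have hd' : (dd K : ℝ) ≤ m := by exact_mod_cast (by omega : dd K ≤ m)
    have hn' : (Module.finrank ℚ K : ℝ) ≤ m := by exact_mod_cast hn
    have hm1 : (1 : ℝ) ≤ m := by exact_mod_cast (by omega : 1 ≤ m)
    have hf1 : (1 : ℝ) ≤ f := by have := h.two_le; exact_mod_cast (by omega : 1 ≤ f)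
    have ht := abs_nonneg s.im
    have hT : 1 ≤ Real.log (3 + |s.im|) := by
      rw [Real.le_log_iff_exp_le (by linarith)]
      linarith [Real.exp_one_lt_d9]
    set T := Real.log (3 + |s.im|) with hTd
    have h1 : ∏ v : Pl K, dl v ≤ Real.exp (m * m) := by
      calc ∏ v : Pl K, dl v ≤ ∏ v : Pl K, Real.exp m := by
            refine Finset.prod_le_prod (fun v _ => norm_nonneg _) fun v _ => (hdl v).trans ?_
            calc (2 : ℝ) ^ Module.finrank ℚ K ≤ Real.exp 1 ^ Module.finrank ℚ K := by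
                  gcongr; linarith [Real.add_one_le_exp 1]
              _ ≤ _ := by rw [← Real.exp_nat_mul, mul_one]; exact Real.exp_le_exp.2 hn'
        _ = Real.exp (dd K * m) := by rw [Finset.prod_const, Finset.card_univ, ← Real.exp_nat_mul]; rfl
        _ ≤ _ := by gcongr
    have h2 : (C : ℝ) * f * (1 + |s.im| + ‖(0 : Pl K → ℝ)‖) ≤ Real.exp ((C + f) + T) := by
      rw [norm_zero, add_zero, Real.exp_add, Real.exp_add, hTd, Real.exp_log (by linarith)]
      gcongr
      · linarith [Real.add_one_le_exp (C : ℝ)]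
      · linarith [Real.add_one_le_exp (f : ℝ)]
      · norm_num
    calc _ ≤ Real.exp ((C + f) + T) ^ (C * dd K) * Real.exp (m * m) ^ C :=
          mul_le_mul (pow_le_pow_left₀ (by positivity) h2 _)
            (pow_le_pow_left₀ (Finset.prod_nonneg fun v _ => norm_nonneg _) h1 _)
            (pow_nonneg (Finset.prod_nonneg fun v _ => norm_nonneg _) _) (by positivity)
      _ = Real.exp ((C * dd K : ℕ) * ((C + f) + T) + C * (m * m)) := by
          rw [← Real.exp_nat_mul, ← Real.exp_nat_mul, ← Real.exp_add]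
      _ ≤ _ := by
          refine Real.exp_le_exp.2 (le_trans ?_ (klf_arith hC0 hm1 hf1 hT))
          push_cast
          gcongr

end Crest.Agent.R27
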