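import Crest.Agent.R27.KMain
import Crest.Agent.R27.KLF
import Crest.Agent.R312.B6Main

/-!
# R27 / KB : the Kummer bound

Head module of the Kummer part.
-/

set_option autoImplicit false
set_option linter.unusedSectionVars false
set_option linter.unusedVariables false

noncomputable section

open Finset NumberField
open scoped Classical

namespace Crest.Agent.R27

open Crest.Agent.R312 (Lser Ef Lf one0 PI)

theorem zfK : ZFK := by
  intro m _ h3 K _ _ _ f ψ h s hs h1
  obtain ⟨inst, -⟩ := R312.exists_fld m h3 K
  exact R312.zf (f := f) ⟨h.two_le, by simp, h.one, h.mul, h.zero, h.norm,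
    fun x hx => (h.ray x hx).trans (R312.ch_zero _).symm⟩ hs h1

theorem kb (a : ℤ) (ha : 2 ≤ |a|) : KB a := kb_of zfK anC a ha

end Crest.Agent.R27
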