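import Crest.Agent.R27.KDefs
import Crest.Agent.R312.B8C

/-!
# R27 / KBas : basic facts on `RC`, `pw`, `tw3`, `D1`, `Lf`

Useful: `R312.B8.max_of_norm, cop_ne, norm_cop, cop_of_dvd, emb_cc`, `R312.card_lp_le`, `Ideal.absNorm_mem`.
-/

set_option autoImplicit false
set_option linter.unusedSectionVars false
set_option linter.unusedVariables false

noncomputable section

open Finset NumberField
open scoped Classical

namespace Crest.Agent.R27

open Crest.Agent.R312 (Lser Ef Lf one0 PI)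

variable {k : Type} [Field k] [NumberField k]

theorem mem_D1 {l : ℕ} {I : Ideal (𝓞 k)} : I ∈ D1 k l ↔ Ideal.absNorm I = l := by
  simp [D1]

private theorem kbas_norm {f : ℕ} {x : 𝓞 k} (h : (f : 𝓞 k) ∣ x - 1) :
    (f : ℤ) ∣ Algebra.norm ℤ x - 1 := by
  obtain ⟨c, hc⟩ := h
  have hx : x = 1 + (f : ℤ) • c := by
    rw [zsmul_eq_mul, Int.cast_natCast, ← hc]
    ring
  let b := Module.Free.chooseBasis ℤ (𝓞 k)
  rw [← ZMod.intCast_zmod_eq_zero_iff_dvd, Int.cast_sub, Int.cast_one, sub_eq_zero,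
    Algebra.norm_eq_matrix_det b, hx, map_add, map_one, map_smul]
  have h1 := (Int.castRingHom (ZMod f)).map_det (1 + (f : ℤ) • Algebra.leftMulMatrix b c)
  rw [eq_intCast] at h1
  rw [h1, map_add, map_one]
  have h2 : (Int.castRingHom (ZMod f)).mapMatrix ((f : ℤ) • Algebra.leftMulMatrix b c) = 0 := by
    ext i j
    rw [RingHom.mapMatrix_apply, Matrix.map_apply, Matrix.smul_apply, smul_eq_mul, map_mul]
    simp
  rw [h2, add_zero, Matrix.det_one]

/-- `→`: a prime `l ∣ gcd(N I, f)`; `I ≠ 0`... simplest: `I + (f) = 1` gives `x ∈ I`, `x ≡ 1 mod f`, `N I ∣ N(x) ≡ ±1`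
(`norm_sub_one`), or use a maximal ideal `P ⊇ I` with `l ∣ N P`.  `←`: `N I ∈ I` (`Ideal.absNorm_mem`) and Bezout. -/
theorem cop_iff {f : ℕ} {I : Ideal (𝓞 k)} : Cop f I ↔ (Ideal.absNorm I).Coprime f := by
  constructor
  · intro h
    obtain ⟨x, hx, y, hy, hxy⟩ := Submodule.mem_sup.1
      ((Ideal.eq_top_iff_one _).1 (Ideal.isCoprime_iff_sup_eq.1 h))
    have h1 : (f : 𝓞 k) ∣ x - 1 := by
      rw [show x - 1 = -y by rw [← hxy]; ring, dvd_neg]
      exact Ideal.mem_span_singleton.1 hy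
    obtain ⟨c, hc⟩ := kbas_norm h1
    obtain ⟨d, hd⟩ := Ideal.absNorm_dvd_norm_of_mem hx
    rw [← Nat.isCoprime_iff_coprime]
    exact ⟨d, -c, by linear_combination hc - hd⟩
  · intro h
    obtain ⟨u, v, huv⟩ := Nat.isCoprime_iff_coprime.2 h
    rw [Cop, Ideal.isCoprime_iff_sup_eq, Ideal.eq_top_iff_one]
    have h1 : ((u : 𝓞 k)) * (Ideal.absNorm I : 𝓞 k) + (v : 𝓞 k) * (f : 𝓞 k) = 1 := by
      exact_mod_cast congrArg (Int.cast : ℤ → 𝓞 k) huv
    rw [← h1]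
    exact Submodule.add_mem_sup (I.mul_mem_left _ (Ideal.absNorm_mem I))
      (Ideal.mul_mem_left _ _ (Ideal.mem_span_singleton_self _))

/-- `x ≡ 1 mod f ⟹ N(x) ≡ 1 mod f` (determinant of `1 + f M`; `Algebra.norm_eq_matrix_det`, reduce mod `f`) -/
theorem norm_sub_one {f : ℕ} {x : 𝓞 k} (h : (f : 𝓞 k) ∣ x - 1) : (f : ℤ) ∣ Algebra.norm ℤ x - 1 := by
  exact kbas_norm h

theorem RC.norm_le {f : ℕ} {ψ : Ideal (𝓞 k) → ℂ} (h : RC f ψ) (I : Ideal (𝓞 k)) : ‖ψ I‖ ≤ 1 := by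
  by_cases hI : Cop f I
  · exact (h.norm I hI).le
  · rw [h.zero I hI, norm_zero]; exact zero_le_one

theorem rc_one0 {f : ℕ} (hf : 2 ≤ f) : RC f (one0 (K := k) f) := by
  refine ⟨hf, if_pos isCoprime_one_left, fun I J => ?_, fun I hI => if_neg hI,
    fun I hI => ?_, fun x hx => if_pos (R312.B8.cop_of_dvd hx)⟩
  · unfold one0
    rw [IsCoprime.mul_left_iff]
    by_cases h1 : IsCoprime I (Ideal.span {(f : 𝓞 k)}) <;>
      by_cases h2 : IsCoprime J (Ideal.span {(f : 𝓞 k)}) <;> simp [h1, h2]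
  · rw [one0, if_pos hI, norm_one]

theorem RC.pw {f : ℕ} {ψ : Ideal (𝓞 k) → ℂ} (h : RC f ψ) (j : ℕ) : RC f (pw f ψ j) := by
  have h0 := rc_one0 (k := k) h.two_le
  refine ⟨h.two_le, ?_, fun I J => ?_, fun I hI => ?_, fun I hI => ?_, fun x hx => ?_⟩
  · rw [R27.pw, h0.one, h.one, one_pow, mul_one]
  · rw [R27.pw, R27.pw, R27.pw, h0.mul, h.mul]
    ring
  · rw [R27.pw, h0.zero I hI, zero_mul]
  · rw [R27.pw, norm_mul, norm_pow, h0.norm I hI, h.norm I hI, one_pow, mul_one]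
  · rw [R27.pw, h0.ray x hx, h.ray x hx, one_pow, mul_one]

theorem pw_zero (f : ℕ) (ψ : Ideal (𝓞 k) → ℂ) : pw f ψ 0 = one0 f := by
  funext I
  simp [pw]

/-- for `ψ^r = 1`, `r` prime, `r ∤ j` -/
theorem pw_ne {f r j : ℕ} {ψ : Ideal (𝓞 k) → ℂ} (h : RC f ψ) (hr : r.Prime) (hj0 : 0 < j) (hj : j < r)
    (hψ : ∀ I, Cop f I → ψ I ^ r = 1) (hne : ψ ≠ one0 f) : pw f ψ j ≠ one0 f := by
  intro he
  refine hne (funext fun I => ?_)
  by_cases hI : Cop f I
  · have h1 := congrFun he I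
    have h2 : one0 f I = 1 := if_pos hI
    rw [pw, h2, one_mul] at h1
    rw [h2]
    have h3 : Nat.gcd r j = 1 := hr.coprime_iff_not_dvd.2 fun hd =>
      absurd (Nat.le_of_dvd hj0 hd) (by omega)
    have h4 := pow_gcd_eq_one.2 ⟨hψ I hI, h1⟩
    rwa [h3, pow_one] at h4
  · rw [h.zero I hI, one0, if_neg hI]

theorem chi3_mul (u v : ℕ) : chi3 (u * v) = chi3 u * chi3 v := by
  unfold chi3
  rw [Nat.mul_mod]
  have hu : u % 3 = 0 ∨ u % 3 = 1 ∨ u % 3 = 2 := by omega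
  have hv : v % 3 = 0 ∨ v % 3 = 1 ∨ v % 3 = 2 := by omega
  rcases hu with hu | hu | hu <;> rcases hv with hv | hv | hv <;> simp [hu, hv]

/-- the norm of an element of `ℚ(ζ_m)`, `m ≥ 3`, is non-negative: `N x = ∏_σ σ x`, pair `σ` with `σ * cc`
(`cc ≠ 1` as `m ≥ 3`), or: `NumberField.InfinitePlace.prod_eq_abs_norm`-like arguments with all places complex
(`IsCyclotomicExtension.Rat.isTotallyComplex`), or `N x = N_{K⁺/ℚ}(x x̄)`.  One route: `Algebra.norm_eq_prod_embeddings`,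
`Finset.prod_involution`-free version: `∏_φ φ x = ∏_w ∏_{φ, mk φ = w} φ x` and each fibre is `{φ, conj φ}`. -/
theorem norm_nonneg_cyc (m : ℕ) [NeZero m] (hm : 3 ≤ m) [IsCyclotomicExtension {m} ℚ k] (x : 𝓞 k) :
    0 ≤ Algebra.norm ℤ x := by
  have := IsCyclotomicExtension.Rat.isTotallyComplex (n := m) k (by omega)
  rcases eq_or_ne x 0 with rfl | hx
  · rw [Algebra.norm_zero]
  have hx' : (x : k) ≠ 0 := RingOfIntegers.coe_ne_zero_iff.2 hx
  have h0 : ∀ φ : k →+* ℂ, φ x ≠ 0 := fun φ => (map_ne_zero φ).2 hx'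
  have h1 : ((Algebra.norm ℤ x : ℤ) : ℂ) = ∏ φ : k →+* ℂ, φ x := by
    have e := Algebra.norm_eq_prod_embeddings ℚ ℂ (x : k)
    rw [← Algebra.coe_norm_int, eq_ratCast, Rat.cast_intCast] at e
    rw [e]
    exact (Fintype.prod_equiv (RingHom.equivRatAlgHom k ℂ) _ _ fun φ => rfl).symm
  have h2 : ∏ φ : k →+* ℂ, φ x / (‖φ x‖ : ℂ) = 1 := by
    refine Finset.prod_involution (fun φ _ => ComplexEmbedding.conjugate φ) (fun φ _ => ?_)
      (fun φ _ _ => ?_) (fun φ _ => mem_univ _) fun φ _ => star_star φ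
    · have h3 : ((‖φ x‖ : ℝ) : ℂ) ≠ 0 := Complex.ofReal_ne_zero.2 (norm_ne_zero_iff.2 (h0 φ))
      rw [ComplexEmbedding.conjugate_coe_eq, Complex.norm_conj, div_mul_div_comm, Complex.mul_conj',
        ← sq, div_self (pow_ne_zero 2 h3)]
    · exact fun hc => IsTotallyComplex.complexEmbedding_not_isReal φ
        (ComplexEmbedding.isReal_iff.2 hc)
  rw [prod_div_distrib, div_eq_one_iff_eq (prod_ne_zero_iff.2 fun φ _ =>
    Complex.ofReal_ne_zero.2 (norm_ne_zero_iff.2 (h0 φ))), ← h1, ← Complex.ofReal_prod,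
    ← Complex.ofReal_intCast, Complex.ofReal_inj] at h2
  have h3 : (0 : ℝ) ≤ ((Algebra.norm ℤ x : ℤ) : ℝ) := h2 ▸ prod_nonneg fun φ _ => norm_nonneg _
  exact_mod_cast h3

/-- `ray`: `absNorm (span {x}) = (N x).natAbs`, `0 ≤ N x ≡ 1 mod 3` -/
theorem RC.tw3 (m : ℕ) [NeZero m] (hm : 3 ≤ m) [IsCyclotomicExtension {m} ℚ k] {f : ℕ} (h3 : 3 ∣ f)
    {ψ : Ideal (𝓞 k) → ℂ} (h : RC f ψ) : RC f (tw3 ψ) := by
  refine ⟨h.two_le, ?_, fun I J => ?_, fun I hI => ?_, fun I hI => ?_, fun x hx => ?_⟩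
  · rw [R27.tw3, h.one, map_one, one_mul, chi3, if_pos (by norm_num)]
  · rw [R27.tw3, R27.tw3, R27.tw3, h.mul, map_mul, chi3_mul]
    ring
  · rw [R27.tw3, h.zero I hI, zero_mul]
  · rw [R27.tw3, norm_mul, h.norm I hI, one_mul]
    have h1 : ¬ 3 ∣ Ideal.absNorm I :=
      (Nat.prime_three.coprime_iff_not_dvd).1 ((cop_iff.1 hI).coprime_dvd_right h3).symm
    unfold chi3
    split_ifs with a1 a2
    · exact norm_one
    · rw [norm_neg, norm_one]
    · omega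
  · rw [R27.tw3, h.ray x hx, one_mul, Ideal.absNorm_span_singleton, chi3, if_pos]
    have h1 := norm_nonneg_cyc m hm x
    have h2 : (3 : ℤ) ∣ Algebra.norm ℤ x - 1 :=
      (by exact_mod_cast h3 : (3 : ℤ) ∣ (f : ℤ)).trans (norm_sub_one hx)
    omega

/-- `∑_{j<r} z^j` for an `r`-th root of unity -/
theorem sum_pow_root {r : ℕ} {z : ℂ} (hz : z ^ r = 1) :
    ∑ j ∈ range r, z ^ j = if z = 1 then (r : ℂ) else 0 := by
  split_ifs with h
  · simp [h]
  · rw [geom_sum_eq h, hz, sub_self, zero_div]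

/-- at most `[k:ℚ]` ideals of prime norm `l` (`max_of_norm`, `card_lp_le`) -/
theorem card_D1_le {l : ℕ} (hl : l.Prime) : (D1 k l).card ≤ Module.finrank ℚ k := by
  have hinj : Function.Injective fun P : PI k => P.asIdeal := fun P Q h =>
    IsDedekindDomain.HeightOneSpectrum.ext h
  refine le_trans ?_ (R312.card_lp_le l ((D1 k l).preimage _ hinj.injOn))
  refine le_trans (card_le_card fun I hI => ?_) (card_image_le (f := fun P : PI k => P.asIdeal))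
  have h1 := mem_D1.1 hI
  have h2 := R312.B8.max_of_norm (h1 ▸ hl : (Ideal.absNorm I).Prime)
  refine mem_image.2 ⟨⟨I, h2.isPrime, fun h => hl.ne_zero ?_⟩, mem_filter.2 ⟨mem_preimage.2 hI, ?_⟩, rfl⟩
  · rw [← h1, h, Ideal.absNorm_bot]
  · rw [R312.lp, h1, hl.minFac_eq]

theorem RC.norm_c1_le {f : ℕ} {ψ : Ideal (𝓞 k) → ℂ} (h : RC f ψ) (l : ℕ) :
    ‖c1 ψ l‖ ≤ Module.finrank ℚ k := by
  unfold c1
  split_ifs with hl
  · refine (norm_sum_le _ _).trans ((sum_le_card_nsmul _ _ 1 fun I _ => h.norm_le I).trans ?_)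
    rw [nsmul_eq_mul, mul_one]
    exact_mod_cast card_D1_le hl
  · rw [norm_zero]
    positivity

theorem Lf_mul' (ψ : Ideal (𝓞 k) → ℂ) {s : ℂ} (hs : s ≠ 1) : (s - 1) * Lf ψ s = Ef ψ s := by
  have : s - 1 ≠ 0 := sub_ne_zero.2 hs
  rw [Lf, dslope_of_ne _ hs, slope_def_field]
  field_simp
  ring

theorem Ana.Lf_eq {f : ℕ} {ψ : Ideal (𝓞 k) → ℂ} (h : Ana f ψ) {s : ℂ} (hs : 1 < s.re) :
    Lf ψ s = Lser ψ s := by
  have h1 : s ≠ 1 := by rintro rfl; simp at hs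
  exact mul_left_cancel₀ (sub_ne_zero.2 h1) ((Lf_mul' ψ h1).trans (h.eq s hs))

theorem Ana.Lf_diff {f : ℕ} {ψ : Ideal (𝓞 k) → ℂ} (h : Ana f ψ) (hne : ψ ≠ one0 f) :
    Differentiable ℂ (Lf ψ) := by
  have : Lf ψ = dslope (Ef ψ) 1 := by
    funext s; rw [Lf, h.zero hne, zero_div, add_zero]
  rw [this, ← differentiableOn_univ, Complex.differentiableOn_dslope Filter.univ_mem]
  exact h.diff.differentiableOn

/-- identity theorem: from `Re s ≥ 5/4` to `Re s > 5/8` -/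
theorem ident58 {u v : ℂ → ℂ} (hu : DifferentiableOn ℂ u {s | 5 / 8 < s.re})
    (hv : DifferentiableOn ℂ v {s | 5 / 8 < s.re}) (h : ∀ s : ℂ, 5 / 4 ≤ s.re → u s = v s) {s : ℂ}
    (hs : 5 / 8 < s.re) : u s = v s := by
  have ho : IsOpen {s : ℂ | 5 / 8 < s.re} := isOpen_lt continuous_const Complex.continuous_re
  refine (hu.analyticOnNhd ho).eqOn_of_preconnected_of_eventuallyEq (hv.analyticOnNhd ho)
    (convex_halfSpace_re_gt (5 / 8)).isPreconnected (z₀ := 2) (by simp; norm_num) ?_ hs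
  filter_upwards [(isOpen_lt continuous_const Complex.continuous_re).mem_nhds
    (show (5 / 4 : ℝ) < (2 : ℂ).re by simp; norm_num)] with z hz using h z hz.le

end Crest.Agent.R27
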