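import Crest.Agent.R27.KChr3

/-!
# R27 / KChr : the ray class character attached to `a`

`n = |a|`, `2 ≤ n < r`.  For each prime `p ∣ n` choose `Sym ζ r p (P p) (e p) (sy p)` and `w p : ℕ` with
`r ∣ e p * w p + v p` (`v p = n.factorization p`, `0 < v p < r`, so `r ∤ w p`).  Fix an embedding `ι : k →+* ℂ`.
`T β = ∏_{p ∈ n.primeFactors} sy p β ^ w p`.  `T` is multiplicative on elements outside all `P p`, `T β ^ r = 1`,
and `γ² = β² ⟹ T γ = T β` (`(T γ)² = (T β)²`, both are `r`-th roots of unity, `r` odd; or `γ = ±β`, `sy(-1) = 1`).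
`ψ I = ι (T β_I)` for `Cop f I` (`exists_norm_gen`, `norm_gen_uniq`, `good_not_mem`), else `0`.
`mul`: `Good.mul`, `Semi.mul`.  `ray`: `good_span`, `thE x ≡ 1 mod f` (as in `thE_one`; prove `f ∣ x - 1 → f ∣ thE x - 1`),
`semi_of_dvd`, `Sym.one`.  Non-principal: `Sym.test` for one `p₀ ∣ n`, with `g = r` and `g = p ≠ p₀`:
`ψ (span {x}) = ι (sy p₀ (thE x) ^ w p₀) ≠ 1`.  Degree one primes: `good_prime'`, `Sym.recip`:
`sy p Φ ^ w p = c p ^ v p`, so `T Φ = c n` (`Nat.factorization_prod_pow_eq_self`, `map_prod`), and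
`(a : ZMod l)^κ = (n : ZMod l)^κ` because `κ = (l-1)/r` is even (`l` odd since `l ∤ f`... `l ≡ 1 mod r`, `l ≠ 2`
as `r ∣ l - 1`, `r ≥ 3`).
-/

set_option autoImplicit false
set_option linter.unusedSectionVars false
set_option linter.unusedVariables false

noncomputable section

open Finset NumberField
open scoped Classical
open IsCyclotomicExtension.Rat
open scoped Pointwise nonZeroDivisors

namespace Crest.Agent.R27

open Crest.Agent.R312 (Lser Ef Lf one0 PI)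

open Crest.Agent.R312.B8

variable {r : ℕ} [NeZero r] {k : Type} [Field k] [NumberField k] [IsCyclotomicExtension {r} ℚ k]

theorem thE_dvd {g : ℕ} {x : 𝓞 k} (hx : (g : 𝓞 k) ∣ x - 1) : (g : 𝓞 k) ∣ thE r r x - 1 := by
  rw [← Ideal.mem_span_singleton, ← Ideal.Quotient.eq, map_one]
  exact thE_one (Ideal.mem_span_singleton_self _) hx

omit [NeZero r] [IsCyclotomicExtension {r} ℚ k] in
theorem kc_sq (hr : Odd r) {u v : 𝓞 k} (hu : u ^ r = 1) (hv : v ^ r = 1) (h : u * u = v * v) : u = v := by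
  obtain ⟨c, rfl⟩ := hr
  have e : ∀ w : 𝓞 k, w ^ (2 * c + 1) = 1 → w = (w * w) ^ (c + 1) := fun w hw => by
    rw [show (w * w) ^ (c + 1) = w ^ (2 * c + 1) * w by ring, hw, one_mul]
  rw [e u hu, e v hv, h]

theorem kc_w {r e : ℕ} (hr : r.Prime) (h0 : 0 < e) (h1 : e < r) (v : ℕ) : ∃ w : ℕ, r ∣ e * w + v := by
  have hc : e.Coprime r := ((Nat.coprime_of_lt_prime h0.ne' h1 hr)).symm
  obtain ⟨i, -, hi⟩ := Nat.exists_mul_mod_eq_one_of_coprime hc hr.one_lt
  refine ⟨i * ((r - 1) * v), ?_⟩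
  rw [← mul_assoc, ← Nat.div_add_mod (e * i) r, hi, add_mul, one_mul, add_assoc, mul_assoc]
  refine dvd_add (dvd_mul_right _ _) ⟨v, ?_⟩
  conv_rhs => rw [← Nat.sub_add_cancel hr.one_le, add_mul, one_mul]

theorem exists_chr (hr : r.Prime) {a : ℤ} (ha : 2 ≤ a.natAbs) (har : a.natAbs < r) {f : ℕ} (hf0 : f ≠ 0)
    (hf : r * a.natAbs ∣ f) (hg : Gen k f) : ∃ ψ : Ideal (𝓞 k) → ℂ, RC f ψ ∧ (∀ I, Cop f I → ψ I ^ r = 1) ∧
      ψ ≠ one0 f ∧ ∀ P : Ideal (𝓞 k), (Ideal.absNorm P).Prime → Cop f P →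
        (ψ P = 1 ↔ (a : ZMod (Ideal.absNorm P)) ^ ((Ideal.absNorm P - 1) / r) = 1) := by
  set n := a.natAbs with hn
  have hr2 : r ≠ 2 := by omega
  have hro := hr.odd_of_ne_two hr2
  have hrf : r ∣ f := (dvd_mul_right _ _).trans hf
  have hnf : n ∣ f := (dvd_mul_left _ _).trans hf
  have hf2 : 2 ≤ f := ha.trans (Nat.le_of_dvd (Nat.pos_of_ne_zero hf0) hnf)
  obtain ⟨ζ, hζ⟩ := exists_root (m := r) k dvd_rfl
  have hsym : ∀ p : ℕ, ∃ (P : Ideal (𝓞 k)) (e : ℕ) (sy : 𝓞 k → 𝓞 k) (w : ℕ), p ∈ n.primeFactors →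
      Sym ζ r p P e sy ∧ r ∣ e * w + n.factorization p := fun p => by
    by_cases hp : p ∈ n.primeFactors
    · obtain ⟨P, e, sy, h⟩ := exists_sym hr hr2 hζ (Nat.prime_of_mem_primeFactors hp)
        (by have := Nat.le_of_mem_primeFactors hp; omega)
      obtain ⟨w, hw⟩ := kc_w hr h.e_pos h.e_lt (n.factorization p)
      exact ⟨P, e, sy, w, fun _ => ⟨h, hw⟩⟩
    · exact ⟨0, 0, id, 0, fun h => absurd h hp⟩
  choose P e sy w H using hsym
  have hfP : ∀ p ∈ n.primeFactors, (f : 𝓞 k) ∈ P p := fun p hp => by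
    obtain ⟨c, hc⟩ := (Nat.dvd_of_mem_primeFactors hp).trans hnf
    rw [hc, Nat.cast_mul]
    exact (P p).mul_mem_right _ (H p hp).1.mem
  have hnm : ∀ {I : Ideal (𝓞 k)} {β : 𝓞 k}, Cop f I → Good r r I β → ∀ p ∈ n.primeFactors, β ∉ P p :=
    fun hI hβ p hp => good_not_mem hI hβ (H p hp).1.ne_top (hfP p hp)
  set T : 𝓞 k → 𝓞 k := fun β => ∏ p ∈ n.primeFactors, sy p β ^ w p with hT
  have Tmul : ∀ β γ, (∀ p ∈ n.primeFactors, β ∉ P p) → (∀ p ∈ n.primeFactors, γ ∉ P p) →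
      T (β * γ) = T β * T γ := fun β γ h1 h2 => by
    rw [hT, ← prod_mul_distrib]
    exact prod_congr rfl fun p hp => by rw [(H p hp).1.mul β γ (h1 p hp) (h2 p hp), mul_pow]
  have Tpow : ∀ β, (∀ p ∈ n.primeFactors, β ∉ P p) → T β ^ r = 1 := fun β h1 => by
    rw [hT, ← prod_pow]
    exact prod_eq_one fun p hp => by
      rw [← pow_mul, mul_comm, pow_mul, (H p hp).1.pow β (h1 p hp), one_pow]
  obtain ⟨φ⟩ : Nonempty (k →+* ℂ) := inferInstance
  set ι : 𝓞 k →+* ℂ := φ.comp (algebraMap (𝓞 k) k) with hι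
  have hinj : ∀ u : 𝓞 k, ι u = 1 ↔ u = 1 := fun u =>
    map_eq_one_iff ι (φ.injective.comp RingOfIntegers.coe_injective)
  have hall := fun {I : Ideal (𝓞 k)} (hI : Cop f I) => exists_norm_gen hr hr2 hζ hg hf2 hrf hI
  obtain ⟨ψ, h0, hψ⟩ : ∃ ψ : Ideal (𝓞 k) → ℂ, (∀ I, ¬ Cop f I → ψ I = 0) ∧
      ∀ I β, Cop f I → Good r r I β → Semi ζ β → ψ I = ι (T β) := by
    refine ⟨fun I => if h : Cop f I then ι (T (hall h).choose) else 0, fun I h => dif_neg h,
      fun I β hI h1 h2 => ?_⟩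
    obtain ⟨h3, h4⟩ := (hall hI).choose_spec
    have e1 := norm_gen_uniq hr hr2 hζ hf2 hrf hI h1 h2 h3 h4
    simp only [dif_pos hI]
    congr 1
    refine kc_sq hro (Tpow _ (hnm hI h3)) (Tpow _ (hnm hI h1)) ?_
    rw [← Tmul _ _ (hnm hI h3) (hnm hI h3), ← Tmul _ _ (hnm hI h1) (hnm hI h1), ← sq, ← sq, e1]
  have hpow : ∀ I, Cop f I → ψ I ^ r = 1 := fun I hI => by
    obtain ⟨β, h1, h2⟩ := hall hI
    rw [hψ I β hI h1 h2, ← map_pow, Tpow _ (hnm hI h1), map_one]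
  have hray : ∀ x : 𝓞 k, (f : 𝓞 k) ∣ x - 1 → ψ (Ideal.span {x}) = 1 := fun x hx => by
    have h1 := thE_dvd (r := r) hx
    rw [hψ _ _ (cop_of_dvd hx) (good_span hr dvd_rfl x)
      (semi_of_dvd hr hr2 hζ ((Nat.cast_dvd_cast hrf).trans h1)), hinj]
    refine prod_eq_one fun p hp => ?_
    obtain ⟨c, hc⟩ := h1
    rw [(H p hp).1.one _ (hc ▸ (P p).mul_mem_right _ (hfP p hp)), one_pow]
  refine ⟨ψ, ⟨hf2, ?_, fun I J => ?_, h0, fun I hI => ?_, hray⟩, hpow, fun h => ?_, fun Q hQ hc => ?_⟩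
  · rw [Ideal.one_eq_top, ← Ideal.span_singleton_one]
    exact hray 1 (by simp)
  · by_cases h1 : Cop f I
    · by_cases h2 : Cop f J
      · obtain ⟨β, b1, b2⟩ := hall h1
        obtain ⟨γ, c1, c2⟩ := hall h2
        rw [hψ _ _ h1 b1 b2, hψ _ _ h2 c1 c2, hψ _ _ (h1.mul_left h2) (b1.mul c1) (b2.mul c2),
          Tmul _ _ (hnm h1 b1) (hnm h2 c1), map_mul]
      · rw [h0 J h2, h0 _ fun h => h2 h.of_mul_left_right, mul_zero]
    · rw [h0 I h1, h0 _ fun h => h1 h.of_mul_left_left, zero_mul]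
  · exact Complex.norm_eq_one_of_pow_eq_one (hpow I hI) hr.ne_zero
  · obtain ⟨p, hp⟩ : n.primeFactors.Nonempty := Nat.nonempty_primeFactors.2 (by omega)
    have hpp := Nat.prime_of_mem_primeFactors hp
    have hple := Nat.le_of_mem_primeFactors hp
    obtain ⟨x, hx1, hx2, hx3⟩ := (H p hp).1.test f hf0 ((Nat.dvd_of_mem_primeFactors hp).trans hnf)
    have h1 := congrFun h (Ideal.span {x})
    rw [hψ _ _ hx1 (good_span hr dvd_rfl x) (semi_of_dvd hr hr2 hζ (thE_dvd (hx3 r hrf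
      ((Nat.coprime_primes hr hpp).2 (by omega))))), one0, if_pos hx1, hinj] at h1
    have h2 : T (thE r r x) = sy p (thE r r x) ^ w p := by
      refine prod_eq_single_of_mem p hp fun q hq hqp => ?_
      obtain ⟨c, hc⟩ := thE_dvd (r := r) (hx3 q ((Nat.dvd_of_mem_primeFactors hq).trans hnf)
        ((Nat.coprime_primes (Nat.prime_of_mem_primeFactors hq) hpp).2 hqp))
      rw [(H q hq).1.one _ (hc ▸ (P q).mul_mem_right _ (H q hq).1.mem), one_pow]
    rw [h2] at h1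
    have h3 := (H p hp).1.pow _ (hnm hx1 (good_span hr dvd_rfl x) p hp)
    have h4 : (w p).Coprime r := by
      rw [Nat.coprime_comm, hr.coprime_iff_not_dvd]
      intro h5
      have h6 := (Nat.dvd_add_right (h5.mul_left (e p))).1 (H p hp).2
      have h7 := Nat.le_of_dvd (hpp.factorization_pos_of_dvd (by omega)
        (Nat.dvd_of_mem_primeFactors hp)) h6
      have h8 := Nat.factorization_lt p (show n ≠ 0 by omega)
      omega
    exact hx2 ((pow_eq_one_iff_of_coprime h4).1 ⟨h1, h3⟩)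
  · have hcf := norm_cop hQ hc
    obtain ⟨hd, Φ, c, g1, g2, g3, g4, g5⟩ := good_prime' hr hr2 hζ hQ (hcf.of_dvd_right hrf)
    set l := Ideal.absNorm Q with hl
    have hln : ¬ l ∣ n := fun h => (hQ.coprime_iff_not_dvd.1 hcf) (h.trans hnf)
    have h1 : T Φ = c n := by
      conv_rhs => rw [← Nat.prod_factorization_pow_eq_self (show n ≠ 0 by omega), Finsupp.prod,
        Nat.support_factorization, map_prod]
      refine prod_congr rfl fun p hp => ?_
      have hlp : ¬ l ∣ p := fun h => hln (h.trans (Nat.dvd_of_mem_primeFactors hp))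
      have h2 := (H p hp).1.recip Φ c l (fun h => hlp (h ▸ dvd_rfl)) (hnm hc g1 p hp) (g3 p hlp) g5
      obtain ⟨j, hj⟩ := (H p hp).2
      have h3 : c p ^ (e p * w p + n.factorization p) = 1 := by rw [hj, pow_mul, g3 p hlp, one_pow]
      rw [map_pow]
      calc sy p Φ ^ w p = sy p Φ ^ w p * c p ^ (e p * w p + n.factorization p) := by rw [h3, mul_one]
        _ = (sy p Φ * c p ^ e p) ^ w p * c p ^ n.factorization p := by ring
        _ = _ := by rw [h2, one_pow, one_mul]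
    rw [hψ _ _ hc g1 g2, hinj, h1, g4 n hln]
    have hev : Even ((l - 1) / r) := by
      obtain ⟨κ, hκ⟩ := hd
      rw [hκ, Nat.mul_div_cancel_left _ hr.pos]
      have hl2 : l ≠ 2 := fun h => by
        rw [h] at hκ
        have := Nat.le_of_dvd one_pos ⟨κ, hκ⟩
        omega
      have := hQ.even_sub_one hl2
      rw [hκ, Nat.even_mul] at this
      exact this.resolve_left (Nat.not_even_iff_odd.2 hro)
    rcases Int.natAbs_eq a with h | h
    · rw [h, Int.cast_natCast]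
    · rw [h, Int.cast_neg, hev.neg_pow, Int.cast_natCast]

end Crest.Agent.R27
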