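import Crest.Agent.R27.KBas

/-!
# R27 / KChr1 : semi-primary normalisation of the Stickelberger generators in `ℚ(ζ_r)`

`m = r` in the notation of `R312/B8G` (`Good r r I β`: `β` generates `I^θ`, `β β̄ ∈ ℚ`; unique up to `u^(2r) = 1`).
`ζ : 𝓞 k` any primitive `r`-th root of unity, `λ = ζ - 1`.  Facts: `λ² ∣ r` (`IsPrimitiveRoot.self_sub_one_pow_dvd_order`,
or `associated_zeta_sub_one_pow_prime`), `λ ∣ (n : ℤ) ↔ r ∣ n` (`zeta_sub_one_dvd_intCast_iff'`; a primitive root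
`ζ : 𝓞 k` is `hζ'.toInteger` for `hζ' : IsPrimitiveRoot (ζ : k) r`, by `rfl`/`ext`), `ζ^j ≡ 1 + j λ mod λ²`,
`𝓞 = ℤ[ζ]` (`IsCyclotomicExtension.Rat.adjoin_singleton_eq_top`), so every `β ≡ n₀ + n₁ λ mod λ²`.
`good_all'` is a copy of `LP.app`, `LP.eq_top`, `good_all` of `R312/B8C.lean` with `Gen k f` for `LP K f X`
(`RC` for `HChar`).
-/

set_option autoImplicit false
set_option linter.unusedSectionVars false
set_option linter.unusedVariables false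

noncomputable section

open Finset NumberField
open scoped Classical
open IsCyclotomicExtension.Rat
open scoped Pointwise nonZeroDivisors

namespace Crest.Agent.R27

open Crest.Agent.R312 (Lser Ef Lf one0 PI)

open Crest.Agent.R312.B8

variable {r : ℕ} [NeZero r] {k : Type} [Field k] [NumberField k] [IsCyclotomicExtension {r} ℚ k]

/-- semi-primary elements -/
def Semi (ζ β : 𝓞 k) : Prop := ∃ n : ℤ, (ζ - 1) ^ 2 ∣ β - n

theorem Semi.mul {ζ β γ : 𝓞 k} (h : Semi ζ β) (h' : Semi ζ γ) : Semi ζ (β * γ) := by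
  obtain ⟨n, c, hc⟩ := h
  obtain ⟨n', c', hc'⟩ := h'
  exact ⟨n * n', c * γ + n * c', by push_cast; linear_combination γ * hc + n * hc'⟩

theorem lam_sq_dvd (hr : r.Prime) (hr2 : r ≠ 2) {ζ : 𝓞 k} (hζ : IsPrimitiveRoot ζ r) :
    (ζ - 1) ^ 2 ∣ (r : 𝓞 k) := by
  obtain ⟨z, -, hz⟩ := hζ.self_sub_one_pow_dvd_order (k := 2) (by have := hr.two_le; omega)
  exact ⟨z, by rw [hz, mul_comm]⟩

theorem kc1_coe {ζ : 𝓞 k} (hζ : IsPrimitiveRoot ζ r) : IsPrimitiveRoot (ζ : k) r :=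
  hζ.map_of_injective (FaithfulSMul.algebraMap_injective (𝓞 k) k)

theorem kc1_pow (ζ : 𝓞 k) (j : ℕ) : (ζ - 1) ^ 2 ∣ ζ ^ j - (1 + j * (ζ - 1)) := by
  induction j with
  | zero => simp
  | succ j ih =>
    obtain ⟨c, hc⟩ := ih
    exact ⟨c * ζ + j, by push_cast; linear_combination ζ * hc⟩

theorem kc1_expand {ζ : 𝓞 k} (hζ : IsPrimitiveRoot ζ r) (β : 𝓞 k) :
    ∃ n₀ n₁ : ℤ, (ζ - 1) ^ 2 ∣ β - (n₀ + n₁ * (ζ - 1)) := by
  have h : Algebra.adjoin ℤ {ζ} = ⊤ := adjoin_singleton_eq_top (kc1_coe hζ)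
  have hβ : β ∈ Algebra.adjoin ℤ {ζ} := h ▸ Algebra.mem_top
  induction hβ using Algebra.adjoin_induction with
  | mem x hx =>
    rw [Set.mem_singleton_iff.1 hx]
    exact ⟨1, 1, by simp⟩
  | algebraMap n => exact ⟨n, 0, by simp⟩
  | add x y _ _ hx hy =>
    obtain ⟨a, b, c, hc⟩ := hx
    obtain ⟨a', b', c', hc'⟩ := hy
    exact ⟨a + a', b + b', c + c', by push_cast; linear_combination hc + hc'⟩
  | mul x y _ _ hx hy =>
    obtain ⟨a, b, c, hc⟩ := hx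
    obtain ⟨a', b', c', hc'⟩ := hy
    exact ⟨a * a', a * b' + b * a', c * y + (a + b * (ζ - 1)) * c' + b * b', by
      push_cast; linear_combination y * hc + (a + b * (ζ - 1)) * hc'⟩

theorem lam_dvd_int (hr : r.Prime) {ζ : 𝓞 k} (hζ : IsPrimitiveRoot ζ r) (n : ℤ) :
    ζ - 1 ∣ (n : 𝓞 k) ↔ (r : ℤ) ∣ n := by
  have : Fact r.Prime := ⟨hr⟩
  exact zeta_sub_one_dvd_intCast_iff' r (kc1_coe hζ)

theorem semi_of_dvd (hr : r.Prime) (hr2 : r ≠ 2) {ζ : 𝓞 k} (hζ : IsPrimitiveRoot ζ r) {β : 𝓞 k}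
    (h : (r : 𝓞 k) ∣ β - 1) : Semi ζ β :=
  ⟨1, by simpa using (lam_sq_dvd hr hr2 hζ).trans h⟩

/-- `β ≡ n₀ + n₁ λ`, `r ∤ n₀`; choose `j` with `j n₀ + n₁ ≡ 0 mod r` -/
theorem exists_semi (hr : r.Prime) (hr2 : r ≠ 2) {ζ : 𝓞 k} (hζ : IsPrimitiveRoot ζ r) {β : 𝓞 k}
    (h : ¬ ζ - 1 ∣ β) : ∃ j : ℕ, Semi ζ (ζ ^ j * β) := by
  have : Fact r.Prime := ⟨hr⟩
  obtain ⟨n₀, n₁, c, hc⟩ := kc1_expand hζ β
  have h0 : (n₀ : ZMod r) ≠ 0 := fun e => h (by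
    obtain ⟨d, hd⟩ := (lam_dvd_int hr hζ n₀).2 ((ZMod.intCast_zmod_eq_zero_iff_dvd n₀ r).1 e)
    exact ⟨d + n₁ + (ζ - 1) * c, by linear_combination hc + hd⟩)
  obtain ⟨j, hj⟩ : ∃ j : ℕ, (r : ℤ) ∣ j * n₀ + n₁ := by
    refine ⟨(-(n₁ : ZMod r) / n₀).val, (ZMod.intCast_zmod_eq_zero_iff_dvd _ r).1 ?_⟩
    push_cast
    rw [ZMod.natCast_zmod_val, div_mul_cancel₀ _ h0, neg_add_cancel]
  obtain ⟨d, hd⟩ := (lam_dvd_int hr hζ _).2 hj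
  obtain ⟨e, he⟩ := kc1_pow ζ j
  push_cast at hd
  exact ⟨j, n₀, e * β + (1 + j * (ζ - 1)) * c + d + j * n₁, by
    linear_combination β * he + (1 + j * (ζ - 1)) * hc + (ζ - 1) * hd⟩

/-- `u² = ζ^j`; `β ≡ n`, `u β ≡ n'` give `ζ^j n² ≡ n'² mod λ²`, so `r ∣ n² - n'²`, `λ ∣ j n²`, `r ∣ j` -/
theorem semi_uniq (hr : r.Prime) (hr2 : r ≠ 2) {ζ : 𝓞 k} (hζ : IsPrimitiveRoot ζ r) {β u : 𝓞 k}
    (h : ¬ ζ - 1 ∣ β) (h1 : Semi ζ β) (h2 : Semi ζ (u * β)) (hu : u ^ (2 * r) = 1) : u ^ 2 = 1 := by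
  rw [pow_mul] at hu
  obtain ⟨j, hj, e⟩ := hζ.eq_pow_of_pow_eq_one hu
  obtain ⟨n, c, hc⟩ := h1
  obtain ⟨n', c', hc'⟩ := h2
  obtain ⟨d, hd⟩ := kc1_pow ζ j
  have hl : ζ - 1 ≠ 0 := sub_ne_zero.2 (hζ.ne_one hr.one_lt)
  obtain ⟨t, ht⟩ : ∃ t, (n : 𝓞 k) ^ 2 - n' ^ 2 + j * (ζ - 1) * n ^ 2 = (ζ - 1) ^ 2 * t :=
    ⟨c' * (u * β + n') - u ^ 2 * c * (β + n) - d * n ^ 2, by
      linear_combination (u * β + n') * hc' - u ^ 2 * (β + n) * hc - n ^ 2 * hd + n ^ 2 * e⟩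
  have a1 : ζ - 1 ∣ ((n ^ 2 - n' ^ 2 : ℤ) : 𝓞 k) :=
    ⟨(ζ - 1) * t - j * n ^ 2, by push_cast; linear_combination ht⟩
  obtain ⟨a, ha⟩ := (lam_dvd_int hr hζ _).1 a1
  obtain ⟨b, hb⟩ := lam_sq_dvd hr hr2 hζ
  have ha' : (n : 𝓞 k) ^ 2 - n' ^ 2 = r * a := by exact_mod_cast congrArg (Int.cast : ℤ → 𝓞 k) ha
  have a2 : ζ - 1 ∣ ((j * n ^ 2 : ℤ) : 𝓞 k) :=
    ⟨t - b * a, mul_left_cancel₀ hl (by push_cast; linear_combination ht - ha' - a * hb)⟩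
  have hp : Prime (r : ℤ) := Nat.prime_iff_prime_int.1 hr
  rcases hp.dvd_or_dvd ((lam_dvd_int hr hζ _).1 a2) with a3 | a3
  · rw [← e, Nat.eq_zero_of_dvd_of_lt (Int.natCast_dvd_natCast.1 a3) hj, pow_zero]
  · obtain ⟨g, hg⟩ := (lam_dvd_int hr hζ n).2 (hp.dvd_of_dvd_pow a3)
    exact absurd ⟨g + (ζ - 1) * c, by linear_combination hc + hg⟩ h

/-- a root of unity times a good generator is good (`Good.mul` with `Good r r 1 (ζ^j)`: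
`cc • ζ^j = ζ^(aa cc · j)`, `aa_cc`, `smul_root`) -/
theorem good_root (hr : r.Prime) {ζ : 𝓞 k} (hζ : IsPrimitiveRoot ζ r) {I : Ideal (𝓞 k)} {β : 𝓞 k}
    (h : Good r r I β) (j : ℕ) : Good r r I (ζ ^ j * β) := by
  have h1 : (ζ ^ j) ^ r = 1 := by rw [← pow_mul, mul_comm, pow_mul, hζ.pow_eq_one, one_pow]
  have h2 : Good r r (1 : Ideal (𝓞 k)) (ζ ^ j) := by
    refine ⟨?_, 1, ?_⟩
    · rw [← (good_one (K := k) hr dvd_rfl).1, Ideal.span_singleton_one, Ideal.span_singleton_eq_top]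
      exact (hζ.isUnit hr.ne_zero).pow j
    · obtain ⟨c, hc⟩ := aa_cc (m := r) (K := k)
      have h3 : ζ ^ j * cc r k • ζ ^ j = 1 := by
        rw [smul_root _ h1, ← pow_succ', hc, pow_mul, h1, one_pow]
      rw [← R312.B8.coe_smul, ← map_mul, h3, map_one, Rat.cast_one]
  simpa only [one_mul] using h2.mul h

theorem Gen.app {f : ℕ} (h : Gen k f) (hf : 2 ≤ f) (g : Ideal (𝓞 k) → ℂ)
    (hmul : ∀ I J, Cop f I → Cop f J → g (I * J) = g I * g J)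
    {N : ℕ} (hN : N ≠ 0) (hfin : ∀ I, Cop f I → g I ^ N = 1)
    (hray : ∀ x : 𝓞 k, (f : 𝓞 k) ∣ x - 1 → g (Ideal.span {x}) = 1)
    {I : Ideal (𝓞 k)} (hI : Cop f I) (hne : g I ≠ 1) :
    ∃ P : Ideal (𝓞 k), (Ideal.absNorm P).Prime ∧ Cop f P ∧ g P ≠ 1 := by
  obtain ⟨P, h1, h2, h3⟩ := h (fun I => if Cop f I then g I else 0)
    { two_le := hf
      one := by
        rw [if_pos isCoprime_one_left, Ideal.one_eq_top, ← Ideal.span_singleton_one]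
        exact hray 1 (by simp)
      mul := fun I J => by
        by_cases h1 : Cop f I
        · by_cases h2 : Cop f J
          · rw [if_pos h1, if_pos h2, if_pos (h1.mul_left h2), hmul I J h1 h2]
          · rw [if_neg h2, if_neg fun h => h2 h.of_mul_left_right, mul_zero]
        · rw [if_neg h1, if_neg fun h => h1 h.of_mul_left_left, zero_mul]
      zero := fun I h => if_neg h
      norm := fun I h => by
        rw [if_pos h]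
        exact Complex.norm_eq_one_of_pow_eq_one (hfin I h) hN
      ray := fun x hx => by rw [if_pos (cop_of_dvd hx), hray x hx] }
    (fun e => hne (by simpa only [one0, if_pos hI] using congrFun e I))
  exact ⟨P, h1, h2, by rwa [if_pos h2] at h3⟩

/-- degree one primes prime to `f` generate the class group -/
theorem Gen.eq_top {f : ℕ} (h : Gen k f) (hf : 2 ≤ f) (S : Subgroup (ClassGroup (𝓞 k)))
    (hS : ∀ P : (Ideal (𝓞 k))⁰, (Ideal.absNorm (P : Ideal (𝓞 k))).Prime →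
      Cop f (P : Ideal (𝓞 k)) → ClassGroup.mk0 P ∈ S)
    (c : ClassGroup (𝓞 k)) : c ∈ S := by
  by_contra hc
  have : NeZero ((Monoid.exponent (ClassGroup (𝓞 k) ⧸ S) : ℕ) : ℂ) :=
    ⟨Nat.cast_ne_zero.2 Monoid.exponent_ne_zero_of_finite⟩
  obtain ⟨φ, hφ⟩ := CommGroup.exists_apply_ne_one_of_hasEnoughRootsOfUnity
    (ClassGroup (𝓞 k) ⧸ S) ℂ (a := (c : ClassGroup (𝓞 k) ⧸ S))
    (fun e => hc ((QuotientGroup.eq_one_iff c).1 e))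
  obtain ⟨g, hg⟩ : ∃ g : Ideal (𝓞 k) → ℂ, ∀ (I : Ideal (𝓞 k)) (h : I ∈ (Ideal (𝓞 k))⁰),
      g I = φ (ClassGroup.mk0 ⟨I, h⟩ : ClassGroup (𝓞 k)) :=
    ⟨fun I => if h : I ∈ (Ideal (𝓞 k))⁰ then φ (ClassGroup.mk0 ⟨I, h⟩ : ClassGroup (𝓞 k)) else 1,
      fun I h => dif_pos h⟩
  have hnz : ∀ {I : Ideal (𝓞 k)}, Cop f I → I ∈ (Ideal (𝓞 k))⁰ :=
    fun h => mem_nonZeroDivisors_of_ne_zero (cop_ne hf h)
  obtain ⟨I, hI, hIc⟩ := exists_cop hf c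
  obtain ⟨P, h1, h2, h3⟩ := h.app hf g
    (fun I J h1 h2 => by
      rw [hg I (hnz h1), hg J (hnz h2), ← Units.val_mul, ← map_mul, ← QuotientGroup.mk_mul,
        ← map_mul, hg _ (hnz (h1.mul_left h2)), MulMemClass.mk_mul_mk])
    (N := Nat.card (ClassGroup (𝓞 k) ⧸ S)) Nat.card_pos.ne'
    (fun I h => by
      rw [hg I (hnz h), ← Units.val_pow_eq_pow_val, ← map_pow, pow_card_eq_one', map_one,
        Units.val_one])
    (fun x hx => by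
      rw [hg _ (hnz (cop_of_dvd hx)), (ClassGroup.mk0_eq_one_iff _).2 ⟨x, rfl⟩]
      simp)
    hI (by rw [hg _ I.2, Subtype.coe_eta, hIc]; exact fun e => hφ (Units.ext e))
  apply h3
  rw [hg P (hnz h2), (QuotientGroup.eq_one_iff _).2 (hS ⟨P, hnz h2⟩ h1 h2)]
  simp

theorem good_all' (hr : r.Prime) (hr2 : r ≠ 2) {f : ℕ} (h : Gen k f) (hf : 2 ≤ f) (hrf : r ∣ f)
    {I : Ideal (𝓞 k)} (hI : I ≠ 0) : ∃ β, Good r r I β := by
  let S : Subgroup (ClassGroup (𝓞 k)) :=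
    { carrier := {c | ∃ (J : (Ideal (𝓞 k))⁰) (β : 𝓞 k), ClassGroup.mk0 J = c ∧ Good r r J β}
      one_mem' := ⟨1, 1, map_one _, by rw [OneMemClass.coe_one]; exact good_one hr dvd_rfl⟩
      mul_mem' := by
        rintro _ _ ⟨J, β, rfl, h1⟩ ⟨J', β', rfl, h2⟩
        exact ⟨J * J', β * β', map_mul _ _ _, by rw [Submonoid.coe_mul]; exact h1.mul h2⟩
      inv_mem' := by
        rintro _ ⟨J, β, rfl, h1⟩
        obtain ⟨J', hJ'⟩ := ClassGroup.mk0_surjective (ClassGroup.mk0 J)⁻¹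
        obtain ⟨x, -, hx⟩ := ClassGroup.mk0_eq_mk0_inv_iff.1 hJ'
        have h2 := good_span hr dvd_rfl x
        rw [← hx] at h2
        obtain ⟨α, hα, -⟩ := Good.cancel h2 h1 (nonZeroDivisors.coe_ne_zero J)
        exact ⟨J', α, hJ', hα⟩ }
  obtain ⟨ζ, hζ⟩ := exists_root (m := r) k dvd_rfl
  obtain ⟨J, β, h1, h2⟩ := h.eq_top hf S (fun P h1 h2 => by
    obtain ⟨-, Φ, hΦ, -⟩ := good_prime hr hr2 dvd_rfl hζ h1 ((norm_cop h1 h2).of_dvd_right hrf)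
    exact ⟨P, Φ, rfl, hΦ⟩) (ClassGroup.mk0 ⟨I, mem_nonZeroDivisors_of_ne_zero hI⟩)
  obtain ⟨x, y, -, hy, hxy⟩ := ClassGroup.mk0_eq_mk0_iff.1 h1
  have h3 := (good_span hr dvd_rfl x).mul h2
  rw [hxy, mul_comm] at h3
  obtain ⟨α, hα, -⟩ := Good.cancel h3 (good_span hr dvd_rfl y) (by simpa using hy)
  exact ⟨α, hα⟩

/-- a good generator for an ideal prime to `f` is prime to `f` -/
theorem good_not_mem {f : ℕ} {I : Ideal (𝓞 k)} (hI : Cop f I) {β : 𝓞 k} (h : Good r r I β)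
    {P : Ideal (𝓞 k)} (hP : P ≠ ⊤) (hf : (f : 𝓞 k) ∈ P) : β ∉ P := fun h0 =>
  cop_not_mem (thI_cop (m := r) (r := r) hI) hP hf (by
    rw [← h.1, Ideal.span_singleton_le_iff_mem]; exact h0)

theorem kc1_not_dvd (hr : r.Prime) {ζ : 𝓞 k} (hζ : IsPrimitiveRoot ζ r) {f : ℕ} (hrf : r ∣ f)
    {I : Ideal (𝓞 k)} (hI : Cop f I) {β : 𝓞 k} (h : Good r r I β) : ¬ ζ - 1 ∣ β := by
  rw [← Ideal.mem_span_singleton]
  refine good_not_mem hI h (fun e => ?_) (Ideal.mem_span_singleton.2 ?_)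
  · have h1 : ζ - 1 ∣ ((1 : ℤ) : 𝓞 k) := (Ideal.span_singleton_eq_top.1 e).dvd
    have h2 := Int.natCast_dvd_natCast.1 ((lam_dvd_int hr hζ 1).1 h1)
    exact hr.one_lt.ne' (Nat.dvd_one.1 h2)
  · simpa using (lam_dvd_int hr hζ f).2 (Int.natCast_dvd_natCast.2 hrf)

/-- existence of normalised generators (`good_not_mem` with `P = span {ζ - 1}`) -/
theorem exists_norm_gen (hr : r.Prime) (hr2 : r ≠ 2) {ζ : 𝓞 k} (hζ : IsPrimitiveRoot ζ r) {f : ℕ}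
    (h : Gen k f) (hf : 2 ≤ f) (hrf : r ∣ f) {I : Ideal (𝓞 k)} (hI : Cop f I) :
    ∃ β, Good r r I β ∧ Semi ζ β := by
  obtain ⟨β, hβ⟩ := good_all' hr hr2 h hf hrf (cop_ne hf hI)
  obtain ⟨j, hj⟩ := exists_semi hr hr2 hζ (kc1_not_dvd hr hζ hrf hI hβ)
  exact ⟨_, good_root hr hζ hβ j, hj⟩

/-- uniqueness up to sign -/
theorem norm_gen_uniq (hr : r.Prime) (hr2 : r ≠ 2) {ζ : 𝓞 k} (hζ : IsPrimitiveRoot ζ r) {f : ℕ}
    (hf : 2 ≤ f) (hrf : r ∣ f) {I : Ideal (𝓞 k)} (hI : Cop f I) {β γ : 𝓞 k} (h1 : Good r r I β)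
    (s1 : Semi ζ β) (h2 : Good r r I γ) (s2 : Semi ζ γ) : γ ^ 2 = β ^ 2 := by
  obtain ⟨u, hu, rfl⟩ := Good.uniq hr dvd_rfl (hr.odd_of_ne_two hr2) h1 h2 (cop_ne hf hI)
  rw [mul_pow, semi_uniq hr hr2 hζ (kc1_not_dvd hr hζ hrf hI h1) s1 s2 hu, one_mul]

end Crest.Agent.R27
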