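import Crest.Agent.R27.KChr1

/-!
# R27 / KChr2 : the exact reciprocity law for primes of degree one

`recip'`: copy `R312.B8.recip` (B8J): without `hp`; `(p^e : F)` is a unit because `ringChar E ≠ ringChar F`;
`gaussSum_mulShift χ' ψ u : χ' u * gaussSum χ' (mulShift ψ u) = gaussSum χ' ψ` gives `χ'(q) g^q = g`.
`good_prime'`: copy `R312.B8.good_prime` (B8P) with `m = r`; put `c u = χ (u : 𝓞/Q)`.  `Semi`: every Jacobi sum is
`-1 + z (ζ-1)²` (`exists_jacobiSum_eq_neg_one_add`), `Semi.mul`, `Finset.prod_induction`.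
`c u = 1 ↔ (u : ZMod l)^k = 1` (`l = N Q`, `l - 1 = r k`): `π_Q (χ u) = u^(k(r-1))` (`exists_chi`), `chi_eq_one`,
`u^(k r) = 1`, and for naturals `(n : 𝓞/Q) = 1 ↔ (n : ZMod l) = 1` (both rings have characteristic `l`,
`CharP.natCast_eq_natCast`).
-/

set_option autoImplicit false
set_option linter.unusedSectionVars false
set_option linter.unusedVariables false

noncomputable section

open Finset NumberField
open scoped Classical
open IsCyclotomicExtension.Rat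
open scoped Pointwise nonZeroDivisors

namespace Crest.Agent.R27

open Crest.Agent.R312 (Lser Ef Lf one0 PI)

open Crest.Agent.R312.B8

variable {r : ℕ} [NeZero r] {k : Type} [Field k] [NumberField k] [IsCyclotomicExtension {r} ℚ k]

theorem recip' {F E : Type} [Field F] [Fintype F] [Field E] [Fintype E] {r : ℕ} (hr : r.Prime)
    (hr2 : r ≠ 2) (hc : ringChar E ≠ ringChar F) {χ : MulChar F E} (ho : orderOf χ = r)
    {n : ℕ} (hn : Fintype.card E - 1 = r * n) :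
    ((Fintype.card F : E) * ∏ i ∈ Ico 1 (r - 1), jacobiSum χ (χ ^ i)) ^ n *
      χ ((Fintype.card E : ℕ) : F) = 1 := by
  obtain ⟨e, hpp, hcard⟩ := FiniteField.card E (ringChar E)
  set p := ringChar E with hpdef
  have := Fact.mk hpp
  let ψ := AddChar.FiniteField.primitiveChar F E hc
  let E' := CyclotomicField ψ.n E
  let ι : E →+* E' := algebraMap E E'
  have hι : Function.Injective ι := ι.injective
  have : CharP E' p := charP_of_injective_ringHom hι p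
  set χ' := χ.ringHomComp ι with hχ'
  have ho' : orderOf χ' = r := by
    rw [← ho]
    exact orderOf_injective (MulChar.ringHomCompHom ι) (MulChar.injective_ringHomComp hι) χ
  have h2 := hr.two_le
  have hne : χ' ≠ 1 := by
    intro h; rw [h, orderOf_one] at ho'; omega
  have hF : (Fintype.card F : E') ≠ 0 := by
    obtain ⟨e', hl, hcard'⟩ := FiniteField.card F (ringChar F)
    rw [hcard', Nat.cast_pow]
    refine pow_ne_zero _ ?_
    rw [Ne, CharP.cast_eq_zero_iff E' p, Nat.prime_dvd_prime_iff_eq hpp hl]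
    exact hc
  have hg0 := gaussSum_ne_zero_of_nontrivial hF hne ψ.prim
  have hgr := gaussSum_pow_eq_prod_jacobiSum (χ := χ') (by omega) ψ.prim
  have hm1 : χ' (-1) = 1 := by
    have a : χ' (-1) ^ r = 1 := by
      rw [← MulChar.pow_apply' _ hr.ne_zero, ← ho', pow_orderOf_eq_one, ← Units.coe_neg_one,
        MulChar.one_apply_coe]
    have b : χ' (-1) ^ 2 = 1 := by rw [← map_pow]; simp
    obtain ⟨c, hc⟩ := hr.odd_of_ne_two hr2
    rwa [hc, pow_succ, pow_mul, b, one_pow, one_mul] at a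
  rw [ho', hm1, one_mul] at hgr
  have hfrob : ∀ j : ℕ, gaussSum χ' ψ.char ^ p ^ j = gaussSum (χ' ^ p ^ j) (ψ.char ^ p ^ j) := by
    intro j
    induction j with
    | zero => simp
    | succ j ih => rw [pow_succ, pow_mul, ih, gaussSum_frob p, ← pow_mul, ← pow_mul]
  have h1 : 1 < Fintype.card E := Fintype.one_lt_card
  have hq : p ^ (e : ℕ) = r * n + 1 := by omega
  have hpu : IsUnit ((p ^ (e : ℕ) : ℕ) : F) := by
    rw [Nat.cast_pow]
    refine IsUnit.pow _ (isUnit_iff_ne_zero.2 ?_)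
    obtain ⟨e', hl, -⟩ := FiniteField.card F (ringChar F)
    rw [Ne, ringChar.spec, Nat.prime_dvd_prime_iff_eq hl hpp]
    exact fun h => hc h.symm
  have hfe := hfrob e
  have e1 : χ' ^ p ^ (e : ℕ) = χ' := by
    rw [hq, pow_succ, pow_mul, ← ho', pow_orderOf_eq_one, one_pow, one_mul]
  have e2 := gaussSum_mulShift χ' ψ.char hpu.unit
  rw [hpu.unit_spec] at e2
  rw [e1, AddChar.pow_mulShift] at hfe
  rw [← hfe, ← hcard] at e2
  conv_lhs at e2 => rw [show Fintype.card E = r * n + 1 by omega, pow_succ, pow_mul, hgr]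
  apply hι
  rw [map_one, map_mul, map_pow, map_mul, map_natCast, map_prod]
  simp_rw [← jacobiSum_ringHomComp, ← MulChar.ringHomComp_pow]
  refine mul_right_cancel₀ hg0 ?_
  rw [one_mul]
  refine Eq.trans ?_ e2
  rw [show Fintype.card E = r * n + 1 by omega, hχ', MulChar.ringHomComp_apply]
  ring

theorem good_prime' (hr : r.Prime) (hr2 : r ≠ 2) {ζ : 𝓞 k} (hζ : IsPrimitiveRoot ζ r)
    {Q : Ideal (𝓞 k)} (hQ : (Ideal.absNorm Q).Prime) (hc : (Ideal.absNorm Q).Coprime r) :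
    r ∣ Ideal.absNorm Q - 1 ∧ ∃ (Φ : 𝓞 k) (c : ℕ →* 𝓞 k), Good r r Q Φ ∧ Semi ζ Φ ∧
      (∀ u : ℕ, ¬ Ideal.absNorm Q ∣ u → c u ^ r = 1) ∧
      (∀ u : ℕ, ¬ Ideal.absNorm Q ∣ u →
        (c u = 1 ↔ (u : ZMod (Ideal.absNorm Q)) ^ ((Ideal.absNorm Q - 1) / r) = 1)) ∧
      ∀ (E : Type) [Field E] [Fintype E] (π : 𝓞 k →+* E) (n : ℕ), IsPrimitiveRoot (π ζ) r →
        Fintype.card E - 1 = r * n → ringChar E ≠ Ideal.absNorm Q →
        π Φ ^ n * π (c (Fintype.card E)) = 1 := by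
  have hmax := max_of_norm hQ
  let _ := Ideal.Quotient.field Q
  let _ := Fintype.ofFinite (𝓞 k ⧸ Q)
  have hm : r ∣ r := dvd_rfl
  have hcard := card_quot Q
  have hπ := hζ.idealQuotient_mk hQ.one_lt.ne' (hc.of_dvd_right hm)
  have hdvd : r ∣ Ideal.absNorm Q - 1 := by
    rw [← hπ.pow_eq_one_iff_dvd, ← hcard]
    exact FiniteField.pow_card_sub_one_eq_one _ (hπ.ne_zero hr.ne_zero)
  refine ⟨hdvd, ?_⟩
  obtain ⟨κ, hκ⟩ := hdvd
  have hκ' : Fintype.card (𝓞 k ⧸ Q) - 1 = κ * r := by rw [hcard, hκ, mul_comm]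
  obtain ⟨χ, hχ, hχ1, hv⟩ := exists_chi hr hκ' (Ideal.Quotient.mk Q) hζ hπ
  have hchar := charP_of_card_eq_prime (R := 𝓞 k ⧸ Q) (p := Ideal.absNorm Q) (hp := ⟨hQ⟩) hcard
  have hu0 : ∀ u : ℕ, ¬ Ideal.absNorm Q ∣ u → (u : 𝓞 k ⧸ Q) ≠ 0 := fun u hu => by
    rwa [Ne, CharP.cast_eq_zero_iff (𝓞 k ⧸ Q) (Ideal.absNorm Q)]
  have hζm : ζ ^ r = 1 := (hζ.pow_eq_one_iff_dvd r).2 hm
  have hJ : ∀ i ∈ Ico 1 (r - 1),
      jacobiSum χ (χ ^ i) * cc r k • jacobiSum χ (χ ^ i) = Ideal.absNorm Q := by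
    intro i hi
    obtain ⟨h1, h2⟩ := mem_Ico.1 hi
    rw [← hcard]
    exact jac_mul_conj hr hχ hχ1 hζ (MulSemiringAction.toRingHom Gal(k/ℚ) (𝓞 k) (cc r k))
      (hm.trans aa_cc) (smul_root _ hζm) (algebraMap (𝓞 k) k) RingOfIntegers.coe_injective h1
      (by omega)
  have hvan : ∀ (σ : Gal(k/ℚ)) (i : ℕ), i ≠ 0 → r < aa r σ % r + (aa r σ * i) % r →
      σ • jacobiSum χ (χ ^ i) ∈ Q := by
    intro σ i hi h
    rw [← Ideal.Quotient.eq_zero_iff_mem]
    exact jac_vanish hr hκ' (Ideal.Quotient.mk Q) hχ hv hζ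
      (MulSemiringAction.toRingHom Gal(k/ℚ) (𝓞 k) σ) (aa_ne hr hm σ) (smul_root _ hζm) hi h
  have hF : ∀ i ∈ Ico 1 (r - 1), Ideal.span {jacobiSum χ (χ ^ i)} =
      ∏ σ : Gal(k/ℚ), (σ⁻¹ • Q) ^ (if r ≤ ww r r σ + (ww r r σ * i) % r then 1 else 0) := by
    intro i hi
    obtain ⟨h1, h2⟩ := mem_Ico.1 hi
    have hnd : ∀ (σ : Gal(k/ℚ)) (j : ℕ), 0 < j → j < r → ¬ r ∣ aa r σ * j := fun σ j h0 hj h =>
      ((Nat.Prime.dvd_mul hr).1 h).elim (not_dvd_aa hr hm σ)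
        fun h => absurd (Nat.le_of_dvd h0 h) (by omega)
    refine factor_of hQ hc (hJ i hi) _ (fun σ h => hvan σ i (by omega) ?_) fun σ h => ?_
    · rw [ww, Nat.mod_mul_mod] at h
      refine lt_of_le_of_ne h fun e => hnd σ (1 + i) (by omega) (by omega) ?_
      rw [mul_add, mul_one, Nat.dvd_iff_mod_eq_zero, Nat.add_mod, ← e, Nat.mod_self]
    · rw [← mul_smul]
      refine hvan _ i (by omega) ?_
      rw [ww, Nat.mod_mul_mod] at h
      have e1 : aa r (σ * cc r k) % r + aa r σ % r = r := ww_add hr hm σ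
      have e2 : (aa r (σ * cc r k) * i) % r + (aa r σ * i) % r = r :=
        mod_add_mod hr.pos (by rw [← add_mul]; exact (hm.trans (aa_mul_cc σ)).mul_right _)
          (hnd σ i (by omega) (by omega))
      omega
  refine ⟨Ideal.absNorm Q * ∏ i ∈ Ico 1 (r - 1), jacobiSum χ (χ ^ i),
    χ.toMonoidHom.comp (Nat.castRingHom (𝓞 k ⧸ Q)).toMonoidHom, ⟨?_, ?_⟩, ?_, fun u hu => ?_,
    fun u hu => ?_, ?_⟩
  · rw [← Ideal.span_singleton_mul_span_singleton, ← Ideal.prod_span_singleton, span_norm hQ hc,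
      prod_congr rfl hF, prod_comm, ← prod_mul_distrib, thI]
    refine prod_congr rfl fun σ _ => ?_
    rw [prod_pow_eq_pow_sum, ← pow_succ', add_comm,
      count_eq hr.two_le (ww_pos hr hm σ) (ww_lt hr σ)]
  · refine ⟨Ideal.absNorm Q ^ 2 * ∏ i ∈ Ico 1 (r - 1), (Ideal.absNorm Q : ℚ), ?_⟩
    have e : ((Ideal.absNorm Q : 𝓞 k) * ∏ i ∈ Ico 1 (r - 1), jacobiSum χ (χ ^ i)) *
        cc r k • ((Ideal.absNorm Q : 𝓞 k) * ∏ i ∈ Ico 1 (r - 1), jacobiSum χ (χ ^ i)) =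
        Ideal.absNorm Q ^ 2 * ∏ i ∈ Ico 1 (r - 1), (Ideal.absNorm Q : 𝓞 k) := by
      rw [smul_mul', smul_nat, smul_prod', ← prod_congr rfl hJ, prod_mul_distrib]
      ring
    have e' := congrArg (algebraMap (𝓞 k) k) e
    rw [map_mul] at e'
    refine e'.trans ?_
    simp
  · refine Semi.mul ⟨Ideal.absNorm Q, by simp⟩ (prod_induction _ (Semi ζ) (fun _ _ => Semi.mul)
      ⟨1, by simp⟩ fun i _ => ?_)
    obtain ⟨z, -, hz⟩ := exists_jacobiSum_eq_neg_one_add (n := r) (χ := χ) (ψ := χ ^ i)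
      (by have := hr.two_le; omega) hχ (by rw [← pow_mul, mul_comm, pow_mul, hχ, one_pow])
      (by rw [hκ']; exact dvd_mul_left _ _) hζ
    exact ⟨-1, z, by rw [hz]; push_cast; ring⟩
  · change χ (u : 𝓞 k ⧸ Q) ^ r = 1
    rw [← MulChar.pow_apply' _ hr.ne_zero, hχ,
      MulChar.one_apply (isUnit_iff_ne_zero.2 (hu0 u hu))]
  · change χ (u : 𝓞 k ⧸ Q) = 1 ↔ _
    have e1 : (Ideal.absNorm Q - 1) / r = κ := by rw [hκ, Nat.mul_div_cancel_left _ hr.pos]
    have e2 : (u : ZMod (Ideal.absNorm Q)) ^ κ = 1 ↔ (u : 𝓞 k ⧸ Q) ^ κ = 1 := by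
      rw [← Nat.cast_pow, ← Nat.cast_pow, ← Nat.cast_one (R := ZMod (Ideal.absNorm Q)),
        ← Nat.cast_one (R := 𝓞 k ⧸ Q), ZMod.natCast_eq_natCast_iff,
        CharP.natCast_eq_natCast (𝓞 k ⧸ Q) (Ideal.absNorm Q)]
    rw [e1, e2]
    constructor
    · intro h
      have h1 := hv (u : 𝓞 k ⧸ Q)
      rw [h, map_one] at h1
      have h2 := FiniteField.pow_card_sub_one_eq_one _ (hu0 u hu)
      rw [hκ', show κ * r = κ * (r - 1) + κ by
        conv_lhs => rw [← Nat.sub_add_cancel hr.one_le, mul_add, mul_one], pow_add, ← h1, one_mul] at h2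
      exact h2
    · intro h
      refine chi_eq_one hr hχ hζ (Ideal.Quotient.mk Q) hπ ?_
      rw [hv, pow_mul, h, one_pow]
  · intro E _ _ π n hπ' hn hne
    have hl : ringChar (𝓞 k ⧸ Q) = Ideal.absNorm Q := ringChar.eq _ _
    have key := recip' hr hr2 (by rwa [hl]) (orderOf_comp hr hχ hχ1 hζ π hπ') hn
    rw [map_mul, map_natCast, map_prod, ← hcard]
    simp_rw [← jacobiSum_ringHomComp, ← MulChar.ringHomComp_pow]
    exact key

end Crest.Agent.R27
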