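import Crest.Agent.R27.KChr2
import Crest.Agent.R312.B8N

/-!
# R27 / KChr3 : the power residue symbol at a prime above `p ≠ r`

`P` maximal above `p`, `E = 𝓞/P`, `#E = N P = p^e`, `π ζ` primitive (`IsPrimitiveRoot.idealQuotient_mk`),
`#E - 1 = r n`.  `1 ≤ e < r` since `N P ∣ N(p) = p^(r-1)` (`Ideal.absNorm_span_natCast`, `RingOfIntegers.rank`,
`IsCyclotomicExtension.finrank`).  For `β ∉ P`, `π β ^ n` is an `r`-th root of unity, so `= π ζ ^ j = π (ζ^j)`
(`IsPrimitiveRoot.eq_pow_of_pow_eq_one`); `π` is injective on `r`-th roots of unity of `𝓞` (each is a `ζ^j`, `j<r`;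
`IsPrimitiveRoot.pow_inj`).  Define `sy β` by choice.  The test element: start of `B8.nr_core`
(generator `γ` of `Eˣ`, `exists_crt`, `thE_pow`: `π(thE x)^n = (γ^n)^d`, `d ∣ r - 1`, `≠ 1`); strengthen `exists_crt`
(copy its proof): `x - 1 ∈ B` where `(f) = P^k B`, and an ideal `I ∋ f` coprime to `P` contains `B`
(`I ∣ P^k B`, `IsCoprime.dvd_of_dvd_mul_left`); apply to `I = span {g}`, `g ∣ f`, `g` prime to `p`.
-/

set_option autoImplicit false
set_option linter.unusedSectionVars false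
set_option linter.unusedVariables false

noncomputable section

open Finset NumberField
open scoped Classical
open IsCyclotomicExtension.Rat
open scoped Pointwise nonZeroDivisors

namespace Crest.Agent.R27

open Crest.Agent.R312 (Lser Ef Lf one0 PI)

open Crest.Agent.R312.B8

variable {r : ℕ} [NeZero r] {k : Type} [Field k] [NumberField k] [IsCyclotomicExtension {r} ℚ k]

/-- the data of a power residue symbol at a prime above `p` -/
structure Sym (ζ : 𝓞 k) (r p : ℕ) [NeZero r] [IsCyclotomicExtension {r} ℚ k] (P : Ideal (𝓞 k)) (e : ℕ)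
    (sy : 𝓞 k → 𝓞 k) : Prop where
  ne_top : P ≠ ⊤
  mem : (p : 𝓞 k) ∈ P
  e_pos : 0 < e
  e_lt : e < r
  prime : ∀ β γ, β ∉ P → γ ∉ P → β * γ ∉ P
  pow : ∀ β, β ∉ P → sy β ^ r = 1
  mul : ∀ β γ, β ∉ P → γ ∉ P → sy (β * γ) = sy β * sy γ
  one : ∀ β, β - 1 ∈ P → sy β = 1
  /-- transfer of the conclusion of `good_prime'` -/
  recip : ∀ (Φ : 𝓞 k) (c : ℕ →* 𝓞 k) (l : ℕ), l ≠ p → Φ ∉ P → c p ^ r = 1 →
    (∀ (E : Type) [Field E] [Fintype E] (π : 𝓞 k →+* E) (n : ℕ), IsPrimitiveRoot (π ζ) r →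
        Fintype.card E - 1 = r * n → ringChar E ≠ l → π Φ ^ n * π (c (Fintype.card E)) = 1) →
    sy Φ * c p ^ e = 1
  /-- a test element -/
  test : ∀ f : ℕ, f ≠ 0 → p ∣ f → ∃ x : 𝓞 k, Cop f (Ideal.span {x}) ∧ sy (thE r r x) ≠ 1 ∧
    ∀ g : ℕ, g ∣ f → g.Coprime p → (g : 𝓞 k) ∣ x - 1

omit [NeZero r] [IsCyclotomicExtension {r} ℚ k] in
theorem exists_crt' {f : ℕ} (hf : f ≠ 0) (P : Ideal (𝓞 k)) [hP : P.IsMaximal] {g : 𝓞 k} (hg : g ∉ P) :
    ∃ x : 𝓞 k, Cop f (Ideal.span {x}) ∧ x - g ∈ P ∧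
      ∀ I : Ideal (𝓞 k), (f : 𝓞 k) ∈ I → IsCoprime I P → x - 1 ∈ I := by
  obtain ⟨B, hB, hfB⟩ := Ideal.eq_prime_pow_mul_coprime (I := Ideal.span {(f : 𝓞 k)})
    (by simpa using hf) P
  obtain ⟨a, ha, b, hb, hab⟩ := Submodule.mem_sup.1 (hB ▸ Submodule.mem_top : (1 : 𝓞 k) ∈ P ⊔ B)
  have h1 : a + g * b - g ∈ P := by
    rw [show a + g * b - g = (1 - g) * a by linear_combination g * hab]
    exact P.mul_mem_left _ ha
  have h2 : a + g * b - 1 ∈ B := by
    rw [show a + g * b - 1 = (g - 1) * b by linear_combination hab]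
    exact B.mul_mem_left _ hb
  refine ⟨a + g * b, ?_, h1, fun I hI hc => ?_⟩
  · rw [Cop, hfB]
    refine IsCoprime.mul_right (IsCoprime.pow_right ?_) ?_
    · rw [Ideal.isCoprime_iff_sup_eq, sup_comm]
      refine hP.out.2 _ (lt_of_le_of_ne le_sup_left fun e => hg ?_)
      have : a + g * b ∈ P := e ▸ Ideal.mem_sup_right (Ideal.mem_span_singleton_self _)
      simpa using P.sub_mem this h1
    · rw [Ideal.isCoprime_iff_exists]
      exact ⟨_, Ideal.mem_span_singleton_self _, _, B.neg_mem h2, by ring⟩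
  · have h3 : I ∣ Ideal.span {(f : 𝓞 k)} :=
      Ideal.dvd_iff_le.2 ((Ideal.span_singleton_le_iff_mem _).2 hI)
    rw [hfB] at h3
    exact Ideal.dvd_iff_le.1 (hc.pow_right.dvd_of_dvd_mul_left h3) h2

omit [IsCyclotomicExtension {r} ℚ k] in
theorem root_inj {ζ : 𝓞 k} (hζ : IsPrimitiveRoot ζ r) {E : Type} [CommRing E] [IsDomain E]
    (π : 𝓞 k →+* E) (hπ : IsPrimitiveRoot (π ζ) r) {u v : 𝓞 k} (hu : u ^ r = 1) (hv : v ^ r = 1)
    (h : π u = π v) : u = v := by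
  obtain ⟨i, hi, rfl⟩ := hζ.eq_pow_of_pow_eq_one hu
  obtain ⟨j, hj, rfl⟩ := hζ.eq_pow_of_pow_eq_one hv
  rw [map_pow, map_pow] at h
  rw [hπ.pow_inj hi hj h]

theorem exists_sym (hr : r.Prime) (hr2 : r ≠ 2) {ζ : 𝓞 k} (hζ : IsPrimitiveRoot ζ r) {p : ℕ}
    (hp : p.Prime) (hpr : p ≠ r) : ∃ (P : Ideal (𝓞 k)) (e : ℕ) (sy : 𝓞 k → 𝓞 k), Sym ζ r p P e sy := by
  have hpr' : p.Coprime r := (Nat.coprime_primes hp hr).2 hpr
  obtain ⟨P, hP, hpP⟩ := Ideal.exists_le_maximal (Ideal.span {(p : 𝓞 k)}) fun e =>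
    cop_ne (K := k) hp.two_le (by rw [e, ← Ideal.one_eq_top]; exact isCoprime_one_right) rfl
  have hdvd : Ideal.absNorm P ∣ p ^ (r - 1) := by
    have := Ideal.absNorm_dvd_absNorm_of_le hpP
    rwa [Ideal.absNorm_span_natCast, RingOfIntegers.rank,
      IsCyclotomicExtension.finrank k (Polynomial.cyclotomic.irreducible_rat hr.pos),
      Nat.totient_prime hr] at this
  rw [Ideal.span_singleton_le_iff_mem] at hpP
  let _ := Ideal.Quotient.field P
  let _ := Fintype.ofFinite (𝓞 k ⧸ P)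
  set π := Ideal.Quotient.mk P with hπdef
  have hchar : ringChar (𝓞 k ⧸ P) = p := CharP.ringChar_of_prime_eq_zero hp
    (by rw [← map_natCast π]; exact Ideal.Quotient.eq_zero_iff_mem.2 hpP)
  obtain ⟨e, -, he⟩ := FiniteField.card (𝓞 k ⧸ P) (ringChar (𝓞 k ⧸ P))
  rw [hchar] at he
  have hcard := card_quot P
  have h1q : 1 < Fintype.card (𝓞 k ⧸ P) := Fintype.one_lt_card
  have hπ : IsPrimitiveRoot (π ζ) r := hζ.idealQuotient_mk (by omega)
    (by rw [← hcard, he]; exact hpr'.pow_left _)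
  obtain ⟨n, hn⟩ : r ∣ Fintype.card (𝓞 k ⧸ P) - 1 := by
    rw [← hπ.pow_eq_one_iff_dvd]
    exact FiniteField.pow_card_sub_one_eq_one _ (hπ.ne_zero hr.ne_zero)
  have hn0 : 0 < n := Nat.pos_of_ne_zero fun h0 => by rw [h0] at hn; omega
  have hex : ∀ β : 𝓞 k, ∃ η : 𝓞 k, β ∉ P → η ^ r = 1 ∧ π η = π β ^ n := fun β => by
    by_cases hβ : β ∈ P
    · exact ⟨1, fun h => absurd hβ h⟩
    obtain ⟨j, -, hj⟩ := hπ.eq_pow_of_pow_eq_one (ξ := π β ^ n) (by
      rw [← pow_mul, mul_comm, ← hn]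
      exact FiniteField.pow_card_sub_one_eq_one _ fun h => hβ (Ideal.Quotient.eq_zero_iff_mem.1 h))
    exact ⟨ζ ^ j, fun _ => ⟨by rw [← pow_mul, mul_comm, pow_mul, hζ.pow_eq_one, one_pow],
      by rw [map_pow, hj]⟩⟩
  choose sy hsy using hex
  have hpr2 : ∀ β γ, β ∉ P → γ ∉ P → β * γ ∉ P := fun β γ h1 h2 h =>
    (hP.isPrime.mem_or_mem h).elim h1 h2
  refine ⟨P, e, sy, hP.ne_top, hpP, e.pos, ?_, hpr2, fun β h => (hsy β h).1, fun β γ h1 h2 => ?_,
    fun β h => ?_, fun Φ c l hl hΦ hc H => ?_, fun f hf hpf => ?_⟩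
  · rw [← hcard, he, Nat.pow_dvd_pow_iff_le_right hp.one_lt] at hdvd
    have := hr.pos
    omega
  · refine root_inj hζ π hπ (hsy _ (hpr2 β γ h1 h2)).1
      (by rw [mul_pow, (hsy β h1).1, (hsy γ h2).1, one_mul]) ?_
    rw [(hsy _ (hpr2 β γ h1 h2)).2, map_mul, map_mul, (hsy β h1).2, (hsy γ h2).2, mul_pow]
  · have h1 : β ∉ P := fun h0 => hP.ne_top ((Ideal.eq_top_iff_one _).2 (by simpa using P.sub_mem h0 h))
    refine root_inj hζ π hπ (hsy β h1).1 (one_pow _) ?_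
    rw [(hsy β h1).2, Ideal.Quotient.eq.2 h, map_one, one_pow]
  · refine root_inj hζ π hπ (by
      rw [mul_pow, (hsy Φ hΦ).1, one_mul, ← pow_mul, mul_comm, pow_mul, hc, one_pow]) (one_pow _) ?_
    have := H (𝓞 k ⧸ P) π n hπ hn (by rw [hchar]; exact hl.symm)
    rw [he, map_pow] at this
    rw [map_mul, (hsy Φ hΦ).2, map_one]
    exact this
  · have hfP : (f : 𝓞 k) ∈ P := by
      obtain ⟨c, rfl⟩ := hpf
      rw [Nat.cast_mul]
      exact P.mul_mem_right _ hpP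
    obtain ⟨γ, hγ⟩ := IsCyclic.exists_generator (α := (𝓞 k ⧸ P)ˣ)
    have hoγ : orderOf γ = r * n := by
      rw [orderOf_eq_card_of_forall_mem_zpowers hγ, Nat.card_eq_fintype_card, Fintype.card_units, hn]
    obtain ⟨g, hg⟩ := Ideal.Quotient.mk_surjective (γ : 𝓞 k ⧸ P)
    have hgP : g ∉ P := fun h0 => γ.ne_zero (hg ▸ Ideal.Quotient.eq_zero_iff_mem.2 h0)
    obtain ⟨x, hx1, hx2, hx3⟩ := exists_crt' hf P hgP
    have hxγ : π x = γ := by rw [← hg]; exact Ideal.Quotient.eq.2 hx2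
    have hxP : x ∉ P := fun h0 => γ.ne_zero (hxγ ▸ Ideal.Quotient.eq_zero_iff_mem.2 h0)
    obtain ⟨d, hd1, hd2⟩ := thE_pow (m := r) hr dvd_rfl hζ P hπ (hcard ▸ hn) hxP fun σ hσ => by
      have hmax : (σ • P).IsMaximal := (inferInstance : (σ • P).IsPrime).isMaximal fun h0 => by
        have := absNorm_smul σ P
        rw [h0, Ideal.absNorm_bot] at this
        omega
      have := Ideal.mem_pointwise_smul_iff_inv_smul_mem.1 (hx3 (σ • P)
        (by rw [← smul_nat σ f]; exact Ideal.smul_mem_pointwise_smul _ _ _ hfP)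
        (Ideal.isCoprime_iff_sup_eq.2 (hmax.coprime_of_ne hP hσ)))
      rwa [smul_sub, smul_one] at this
    refine ⟨x, hx1, fun h0 => ?_, fun g hg hc => ?_⟩
    · have h1 := (hsy _ (good_not_mem hx1 (good_span hr dvd_rfl x) hP.ne_top hfP)).2
      rw [h0, map_one, hd2, hxγ, ← pow_mul, ← Units.val_pow_eq_pow_val, eq_comm, Units.val_eq_one] at h1
      have h2 := orderOf_dvd_of_pow_eq_one h1
      rw [hoγ, mul_comm r n, Nat.mul_dvd_mul_iff_left hn0] at h2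
      rw [Nat.totient_prime hr] at hd1
      have := Nat.le_of_dvd (by have := hr.two_le; omega) (h2.trans hd1)
      have := hr.pos
      omega
    · rw [← Ideal.mem_span_singleton]
      refine hx3 _ (Ideal.mem_span_singleton.2 (Nat.cast_dvd_cast hg)) ?_
      obtain ⟨u, v, huv⟩ := Nat.isCoprime_iff_coprime.2 hc
      rw [Ideal.isCoprime_iff_exists]
      refine ⟨u * g, Ideal.mul_mem_left _ _ (Ideal.mem_span_singleton_self _), v * p,
        P.mul_mem_left _ hpP, ?_⟩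
      exact_mod_cast congrArg (Int.cast : ℤ → 𝓞 k) huv

end Crest.Agent.R27
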