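import Crest.Agent.R27.KBas

/-!
# R27 / KCnt : primes of degree one in `ℚ(ζ_m)`; the relative norm

`card_D1`: a prime `P` above `l ∤ m` has `N P = l ^ orderOf (l : ZMod m)`
(`IsCyclotomicExtension.Rat.inertiaDeg_eq_of_not_dvd`, `Ideal.pow_inertiaDeg`/`absNorm_eq_pow_inertiaDeg`).
If `l % m = 1` all primes above `l` have norm `l`, and there are `φ(m)` of them: take one `Q`
(`Ideal.nonempty_primesOver`); `σ ↦ σ⁻¹ • Q` is injective (`B8.conj_inj`), lands in `D1` (`B8.absNorm_smul`), and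
`card_D1_le` gives the other inequality (`finrank = φ(m) = card Gal`).  If `l % m ≠ 1` no ideal has norm `l`
(it would be a prime above `l` by `max_of_norm`, `Ideal.absNorm_mem`).
`RC.relNorm`: `Ideal.relNorm` is a monoid hom, `Ideal.absNorm_relNorm` and `cop_iff` transport coprimality,
`Ideal.relNorm_singleton`; for `x = 1 + f y`: the image of `Algebra.intNorm x` in `K` is `∏_σ σ x`
(`Algebra.algebraMap_intNorm`, `Algebra.norm_eq_prod_automorphisms`), `≡ 1 mod f 𝓞_K`; so `(N x - 1)/f ∈ F` is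
integral over `ℤ` (`isIntegral_algebraMap_iff`).
-/

set_option autoImplicit false
set_option linter.unusedSectionVars false
set_option linter.unusedVariables false

noncomputable section

open Finset NumberField
open scoped Classical

namespace Crest.Agent.R27

open Crest.Agent.R312 (Lser Ef Lf one0 PI)

theorem kcnt_ord {m l : ℕ} (hm : 2 ≤ m) : orderOf (l : ZMod m) = 1 ↔ l % m = 1 := by
  rw [orderOf_eq_one_iff, ← Nat.cast_one (R := ZMod m), ZMod.natCast_eq_natCast_iff',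
    Nat.mod_eq_of_lt (show 1 < m by omega)]

open scoped Pointwise in
theorem card_D1 (m : ℕ) [NeZero m] (hm : 2 ≤ m) (k : Type) [Field k] [NumberField k]
    [IsCyclotomicExtension {m} ℚ k] {l : ℕ} (hl : l.Prime) (hlm : ¬ l ∣ m) :
    (D1 k l).card = if l % m = 1 then m.totient else 0 := by
  have := Fact.mk hl
  have hG : IsGalois ℚ k := IsCyclotomicExtension.isGalois {m} ℚ k
  have hnorm : ∀ (P : Ideal (𝓞 k)) [P.IsPrime] [P.LiesOver (Ideal.span {(l : ℤ)})],
      Ideal.absNorm P = l ^ orderOf (l : ZMod m) := fun P _ _ => by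
    rw [← Ideal.pow_inertiaDeg l P, IsCyclotomicExtension.Rat.inertiaDeg_eq_of_not_dvd l k P hlm]
  split_ifs with h
  · have hfin : Module.finrank ℚ k = m.totient :=
      IsCyclotomicExtension.finrank k (Polynomial.cyclotomic.irreducible_rat (by omega))
    refine le_antisymm (hfin ▸ card_D1_le hl) ?_
    obtain ⟨⟨Q, _, _⟩⟩ := (Ideal.span {(l : ℤ)}).nonempty_primesOver (S := 𝓞 k)
    have hQ : Ideal.absNorm Q = l := by rw [hnorm Q, (kcnt_ord hm).2 h, pow_one]
    rw [← hfin, ← IsGalois.card_aut_eq_finrank, Nat.card_eq_fintype_card, ← card_univ]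
    refine card_le_card_of_injOn (fun σ : Gal(k/ℚ) => σ • Q) (fun σ _ => ?_) fun σ _ τ _ e => ?_
    · exact mem_coe.2 (mem_D1.2 (by rw [R312.B8.absNorm_smul, hQ]))
    · exact R312.B8.conj_inj (m := m) (hQ ▸ hl) (hQ ▸ (Nat.Prime.coprime_iff_not_dvd hl).2 hlm) e
  · rw [card_eq_zero, eq_empty_iff_forall_notMem]
    intro P hP
    have hP' := mem_D1.1 hP
    have hmax := R312.B8.max_of_norm (Q := P) (hP' ▸ hl)
    have : P.LiesOver (Ideal.span {(l : ℤ)}) := by
      rw [Ideal.liesOver_span_iff hmax.ne_top (Nat.prime_iff_prime_int.1 hl), map_natCast, ← hP']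
      exact Ideal.absNorm_mem P
    have e := hnorm P
    rw [hP'] at e
    refine h ((kcnt_ord hm).1 (Nat.pow_right_injective hl.two_le ?_))
    simp only [pow_one]
    exact e.symm

variable {F K : Type} [Field F] [NumberField F] [Field K] [NumberField K] [Algebra F K]

theorem absNorm_rel (I : Ideal (𝓞 K)) :
    Ideal.absNorm (Ideal.relNorm (𝓞 F) I) = Ideal.absNorm I := by
  exact Ideal.absNorm_relNorm _ _ I

theorem kcnt_ray [IsGalois F K] {f : ℕ} (hf : 2 ≤ f) {x : 𝓞 K} (h : (f : 𝓞 K) ∣ x - 1) :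
    (f : 𝓞 F) ∣ Algebra.intNorm (𝓞 F) (𝓞 K) x - 1 := by
  have h1 : (f : 𝓞 K) ∣ ∏ σ : Gal(K/F), σ • x - 1 := by
    rw [← Ideal.mem_span_singleton, ← Ideal.Quotient.eq, map_prod, map_one]
    refine prod_eq_one fun σ _ => ?_
    rw [← map_one (Ideal.Quotient.mk _), Ideal.Quotient.eq, Ideal.mem_span_singleton]
    have := map_dvd (MulSemiringAction.toRingHom Gal(K/F) (𝓞 K) σ) h
    rwa [map_natCast, map_sub, map_one] at this
  obtain ⟨c, hc⟩ := h1
  have hf0 : (f : F) ≠ 0 := by exact_mod_cast (by omega : f ≠ 0)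
  have hf1 : (f : K) ≠ 0 := by exact_mod_cast (by omega : f ≠ 0)
  have e : algebraMap F K ((algebraMap (𝓞 F) F (Algebra.intNorm (𝓞 F) (𝓞 K) x) - 1) / f) =
      algebraMap (𝓞 K) K c := by
    rw [map_div₀, map_sub, map_one, map_natCast, Algebra.algebraMap_intNorm (L := K),
      Algebra.norm_eq_prod_automorphisms, div_eq_iff hf1]
    have := congrArg (algebraMap (𝓞 K) K) hc
    rw [map_sub, map_one, map_mul, map_natCast, map_prod] at this
    rw [mul_comm, ← this]
    rfl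
  have hi : IsIntegral ℤ ((algebraMap (𝓞 F) F (Algebra.intNorm (𝓞 F) (𝓞 K) x) - 1) / f) := by
    rw [← isIntegral_algebraMap_iff (algebraMap F K).injective, e]
    exact RingOfIntegers.isIntegral_coe c
  obtain ⟨y, hy⟩ : ∃ y : 𝓞 F, algebraMap (𝓞 F) F y =
      (algebraMap (𝓞 F) F (Algebra.intNorm (𝓞 F) (𝓞 K) x) - 1) / f := ⟨⟨_, hi⟩, rfl⟩
  refine ⟨y, RingOfIntegers.coe_injective ?_⟩
  rw [map_sub, map_one, map_mul, map_natCast, hy]
  exact (mul_div_cancel₀ _ hf0).symm

theorem RC.relNorm [IsGalois F K] {f : ℕ} {ψ : Ideal (𝓞 F) → ℂ} (h : RC f ψ) :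
    RC f (fun I : Ideal (𝓞 K) => ψ (Ideal.relNorm (𝓞 F) I)) := by
  have hc : ∀ I : Ideal (𝓞 K), Cop f (Ideal.relNorm (𝓞 F) I) ↔ Cop f I := fun I => by
    rw [cop_iff, cop_iff, absNorm_rel]
  refine ⟨h.two_le, by rw [map_one, h.one], fun I J => by rw [map_mul, h.mul],
    fun I hI => h.zero _ (mt (hc I).1 hI), fun I hI => h.norm _ ((hc I).2 hI), fun x hx => ?_⟩
  rw [Ideal.relNorm_singleton]
  exact h.ray _ (kcnt_ray h.two_le hx)

/-- the sum over all powers of a character whose triviality at a prime of degree one only depends on the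
rational prime below: `∑_j ∑_P ψ(P)^j = r · #D1 · 1[g l]` (`sum_pow_root`; `Cop f P ↔ l ∤ f` by `cop_iff`) -/
theorem sum_c1_pw {k : Type} [Field k] [NumberField k] {f r : ℕ} {ψ : Ideal (𝓞 k) → ℂ}
    (hψ : ∀ I, Cop f I → ψ I ^ r = 1) (g : ℕ → Prop)
    (hg : ∀ P : Ideal (𝓞 k), (Ideal.absNorm P).Prime → Cop f P → (ψ P = 1 ↔ g (Ideal.absNorm P))) (l : ℕ) :
    ∑ j ∈ range r, c1 (pw f ψ j) l =
      if l.Prime ∧ ¬ l ∣ f ∧ g l then (r : ℂ) * (D1 k l).card else 0 := by
  by_cases hl : l.Prime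
  · simp only [c1, if_pos hl]
    rw [sum_comm]
    have e : ∀ P ∈ D1 k l, ∑ j ∈ range r, pw f ψ j P = if ¬ l ∣ f ∧ g l then (r : ℂ) else 0 := by
      intro P hP
      have hP' := mem_D1.1 hP
      have hc : Cop f P ↔ ¬ l ∣ f := by rw [cop_iff, hP', hl.coprime_iff_not_dvd]
      by_cases hd : l ∣ f
      · simp only [pw, one0, if_neg (fun h => hc.1 h hd), zero_mul, sum_const_zero]
        rw [if_neg (fun h => h.1 hd)]
      · have hc' := hc.2 hd
        simp only [pw, one0, if_pos hc', one_mul]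
        rw [sum_pow_root (hψ P hc')]
        have := hg P (hP' ▸ hl) hc'
        rw [hP'] at this
        simp only [this, hd, not_false_eq_true, true_and]
    rw [sum_congr rfl e, sum_const, nsmul_eq_mul]
    simp only [hl, true_and]
    split_ifs
    · ring
    · ring
  · simp only [c1, hl, if_false, false_and, sum_const_zero]

theorem c1_tw3 {k : Type} [Field k] [NumberField k] (ψ : Ideal (𝓞 k) → ℂ) (l : ℕ) :
    c1 (tw3 ψ) l = chi3 l * c1 ψ l := by
  rw [c1, c1]
  split_ifs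
  · rw [mul_sum]
    refine sum_congr rfl fun P hP => ?_
    rw [tw3, mem_D1.1 hP, mul_comm]
  · rw [mul_zero]

/-- `tw3 (ψ^j)` is not principal: take a prime `l ≡ 1 mod r`, `l ≡ 2 mod 3`, `l > f` (Dirichlet,
`Nat.forall_exists_prime_gt_and_eq_mod` / `Nat.forall_exists_prime_gt_and_modEq`), `P ∈ D1 k l` (`card_D1`);
the value at `P` is `-ψ(P)^j`, whose `r`-th power is `-1`. -/
theorem tw3_pw_ne (r : ℕ) [NeZero r] (hr : r.Prime) (hr3 : 3 < r) (k : Type) [Field k] [NumberField k]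
    [IsCyclotomicExtension {r} ℚ k] {f : ℕ} (hf : 2 ≤ f) {ψ : Ideal (𝓞 k) → ℂ}
    (hψ : ∀ I, Cop f I → ψ I ^ r = 1) (j : ℕ) : tw3 (pw f ψ j) ≠ one0 f := by
  have hco : Nat.Coprime r 3 := (Nat.coprime_primes hr Nat.prime_three).2 (by omega)
  obtain ⟨a, ha1, ha2⟩ := Nat.chineseRemainder hco 1 2
  have hac : a.Coprime (r * 3) := by
    refine Nat.Coprime.mul_right ?_ ?_
    · rw [Nat.Coprime, ha1.gcd_eq]; simp
    · rw [Nat.Coprime, ha2.gcd_eq]; norm_num
  obtain ⟨l, hl1, hl, hl2⟩ := Nat.forall_exists_prime_gt_and_modEq (f + r) (by omega) hac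
  have h1 : l % r = 1 := by
    have := (hl2.of_mul_right 3).trans ha1
    rwa [Nat.ModEq, Nat.mod_eq_of_lt hr.one_lt] at this
  have h2 : l % 3 = 2 := (hl2.of_mul_left r).trans ha2
  have hc := card_D1 r hr.two_le k hl (Nat.not_dvd_of_pos_of_lt hr.pos (by omega))
  rw [if_pos h1] at hc
  obtain ⟨P, hP⟩ := card_pos.1 (hc ▸ Nat.totient_pos.2 hr.pos)
  have hP' := mem_D1.1 hP
  have hcop : Cop f P := by
    rw [cop_iff, hP', hl.coprime_iff_not_dvd]
    exact Nat.not_dvd_of_pos_of_lt (by omega) (by omega)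
  intro he
  have e := congrFun he P
  rw [tw3, pw, one0, if_pos hcop, hP', chi3, if_neg (by omega), if_pos h2, one_mul] at e
  have e2 := congrArg (· ^ r) e
  simp only [mul_pow, one_pow] at e2
  rw [← pow_mul, mul_comm j r, pow_mul, hψ P hcop, one_pow, one_mul,
    (hr.odd_of_ne_two (by omega)).neg_one_pow] at e2
  norm_num at e2

end Crest.Agent.R27
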