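import Crest.Agent.R27.KBas

/-!
# R27 / KEul : the Euler product in terms of primes of degree one; `Gen`

Copy what you need from `R312/B7Main.lean` (lines 18-140: `b7w`, `b7Z`, `b7_bdA`, `b7_bdB`, `b7a`, `b7l`,
`HChar.cmul`, `HChar.euler`, `b7_tsum_le`; do NOT import that file) under new names `ke_*`.
`euler_exp`: `exp(∑' P, log(1 - z_P)) · Lser ψ s = 1`, `z_P = ψ(P) N P^{-s}`, `Re s ≥ 5/4`.
Put `h s = ∑' P, t P s`, `t P s = -log(1 - z_P) - (if N P prime then z_P else 0)`.  On `Re s > 5/8`: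
`|z_P| ≤ 2^{-5/8} < 2/3`, so `1 - z_P ∈ slitPlane` (`Complex.mem_slitPlane_of_norm_lt_one'`), and
`‖t‖ ≤ (3/2)|z|² ≤ (3/2) (lp P)^{-5/4}` if `N P` is prime (`Complex.norm_log_one_add_sub_self_le`),
`‖t‖ ≤ (3/2)|z| ≤ (3/2)(lp P)^{-5/4}` otherwise (`|z| ≤ (lp²)^{-5/8} ≤ 4^{-5/8} ≤ 1/2`).
`Complex.differentiableOn_tsum_of_summable_norm`, `tsum_lp_le`.  Finally
`∑' P, (if N P prime then z_P else 0) = LSeries (c1 ψ) s`: `HasSum.sigma`/`Summable.tsum_fiberwise`-type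
regrouping along `P ↦ N P` (`HasSum.tsum_fiberwise`, or `Equiv.sigmaFiberEquiv`); the fibre over a prime `l` is
in bijection with `D1 k l` by `max_of_norm`.
-/

set_option autoImplicit false
set_option linter.unusedSectionVars false
set_option linter.unusedVariables false

noncomputable section

open Finset NumberField
open scoped Classical

namespace Crest.Agent.R27

open Crest.Agent.R312 (Lser Ef Lf one0 PI)

section aux
open Crest.Agent.R312 (lp lp_spec lp_le lp_sq_le b7_two_le b7_norm_log euler_exp summable_lp tsum_lp_le CMul)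

/-- the weight `m^{-5/4}` -/
def kew (m : ℕ) : ℝ := (m : ℝ) ^ (-(5 / 4) : ℝ)

theorem kew_nonneg (m : ℕ) : 0 ≤ kew m := Real.rpow_nonneg (Nat.cast_nonneg _) _

theorem kew_summable : Summable kew := Real.summable_nat_rpow.2 (by norm_num)

variable {K : Type} [Field K] [NumberField K]

theorem kew_lp_le (P : PI K) : kew (lp P) ≤ 1 / 2 := by
  have h2 : (2 : ℝ) ≤ lp P := by exact_mod_cast (lp_spec P).1.two_le
  calc kew (lp P) ≤ (2 : ℝ) ^ (-(5 / 4) : ℝ) :=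
        Real.rpow_le_rpow_of_nonpos (by norm_num) h2 (by norm_num)
    _ ≤ (2 : ℝ) ^ (-1 : ℝ) := Real.rpow_le_rpow_of_exponent_le (by norm_num) (by norm_num)
    _ = 1 / 2 := by norm_num

theorem ke_one_le (P : PI K) : (1 : ℝ) ≤ Ideal.absNorm P.asIdeal := by
  have := b7_two_le P
  exact_mod_cast (by omega : 1 ≤ Ideal.absNorm P.asIdeal)

theorem ke_lp_pos (P : PI K) : (0 : ℝ) < lp P := by exact_mod_cast (lp_spec P).1.pos

theorem ke_bdA (P : PI K) {σ : ℝ} (hσ : 5 / 4 ≤ σ) :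
    (Ideal.absNorm P.asIdeal : ℝ) ^ (-σ) ≤ kew (lp P) :=
  (Real.rpow_le_rpow_of_exponent_le (ke_one_le P) (by linarith)).trans
    (Real.rpow_le_rpow_of_nonpos (ke_lp_pos P) (by exact_mod_cast lp_le P) (by norm_num))

theorem ke_bdB {P : PI K} (h : ¬ (Ideal.absNorm P.asIdeal).Prime) {σ : ℝ} (hσ : 5 / 8 ≤ σ) :
    (Ideal.absNorm P.asIdeal : ℝ) ^ (-σ) ≤ kew (lp P) := by
  have h1 := ke_lp_pos P
  calc (Ideal.absNorm P.asIdeal : ℝ) ^ (-σ) ≤ (Ideal.absNorm P.asIdeal : ℝ) ^ (-(5 / 8) : ℝ) :=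
        Real.rpow_le_rpow_of_exponent_le (ke_one_le P) (by linarith)
    _ ≤ ((lp P : ℝ) ^ (2 : ℝ)) ^ (-(5 / 8) : ℝ) := by
        refine Real.rpow_le_rpow_of_nonpos (by positivity) ?_ (by norm_num)
        rw [Real.rpow_two]
        exact_mod_cast lp_sq_le h
    _ = kew (lp P) := by rw [← Real.rpow_mul h1.le, kew]; norm_num

theorem ke_two : (2 : ℝ) ^ (-(5 / 8) : ℝ) ≤ 2 / 3 := by
  refine le_of_pow_le_pow_left₀ (n := 8) (by norm_num) (by norm_num) ?_
  rw [← Real.rpow_natCast, ← Real.rpow_mul (by norm_num)]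
  norm_num

theorem ke_bdC (P : PI K) {σ : ℝ} (hσ : 5 / 8 ≤ σ) :
    (Ideal.absNorm P.asIdeal : ℝ) ^ (-σ) ≤ 2 / 3 := by
  have h2 : (2 : ℝ) ≤ Ideal.absNorm P.asIdeal := by exact_mod_cast b7_two_le P
  exact (Real.rpow_le_rpow_of_exponent_le (ke_one_le P) (neg_le_neg hσ)).trans
    ((Real.rpow_le_rpow_of_nonpos (by norm_num) h2 (by norm_num)).trans ke_two)

theorem ke_bdD (P : PI K) {σ : ℝ} (hσ : 5 / 8 ≤ σ) :
    ((Ideal.absNorm P.asIdeal : ℝ) ^ (-σ)) ^ 2 ≤ kew (lp P) := by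
  rw [← Real.rpow_natCast, ← Real.rpow_mul (Nat.cast_nonneg _),
    show -σ * ((2 : ℕ) : ℝ) = -(2 * σ) by push_cast; ring]
  exact ke_bdA P (by linarith)

/-- the term of the Dirichlet series -/
def kea (ψ : Ideal (𝓞 K) → ℂ) (s : ℂ) (I : Ideal (𝓞 K)) : ℂ := ψ I * (Ideal.absNorm I : ℂ) ^ (-s)

/-- the terms of prime norm -/
def keu (ψ : Ideal (𝓞 K) → ℂ) (s : ℂ) (I : Ideal (𝓞 K)) : ℂ :=
  if (Ideal.absNorm I).Prime then kea ψ s I else 0

/-- the remainder -/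
def ket (ψ : Ideal (𝓞 K) → ℂ) (P : PI K) (s : ℂ) : ℂ :=
  -Complex.log (1 - kea ψ s P.asIdeal) - keu ψ s P.asIdeal

theorem kea_norm {ψ : Ideal (𝓞 K) → ℂ} (hψ : ∀ I, ‖ψ I‖ ≤ 1) (s : ℂ) (P : PI K) :
    ‖kea ψ s P.asIdeal‖ ≤ (Ideal.absNorm P.asIdeal : ℝ) ^ (-s.re) := by
  rw [kea, norm_mul, Complex.norm_natCast_cpow_of_pos (by have := b7_two_le P; omega),
    Complex.neg_re]
  exact mul_le_of_le_one_left (by positivity) (hψ _)

theorem ke_log {z : ℂ} (hz : ‖z‖ ≤ 2 / 3) : ‖-Complex.log (1 - z) - z‖ ≤ 3 / 2 * ‖z‖ ^ 2 := by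
  have h := Complex.norm_log_one_add_sub_self_le (z := -z) (by rw [norm_neg]; linarith)
  rw [norm_neg] at h
  rw [show -Complex.log (1 - z) - z = -(Complex.log (1 + -z) - -z) by rw [← sub_eq_add_neg]; ring,
    norm_neg]
  refine h.trans ?_
  have h3 : (1 - ‖z‖)⁻¹ ≤ 3 := by
    rw [inv_le_comm₀ (by linarith) (by norm_num)]; linarith
  have := mul_le_mul_of_nonneg_left h3 (sq_nonneg ‖z‖)
  linarith

theorem ket_norm {ψ : Ideal (𝓞 K) → ℂ} (hψ : ∀ I, ‖ψ I‖ ≤ 1) (P : PI K) {s : ℂ}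
    (hs : 5 / 8 ≤ s.re) : ‖ket ψ P s‖ ≤ 3 / 2 * kew (lp P) := by
  have h3 := kea_norm hψ s P
  rw [ket, keu]
  split_ifs with h
  · refine (ke_log (h3.trans (ke_bdC P hs))).trans (mul_le_mul_of_nonneg_left ?_ (by norm_num))
    exact (pow_le_pow_left₀ (norm_nonneg _) h3 2).trans (ke_bdD P hs)
  · have h4 := h3.trans (ke_bdB h hs)
    rw [sub_zero, norm_neg]
    exact (b7_norm_log (h4.trans (kew_lp_le P))).trans (mul_le_mul_of_nonneg_left h4 (by norm_num))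

theorem ket_diff {ψ : Ideal (𝓞 K) → ℂ} (hψ : ∀ I, ‖ψ I‖ ≤ 1) (P : PI K) {s : ℂ}
    (hs : 5 / 8 ≤ s.re) : DifferentiableAt ℂ (ket ψ P) s := by
  have hne : (Ideal.absNorm P.asIdeal : ℂ) ≠ 0 := by
    have := b7_two_le P
    exact_mod_cast (by omega : Ideal.absNorm P.asIdeal ≠ 0)
  have h1 : DifferentiableAt ℂ (fun s => kea ψ s P.asIdeal) s :=
    (differentiableAt_const _).mul (differentiableAt_id.neg.const_cpow (Or.inl hne))
  have h2 : DifferentiableAt ℂ (fun s => keu ψ s P.asIdeal) s := by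
    unfold keu
    split_ifs
    · exact h1
    · exact differentiableAt_const _
  have h3 : 1 - kea ψ s P.asIdeal ∈ Complex.slitPlane := by
    rw [sub_eq_add_neg]
    refine Complex.mem_slitPlane_of_norm_lt_one ?_
    rw [norm_neg]
    linarith [(kea_norm hψ s P).trans (ke_bdC P hs)]
  exact (DifferentiableAt.clog (f := fun s => 1 - kea ψ s P.asIdeal)
    ((differentiableAt_const _).sub h1) h3).neg.sub h2

theorem ke_cmul {f : ℕ} {ψ : Ideal (𝓞 K) → ℂ} (h : RC f ψ) {s : ℂ} (hs : s ≠ 0) : CMul (kea ψ s) := by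
  refine ⟨?_, ?_, fun I J => ?_⟩
  · rw [kea, h.one, map_one]; simp
  · rw [kea, map_zero, Nat.cast_zero, Complex.zero_cpow (neg_ne_zero.2 hs), mul_zero]
  · rw [kea, kea, kea, h.mul, map_mul, Nat.cast_mul, Complex.natCast_mul_natCast_cpow]; ring

theorem ke_euler {f : ℕ} {ψ : Ideal (𝓞 K) → ℂ} (h : RC f ψ) {s : ℂ} (hs : 5 / 4 ≤ s.re) :
    Complex.exp (∑' P : PI K, Complex.log (1 - kea ψ s P.asIdeal)) * Lser ψ s = 1 := by
  have hb : ∀ P : PI K, ‖kea ψ s P.asIdeal‖ ≤ kew (lp P) := fun P =>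
    (kea_norm h.norm_le s P).trans (ke_bdA P hs)
  refine euler_exp (ke_cmul h ?_) (fun P => (hb P).trans (kew_lp_le P))
    (Summable.of_nonneg_of_le (fun _ => norm_nonneg _) hb (summable_lp kew_nonneg kew_summable))
  rintro rfl
  norm_num at hs

theorem keu_summable {ψ : Ideal (𝓞 K) → ℂ} (hψ : ∀ I, ‖ψ I‖ ≤ 1) {s : ℂ} (hs : 5 / 4 ≤ s.re) :
    Summable fun P : PI K => keu ψ s P.asIdeal := by
  refine Summable.of_norm_bounded (summable_lp kew_nonneg kew_summable) fun P => ?_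
  rw [keu]
  split_ifs
  · exact (kea_norm hψ s P).trans (ke_bdA P hs)
  · rw [norm_zero]; exact kew_nonneg _

theorem keu_tsum {ψ : Ideal (𝓞 K) → ℂ} (hψ : ∀ I, ‖ψ I‖ ≤ 1) {s : ℂ} (hs : 5 / 4 ≤ s.re) :
    ∑' P : PI K, keu ψ s P.asIdeal = LSeries (c1 ψ) s := by
  have hinj : Function.Injective fun P : PI K => P.asIdeal := fun P Q e =>
    IsDedekindDomain.HeightOneSpectrum.ext e
  have h0 : ∀ I ∉ Set.range fun P : PI K => P.asIdeal, keu ψ s I = 0 := fun I hI => by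
    rw [keu, if_neg]
    intro hp
    exact hI ⟨⟨I, (R312.B8.max_of_norm hp).isPrime,
      fun h => hp.ne_zero (by rw [h, Ideal.absNorm_bot])⟩, rfl⟩
  have h1 : HasSum (keu ψ s) (∑' P : PI K, keu ψ s P.asIdeal) :=
    (hinj.hasSum_iff h0).1 (keu_summable hψ hs).hasSum
  rw [← (h1.tsum_fiberwise fun I => Ideal.absNorm I).tsum_eq, LSeries]
  refine tsum_congr fun n => ?_
  have e : (fun I : Ideal (𝓞 K) => Ideal.absNorm I) ⁻¹' {n} = (D1 K n : Set (Ideal (𝓞 K))) := by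
    ext I; simp [mem_D1]
  rw [e, Finset.tsum_subtype', LSeries.term_def₀ (by rw [c1, if_neg Nat.not_prime_zero]), c1]
  split_ifs with hp
  · rw [sum_mul]
    refine sum_congr rfl fun I hI => ?_
    rw [keu, kea, mem_D1.1 hI, if_pos hp]
  · rw [zero_mul]
    refine sum_eq_zero fun I hI => ?_
    rw [keu, mem_D1.1 hI, if_neg hp]

end aux

theorem euler_c1 : ∃ C : ℝ, 1 ≤ C ∧ ∀ (k : Type) [Field k] [NumberField k] (f : ℕ)
    (ψ : Ideal (𝓞 k) → ℂ), RC f ψ → ∃ h : ℂ → ℂ, DifferentiableOn ℂ h {s | 5 / 8 < s.re} ∧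
      (∀ s : ℂ, 5 / 8 < s.re → ‖h s‖ ≤ C * Module.finrank ℚ k) ∧
      ∀ s : ℂ, 5 / 4 ≤ s.re → Lser ψ s = Complex.exp (LSeries (c1 ψ) s + h s) := by
  have hZ : 0 ≤ ∑' m, kew m := tsum_nonneg kew_nonneg
  refine ⟨1 + 3 / 2 * ∑' m, kew m, by linarith, fun k _ _ f ψ hψ => ?_⟩
  have hsum := (R312.summable_lp (K := k) kew_nonneg kew_summable).mul_left (3 / 2)
  refine ⟨fun s => ∑' P : PI k, ket ψ P s, ?_, fun s hs => ?_, fun s hs => ?_⟩
  · exact Complex.differentiableOn_tsum_of_summable_norm hsum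
      (fun P s hs => (ket_diff hψ.norm_le P (le_of_lt hs)).differentiableWithinAt)
      (isOpen_lt continuous_const Complex.continuous_re) fun P s hs => ket_norm hψ.norm_le P (le_of_lt hs)
  · refine (tsum_of_norm_bounded hsum.hasSum fun P => ket_norm hψ.norm_le P hs.le).trans ?_
    rw [tsum_mul_left]
    have h1 := R312.tsum_lp_le (K := k) kew_nonneg kew_summable
    have h2 : (0 : ℝ) ≤ Module.finrank ℚ k := Nat.cast_nonneg _
    nlinarith
  · have h1 : Summable fun P : PI k => ket ψ P s :=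
      Summable.of_norm_bounded hsum fun P => ket_norm hψ.norm_le P (by linarith)
    rw [← keu_tsum hψ.norm_le hs, ← (keu_summable hψ.norm_le hs).tsum_add h1]
    have e : ∀ P : PI k, keu ψ s P.asIdeal + ket ψ P s = -Complex.log (1 - kea ψ s P.asIdeal) :=
      fun P => by rw [ket]; ring
    simp only [e]
    rw [tsum_neg, Complex.exp_neg]
    exact eq_inv_of_mul_eq_one_right (ke_euler hψ hs)

variable {k : Type} [Field k] [NumberField k]

theorem RC.summable_c1 {f : ℕ} {ψ : Ideal (𝓞 k) → ℂ} (h : RC f ψ) {s : ℂ} (hs : 1 < s.re) :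
    LSeriesSummable (c1 ψ) s :=
  LSeriesSummable_of_bounded_of_one_lt_re (fun n _ => h.norm_c1_le n) hs

/-- If `ψ = 1` on all primes of degree one prime to `f` then `c1 ψ = c1 (one0 f)`, so
`Ef ψ · e^{h₀} = Ef (one0 f) · e^{h}` on `Re s ≥ 5/4`, on `Re s > 5/8` by `ident58`; at `s = 1` the left side
vanishes, the right side does not. -/
theorem gen_of_ana {f : ℕ} (h : ∀ ψ : Ideal (𝓞 k) → ℂ, RC f ψ → Ana f ψ) : Gen k f := by
  intro ψ hψ hne
  by_contra hn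
  push Not at hn
  have h0 := rc_one0 (k := k) hψ.two_le
  have hc : c1 ψ = c1 (one0 (K := k) f) := by
    funext l
    rw [c1, c1]
    split_ifs with hl
    · refine sum_congr rfl fun P hP => ?_
      by_cases hc : Cop f P
      · rw [hn P (by rw [mem_D1.1 hP]; exact hl) hc, one0, if_pos hc]
      · rw [hψ.zero P hc, one0, if_neg hc]
    · rfl
  obtain ⟨C, -, hC⟩ := euler_c1
  obtain ⟨u, hu, -, hu'⟩ := hC k f ψ hψ
  obtain ⟨v, hv, -, hv'⟩ := hC k f _ h0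
  have key := ident58 (u := fun s => Ef ψ s * Complex.exp (v s))
    (v := fun s => Ef (one0 (K := k) f) s * Complex.exp (u s))
    ((h ψ hψ).diff.differentiableOn.mul hv.cexp) ((h _ h0).diff.differentiableOn.mul hu.cexp)
    (fun s hs => by
      rw [(h ψ hψ).eq s (by linarith), (h _ h0).eq s (by linarith), hu' s hs, hv' s hs, hc,
        Complex.exp_add, Complex.exp_add]
      ring) (s := 1) (by norm_num)
  simp only [(h ψ hψ).zero hne, zero_mul] at key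
  exact mul_ne_zero ((h _ h0).pole rfl) (Complex.exp_ne_zero _) key.symm

end Crest.Agent.R27
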