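import Crest.Agent.R27.KEul
import Crest.Agent.R27.KAna

/-!
# R27 / KZf : the product of L-functions: no zeros, upper bound

`ZZ_rep`: `ZZ r ψ s = (s-1) ∏_{j<r} Lser (ψ j) s` on `Re s > 1`; multiply the `euler_c1` representations
(`Complex.exp_sum`, `LSeries_sum` or induction with `LSeries_add`).
`zf_prod`: `ZK s = ∏_{j<r} (if Ψ j = one0 f then Ef (Ψ j) s else Lf (Ψ j) s)` is entire and has no zero on
`Re s > 11/12` (at `s = 1` use `Ana.pole`; else `Lf_mul'`).  With `t = #{j<r, Ψ j = one0 f} ≥ 1`, on `Re s ≥ 5/4`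
`ZK = (s-1)^t exp(LSeries(∑ c1 Ψ) + H_K) = (s-1)^(t-1) · ZZ r ψ s · ∏_j Lf (φ j) s · exp(H_K - H_ψ - H_φ)`; both
sides are holomorphic on `Re s > 5/8`, so `ident58` extends the identity and `ZZ r ψ s` is a factor of `ZK s ≠ 0`.
`count_bound`: `ana_bound` with `Z = ZZ r ψ`; for `‖s-1‖ ≥ 1`: `‖Lf‖ ≤ ‖Ef‖ ≤ exp(A log(3+|t|))`, `r` factors.
-/

set_option autoImplicit false
set_option linter.unusedSectionVars false
set_option linter.unusedVariables false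

noncomputable section

open Finset NumberField
open scoped Classical

namespace Crest.Agent.R27

open Crest.Agent.R312 (Lser Ef Lf one0 PI)

variable {F K : Type} [Field F] [NumberField F] [Field K] [NumberField K]

/-- the product of the Euler representations -/
theorem prod_rep : ∃ C : ℝ, 1 ≤ C ∧ ∀ (k : Type) [Field k] [NumberField k] (f r : ℕ)
    (ψ : ℕ → Ideal (𝓞 k) → ℂ), (∀ j, RC f (ψ j)) → ∃ h : ℂ → ℂ, DifferentiableOn ℂ h {s | 5 / 8 < s.re} ∧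
      (∀ s : ℂ, 5 / 8 < s.re → ‖h s‖ ≤ C * r * Module.finrank ℚ k) ∧
      ∀ s : ℂ, 5 / 4 ≤ s.re → ∏ j ∈ range r, Lser (ψ j) s =
        Complex.exp (LSeries (fun l => ∑ j ∈ range r, c1 (ψ j) l) s + h s) := by
  obtain ⟨C, hC1, hC⟩ := euler_c1
  refine ⟨C, hC1, fun k _ _ f r ψ hψ => ?_⟩
  choose h h1 h2 h3 using fun j => hC k f (ψ j) (hψ j)
  refine ⟨fun s => ∑ j ∈ range r, h j s, DifferentiableOn.fun_sum fun j _ => h1 j, fun s hs => ?_,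
    fun s hs => ?_⟩
  · refine (norm_sum_le_of_le _ fun j _ => h2 j s hs).trans (le_of_eq ?_)
    rw [sum_const, card_range, nsmul_eq_mul]; ring
  · have e : (fun l => ∑ j ∈ range r, c1 (ψ j) l) = ∑ j ∈ range r, c1 (ψ j) := by
      funext l; rw [Finset.sum_apply]
    rw [e, LSeries_sum fun j _ => (hψ j).summable_c1 (by linarith), ← sum_add_distrib, Complex.exp_sum]
    exact prod_congr rfl fun j _ => h3 j s hs

theorem ZZ_diff {f r : ℕ} {ψ : ℕ → Ideal (𝓞 F) → ℂ} (ha : ∀ j, Ana f (ψ j))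
    (h1 : ∀ j, 0 < j → j < r → ψ j ≠ one0 f) : Differentiable ℂ (ZZ r ψ) := by
  refine (ha 0).diff.mul (Differentiable.fun_finsetProd fun j hj => ?_)
  exact (ha j).Lf_diff (h1 j (mem_Ico.1 hj).1 (mem_Ico.1 hj).2)

theorem ZZ_rep {f r : ℕ} (hr : 1 ≤ r) {ψ : ℕ → Ideal (𝓞 F) → ℂ} (ha : ∀ j, Ana f (ψ j)) {s : ℂ}
    (hs : 1 < s.re) : ZZ r ψ s = (s - 1) * ∏ j ∈ range r, Lser (ψ j) s := by
  rw [ZZ, (ha 0).eq s hs, range_eq_Ico, prod_eq_prod_Ico_succ_bot (by omega : 0 < r), mul_assoc]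
  congr 2
  exact prod_congr rfl fun j _ => (ha j).Lf_eq hs

theorem kzf_summable {f r : ℕ} {ψ : ℕ → Ideal (𝓞 F) → ℂ} (hψ : ∀ j, RC f (ψ j)) {s : ℂ}
    (hs : 1 < s.re) : LSeriesSummable (fun l => ∑ j ∈ range r, c1 (ψ j) l) s := by
  have e : (fun l => ∑ j ∈ range r, c1 (ψ j) l) = ∑ j ∈ range r, c1 (ψ j) := by
    funext l; rw [Finset.sum_apply]
  rw [e]
  exact LSeriesSummable.sum fun j _ => (hψ j).summable_c1 hs

/-- entire version of `L(s, Ψ)` -/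
def kzfG (f : ℕ) (Ψ : Ideal (𝓞 K) → ℂ) (s : ℂ) : ℂ := if Ψ = one0 f then Ef Ψ s else Lf Ψ s

theorem kzfG_diff {f : ℕ} {Ψ : Ideal (𝓞 K) → ℂ} (h : Ana f Ψ) : Differentiable ℂ (kzfG f Ψ) := by
  unfold kzfG
  split_ifs with he
  · exact h.diff
  · exact h.Lf_diff he

theorem kzfG_eq {f : ℕ} {Ψ : Ideal (𝓞 K) → ℂ} (h : Ana f Ψ) {s : ℂ} (hs : 1 < s.re) :
    kzfG f Ψ s = (if Ψ = one0 f then s - 1 else 1) * Lser Ψ s := by
  unfold kzfG
  split_ifs with he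
  · exact h.eq s hs
  · rw [one_mul]; exact h.Lf_eq hs

theorem kzfG_ne {f : ℕ} {Ψ : Ideal (𝓞 K) → ℂ} (h : Ana f Ψ) {s : ℂ}
    (hz : (s ≠ 1 ∨ Ψ ≠ one0 f) → Lf Ψ s ≠ 0) : kzfG f Ψ s ≠ 0 := by
  unfold kzfG
  split_ifs with he
  · by_cases hs : s = 1
    · rw [hs]; exact h.pole he
    · rw [← Lf_mul' Ψ hs]; exact mul_ne_zero (sub_ne_zero.2 hs) (hz (Or.inl hs))
  · exact hz (Or.inr he)

theorem zf_prod {f r : ℕ} (hr : 1 ≤ r) {ψ φ : ℕ → Ideal (𝓞 F) → ℂ} {Ψ : ℕ → Ideal (𝓞 K) → ℂ}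
    (hψ : ∀ j, RC f (ψ j)) (hφ : ∀ j, RC f (φ j)) (hΨ : ∀ j, RC f (Ψ j))
    (aψ : ∀ j, Ana f (ψ j)) (aφ : ∀ j, Ana f (φ j)) (aΨ : ∀ j, Ana f (Ψ j))
    (h1 : ∀ j, 0 < j → j < r → ψ j ≠ one0 f) (h2 : ∀ j, φ j ≠ one0 f) (h3 : Ψ 0 = one0 f)
    (hz : ∀ j (s : ℂ), 11 / 12 < s.re → (s ≠ 1 ∨ Ψ j ≠ one0 f) → Lf (Ψ j) s ≠ 0)
    (hc : ∀ l, ∑ j ∈ range r, c1 (Ψ j) l = ∑ j ∈ range r, c1 (ψ j) l + ∑ j ∈ range r, c1 (φ j) l)
    {s : ℂ} (hs : 11 / 12 < s.re) : ZZ r ψ s ≠ 0 := by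
  obtain ⟨C, -, hC⟩ := prod_rep
  obtain ⟨u, hu, -, hu'⟩ := hC F f r ψ hψ
  obtain ⟨v, hv, -, hv'⟩ := hC F f r φ hφ
  obtain ⟨w, hw, -, hw'⟩ := hC K f r Ψ hΨ
  obtain ⟨t, ht⟩ : ∃ t, ((range r).filter fun j => Ψ j = one0 f).card = t + 1 :=
    Nat.exists_eq_succ_of_ne_zero (card_pos.2 ⟨0, mem_filter.2 ⟨mem_range.2 (by omega), h3⟩⟩).ne'
  have d1 : Differentiable ℂ fun s => ∏ j ∈ range r, kzfG f (Ψ j) s :=
    Differentiable.fun_finsetProd fun j _ => kzfG_diff (aΨ j)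
  have d2 : Differentiable ℂ fun s => ∏ j ∈ range r, Lf (φ j) s :=
    Differentiable.fun_finsetProd fun j _ => (aφ j).Lf_diff (h2 j)
  have d3 : Differentiable ℂ fun s : ℂ => (s - 1) ^ t := by fun_prop
  have key := ident58 (u := fun s => (∏ j ∈ range r, kzfG f (Ψ j) s) * Complex.exp (u s + v s))
    (v := fun s => ZZ r ψ s * ((s - 1) ^ t * (∏ j ∈ range r, Lf (φ j) s) * Complex.exp (w s)))
    (d1.differentiableOn.mul (hu.add hv).cexp)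
    ((ZZ_diff aψ h1).differentiableOn.mul ((d3.mul d2).differentiableOn.mul hw.cexp))
    (fun s hs => by
      have hs1 : 1 < s.re := by linarith
      have e1 : ∏ j ∈ range r, kzfG f (Ψ j) s = (s - 1) ^ (t + 1) * ∏ j ∈ range r, Lser (Ψ j) s := by
        rw [prod_congr rfl fun j _ => kzfG_eq (aΨ j) hs1, prod_mul_distrib, prod_ite, prod_const,
          prod_const_one, mul_one, ht]
      have e2 : ∏ j ∈ range r, Lf (φ j) s = ∏ j ∈ range r, Lser (φ j) s :=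
        prod_congr rfl fun j _ => (aφ j).Lf_eq hs1
      have e3 : LSeries (fun l => ∑ j ∈ range r, c1 (Ψ j) l) s =
          LSeries (fun l => ∑ j ∈ range r, c1 (ψ j) l) s + LSeries (fun l => ∑ j ∈ range r, c1 (φ j) l) s := by
        rw [← LSeries_add (kzf_summable hψ hs1) (kzf_summable hφ hs1)]
        congr 1
        funext l
        exact hc l
      rw [e1, e2, ZZ_rep hr aψ hs1, hu' s hs, hv' s hs, hw' s hs, e3]
      simp only [Complex.exp_add]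
      ring) (s := s) (by linarith)
  intro h0
  simp only [h0, zero_mul] at key
  exact mul_ne_zero (prod_ne_zero_iff.2 fun j _ => kzfG_ne (aΨ j) (hz j s hs)) (Complex.exp_ne_zero _) key

theorem count_bound : ∃ C : ℝ, 0 ≤ C ∧ ∀ (k : Type) [Field k] [NumberField k] (f r : ℕ)
    (ψ : ℕ → Ideal (𝓞 k) → ℂ) (A : ℝ) (c : ℕ → ℝ), 1 ≤ r → 1 ≤ A → (Module.finrank ℚ k : ℝ) ≤ A →
    (∀ j, RC f (ψ j)) → (∀ j, Ana f (ψ j)) → (∀ j, Gr (Ef (ψ j)) A) →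
    (∀ j, 0 < j → j < r → ψ j ≠ one0 f) → (∀ s : ℂ, 11 / 12 < s.re → ZZ r ψ s ≠ 0) →
    (∀ l, 0 ≤ c l) → (∀ l, (c l : ℂ) = ∑ j ∈ range r, c1 (ψ j) l) →
    ∀ y : ℝ, 1 ≤ y → ∑ n ∈ Icc 1 ⌊y⌋₊, c n * Real.log n ≤ 2 * y + C * (r * A) * y ^ (15 / 16 : ℝ) := by
  obtain ⟨C, hC0, hC⟩ := ana_bound
  obtain ⟨D, hD1, hD⟩ := prod_rep
  refine ⟨C * D, by positivity, fun k _ _ f r ψ A c hr hA hk hψ ha hg h1 hz hc0 hc y hy => ?_⟩
  obtain ⟨h, hh1, hh2, hh3⟩ := hD k f r ψ hψ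
  have hr' : (1 : ℝ) ≤ r := by exact_mod_cast hr
  have hrA : 1 ≤ r * A := one_le_mul_of_one_le_of_one_le hr' hA
  have hle : r * A ≤ D * (r * A) := le_mul_of_one_le_left (by linarith) hD1
  have key := hC c (ZZ r ψ) h (D * (r * A)) (hrA.trans hle) hc0 (fun n => ?_) (ZZ_diff ha h1) hz
    (fun s s0 s4 s1 => ?_) hh1 (fun s hs => ?_) (fun s hs => ?_) y hy
  · calc _ ≤ _ := key
      _ = _ := by ring
  · refine le_trans ?_ hle
    calc c n ≤ ‖(c n : ℂ)‖ := by rw [Complex.norm_real]; exact le_abs_self _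
      _ ≤ ∑ _j ∈ range r, A := by
        rw [hc]; exact norm_sum_le_of_le _ fun j _ => ((hψ j).norm_c1_le n).trans hk
      _ = _ := by rw [sum_const, card_range, nsmul_eq_mul]
  · have hs1 : s ≠ 1 := by rintro rfl; norm_num at s1
    have hL : 0 ≤ Real.log (3 + |s.im|) := Real.log_nonneg (by linarith [abs_nonneg s.im])
    have b1 : ∀ j, ‖Lf (ψ j) s‖ ≤ Real.exp (A * Real.log (3 + |s.im|)) := fun j => by
      refine le_trans ?_ (hg j s s0 s4)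
      rw [← Lf_mul' (ψ j) hs1, norm_mul]
      exact le_mul_of_one_le_left (norm_nonneg _) s1
    rw [ZZ, norm_mul, norm_prod]
    calc _ ≤ Real.exp (A * Real.log (3 + |s.im|)) *
          ∏ _j ∈ Ico 1 r, Real.exp (A * Real.log (3 + |s.im|)) :=
          mul_le_mul (hg 0 s s0 s4) (prod_le_prod (fun _ _ => norm_nonneg _) fun j _ => b1 j)
            (prod_nonneg fun _ _ => norm_nonneg _) (Real.exp_pos _).le
      _ = Real.exp (r * A * Real.log (3 + |s.im|)) := by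
          rw [prod_const, Nat.card_Ico, ← pow_succ', Nat.sub_add_cancel hr, ← Real.exp_nat_mul, mul_assoc]
      _ ≤ _ := Real.exp_le_exp.2 (mul_le_mul_of_nonneg_right hle hL)
  · refine (hh2 s hs).trans ?_
    rw [mul_assoc]
    exact mul_le_mul_of_nonneg_left (mul_le_mul_of_nonneg_left hk (by linarith)) (by linarith)
  · rw [ZZ_rep hr ha (by linarith), hh3 s hs]
    simp only [hc]

end Crest.Agent.R27
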