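import Crest.Agent.R27.KChr
import Crest.Agent.R27.KCnt
import Crest.Agent.R27.KZf

/-!
# R27 / KMain : the Kummer bound from `ZFK` and `AnC`

See `KDefs`.
-/

set_option autoImplicit false
set_option linter.unusedSectionVars false
set_option linter.unusedVariables false

noncomputable section

open Finset NumberField
open scoped Classical

namespace Crest.Agent.R27

open Crest.Agent.R312 (Lser Ef Lf one0 PI)

theorem km_isCyc (m : ℕ) [NeZero m] :
    @IsCyclotomicExtension {m} ℚ (CyclotomicField m ℚ) _ _ DivisionRing.toRatAlgebra := by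
  convert CyclotomicField.isCyclotomicExtension m ℚ
  · rfl
  · exact Subsingleton.elim _ _

theorem km_sub (r : ℕ) [NeZero r] [NeZero (3 * r)] (K : Type) [Field K] [NumberField K]
    [IsCyclotomicExtension {3 * r} ℚ K] : ∃ (F : Type) (_ : Field F) (_ : NumberField F) (_ : Algebra F K),
      IsCyclotomicExtension {r} ℚ F ∧ IsGalois F K := by
  have hζ := (IsCyclotomicExtension.zeta_spec (3 * r) ℚ K).pow (NeZero.pos _) rfl
  have := IsCyclotomicExtension.isGalois {3 * r} ℚ K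
  refine ⟨IntermediateField.adjoin ℚ {IsCyclotomicExtension.zeta (3 * r) ℚ K ^ 3}, inferInstance,
    inferInstance, inferInstance, ?_, inferInstance⟩
  convert hζ.intermediateField_adjoin_isCyclotomicExtension ℚ
  · rfl
  · exact Subsingleton.elim _ _

theorem km_card {r l : ℕ} (hr : r.Prime) (hr3 : 3 < r) (hl : l.Prime) (h3 : ¬ l ∣ 3) :
    ((if l % (3 * r) = 1 then (3 * r).totient else 0 : ℕ) : ℂ) =
      (1 + chi3 l) * ((if l % r = 1 then r.totient else 0 : ℕ) : ℂ) := by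
  have hc : Nat.Coprime 3 r := (Nat.coprime_primes Nat.prime_three hr).2 (by omega)
  have h0 : l % 3 ≠ 0 := fun h => h3 (by
    rw [(Nat.prime_dvd_prime_iff_eq Nat.prime_three hl).1 (Nat.dvd_of_mod_eq_zero h)])
  have key : l % (3 * r) = 1 ↔ l % 3 = 1 ∧ l % r = 1 := by
    have := Nat.modEq_and_modEq_iff_modEq_mul (a := l) (b := 1) hc
    simp only [Nat.ModEq] at this
    rw [Nat.mod_eq_of_lt (by omega : 1 < r), Nat.mod_eq_of_lt (by omega : 1 < 3 * r)] at this
    exact this.symm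
  rw [Nat.totient_mul hc, Nat.totient_prime Nat.prime_three, chi3]
  by_cases h1 : l % 3 = 1
  · by_cases h2 : l % r = 1
    · rw [if_pos (key.2 ⟨h1, h2⟩), if_pos h1, if_pos h2]
      push_cast
      ring
    · rw [if_neg fun h => h2 (key.1 h).2, if_neg h2]
      simp
  · rw [if_neg fun h => h1 (key.1 h).1, if_neg h1, if_pos (by omega)]
    simp

theorem kb_of (hZ : ZFK) (hA : AnC) (a : ℤ) (ha : 2 ≤ |a|) : KB a := by
  obtain ⟨CA, hCA, hA⟩ := hA
  obtain ⟨Cc, hCc, hC⟩ := count_bound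
  refine ⟨4 + 6 * Cc * CA, 3, a.natAbs + 4, 15 / 16, by positivity, by norm_num, fun r hr hq y hy => ?_⟩
  have ha2 : 2 ≤ a.natAbs := by
    have := Int.natCast_natAbs a
    omega
  have : NeZero r := ⟨hr.ne_zero⟩
  have : NeZero (3 * r) := ⟨by omega⟩
  have := km_isCyc (3 * r)
  obtain ⟨F, _, _, _, hF, hG⟩ := km_sub r (CyclotomicField (3 * r) ℚ)
  set K := CyclotomicField (3 * r) ℚ
  set f := 3 * (r * a.natAbs) with hfd
  have hf2 : 2 ≤ f := by rw [hfd]; nlinarith
  have hAF := hA r (by omega) F f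
  have hAK := hA (3 * r) (by omega) K f
  obtain ⟨ψ, h1, h2, h3, h4⟩ := exists_chr (k := F) hr ha2 (by omega) (f := f) (by omega)
    (dvd_mul_left _ _) (gen_of_ana fun ψ h => (hAF ψ h).1)
  set g : ℕ → Prop := fun l => (a : ZMod l) ^ ((l - 1) / r) = 1 with hg
  set Ψ : Ideal (𝓞 K) → ℂ := fun I => ψ (Ideal.relNorm (𝓞 F) I) with hΨ
  have hΨ1 : RC f Ψ := h1.relNorm
  have hcop : ∀ I : Ideal (𝓞 K), Cop f I → Cop f (Ideal.relNorm (𝓞 F) I) := fun I hI => by
    rw [cop_iff] at hI ⊢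
    rwa [absNorm_rel]
  have sF := sum_c1_pw h2 g h4
  have sK := sum_c1_pw (ψ := Ψ) (fun I hI => h2 _ (hcop I hI)) g fun P hP hP' => by
    rw [← absNorm_rel (F := F) P] at hP ⊢
    exact h4 _ hP (hcop P hP')
  have rF : ∀ j, RC f (pw f ψ j) := h1.pw
  have rT : ∀ j, RC f (tw3 (pw f ψ j)) := fun j => (rF j).tw3 r (by omega) (dvd_mul_right _ _)
  have hne : ∀ j, 0 < j → j < r → pw f ψ j ≠ one0 f := fun j j0 jr => pw_ne h1 hr j0 jr h2 h3
  have hzf : ∀ s : ℂ, 11 / 12 < s.re → ZZ r (pw f ψ) s ≠ 0 := fun s hs =>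
    zf_prod (K := K) (φ := fun j => tw3 (pw f ψ j)) (Ψ := pw f Ψ) hr.one_le rF rT hΨ1.pw
      (fun j => (hAF _ (rF j)).1) (fun j => (hAF _ (rT j)).1) (fun j => (hAK _ (hΨ1.pw j)).1) hne
      (tw3_pw_ne r hr (by omega) F hf2 h2) (pw_zero f Ψ)
      (fun j s => hZ (3 * r) (dvd_mul_right _ _) K f _ (hΨ1.pw j) s) (fun l => by
        simp only [c1_tw3]
        rw [← mul_sum, sK, sF]
        split_ifs with h
        · have e1 : ¬ l ∣ 3 * r := fun e => h.2.1 (e.trans (by rw [hfd, ← mul_assoc]; exact dvd_mul_right _ _))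
          rw [card_D1 (3 * r) (by omega) K h.1 e1,
            card_D1 r hr.two_le F h.1 fun e => e1 (e.mul_left 3),
            km_card hr (by omega) h.1 fun e => e1 (e.mul_right r)]
          ring
        · simp) hs
  have hr1 : (4 : ℝ) ≤ r := by exact_mod_cast (by omega : 4 ≤ r)
  have hf1 : (1 : ℝ) ≤ f := by exact_mod_cast (by omega : 1 ≤ f)
  have hf3 : (f : ℝ) ≤ 3 * r ^ 2 := by
    have : f ≤ 3 * r ^ 2 := by
      rw [hfd, sq]
      gcongr
      omega
    exact_mod_cast this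
  have hfr : (Module.finrank ℚ F : ℝ) ≤ r := by
    rw [IsCyclotomicExtension.finrank F (Polynomial.cyclotomic.irreducible_rat hr.pos)]
    exact_mod_cast Nat.totient_le r
  have hrA : (r : ℝ) ≤ CA * (r : ℝ) ^ 2 * f := by
    calc (r : ℝ) ≤ 1 * r ^ 2 * 1 := by nlinarith
      _ ≤ _ := by gcongr
  have key := hC F f r (pw f ψ) (CA * (r : ℝ) ^ 2 * f)
    (fun l => if l.Prime ∧ ¬ l ∣ f ∧ g l then (r : ℝ) * (D1 F l).card else 0) hr.one_le (by linarith)
    (hfr.trans hrA) rF (fun j => (hAF _ (rF j)).1) (fun j => (hAF _ (rF j)).2) hne hzf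
    (fun l => by positivity) (fun l => by rw [sF]; split_ifs <;> simp) y hy
  set S := ∑ p ∈ (Icc 1 ⌊y⌋₊).filter
    (fun p : ℕ => p.Prime ∧ p % r = 1 ∧ (a : ZMod p) ^ ((p - 1) / r) = 1), Real.log p with hS
  have hS0 : 0 ≤ S := sum_nonneg fun p _ => Real.log_natCast_nonneg p
  have hS1 : (r : ℝ) * (r - 1) * S ≤ 2 * y + Cc * (r * (CA * (r : ℝ) ^ 2 * f)) * y ^ (15 / 16 : ℝ) := by
    refine le_trans ?_ key
    rw [hS, mul_sum, sum_filter]
    refine sum_le_sum fun p _ => ?_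
    split_ifs with e1 e2 e2
    · have e3 : ¬ p ∣ r := fun e => e2.2.1 (by rw [hfd]; exact (e.mul_right _).mul_left 3)
      rw [card_D1 r hr.two_le F e1.1 e3, if_pos e1.2.1, Nat.totient_prime hr, Nat.cast_sub hr.one_le,
        Nat.cast_one]
    · refine absurd ⟨e1.1, fun e => ?_, e1.2.2⟩ e2
      have p2 := e1.1.two_le
      have e4 : p < r → False := fun h => by
        have := e1.2.1
        rw [Nat.mod_eq_of_lt h] at this
        omega
      rcases (Nat.Prime.dvd_mul e1.1).1 e with e | e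
      · exact e4 (by have := Nat.le_of_dvd (by norm_num) e; omega)
      rcases (Nat.Prime.dvd_mul e1.1).1 e with e | e
      · have := e1.2.1
        rw [(Nat.prime_dvd_prime_iff_eq e1.1 hr).1 e, Nat.mod_self] at this
        omega
      · exact e4 (by have := Nat.le_of_dvd (by omega) e; omega)
    · have := Real.log_natCast_nonneg p
      positivity
    · simp
  have hy0 : 0 ≤ y ^ (15 / 16 : ℝ) := by positivity
  generalize y ^ (15 / 16 : ℝ) = Y at *
  have hr0 : (0 : ℝ) < (r : ℝ) ^ 2 := by positivity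
  have e1 : (r : ℝ) ^ 2 * S ≤ 2 * (r * (r - 1) * S) := by
    have : (r : ℝ) ^ 2 ≤ 2 * (r * (r - 1)) := by nlinarith
    nlinarith
  have e2 : Cc * (r * (CA * (r : ℝ) ^ 2 * f)) * Y ≤ Cc * (r * (CA * (r : ℝ) ^ 2 * (3 * r ^ 2))) * Y := by
    gcongr
  have e3 : S ≤ 4 * (y / r ^ 2) + 6 * Cc * CA * (Y * r ^ 3) := by
    refine le_of_mul_le_mul_left ?_ hr0
    have : (r : ℝ) ^ 2 * (4 * (y / r ^ 2) + 6 * Cc * CA * (Y * r ^ 3)) =
        2 * (2 * y + Cc * (r * (CA * (r : ℝ) ^ 2 * (3 * r ^ 2))) * Y) := by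
      field_simp
      ring
    rw [this]
    linarith
  have e4 : 0 ≤ y / (r : ℝ) ^ 2 := by positivity
  have e5 : 0 ≤ Y * (r : ℝ) ^ 3 := by positivity
  have e6 : 0 ≤ 6 * Cc * CA := by positivity
  nlinarith [mul_nonneg e6 e4]

end Crest.Agent.R27
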