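import Crest.Agent.R27.T3L_Pois

/-!
PORT (helper4, rid 27) of `R312/B3L_Chi.lean` to totally complex fields (`R27/TDefs.lean`); same proofs.

# R312 / B3L_Chi : the Dirichlet character of a Hecke character, `phiA` and its Fourier transform
-/

set_option autoImplicit false

noncomputable section

open scoped Classical ComplexConjugate NumberField nonZeroDivisors
open MeasureTheory

namespace Crest.Agent.R312.TC.BL

variable {K : Type} [Field K] [NumberField K] [Fld K]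

variable {f : ℕ} {ξ : Pl K → ℝ} {ψ : Ideal (𝓞 K) → ℂ}

omit [Fld K] in
theorem chi_not_isUnit (hf : 2 ≤ f) : ¬ IsUnit (f : 𝓞 K) := by
  intro h
  have h1 : IsUnit (algebraMap ℤ (𝓞 K) (f : ℤ)) := by simpa using h
  have h2 := Int.isUnit_iff.1 (isUnit_of_map_unit _ _ h1)
  omega

theorem chi_mul_conj (ξ : Pl K → ℝ) (x : K) : ch ξ x * conj (ch ξ x) = 1 := by
  rw [Complex.mul_conj, Complex.normSq_eq_norm_sq, norm_ch]
  simp

omit [NumberField K] [Fld K] in
theorem chi_coe_mul (x y : 𝓞 K) : ((x * y : 𝓞 K) : K) = (x : K) * (y : K) := rfl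

omit [Fld K] in

/-- `(f) ≠ ⊤` for `2 ≤ f` (`absNorm`, or `CharZero` + `IsUnit` of an integer), so `⊥` is not coprime to it -/
theorem not_isCoprime_bot (hf : 2 ≤ f) :
    ¬ IsCoprime (⊥ : Ideal (𝓞 K)) (Ideal.span {(f : 𝓞 K)}) := by
  intro h
  exact chi_not_isUnit hf (Ideal.span_singleton_eq_top.1 (Ideal.isUnit_iff.1 (isCoprime_zero_left.1 h)))

theorem psi_bot (h : HChar f ξ ψ) : ψ ⊥ = 0 := by
  exact h.zero _ (not_isCoprime_bot h.two_le)

theorem norm_psi_le (h : HChar f ξ ψ) (I : Ideal (𝓞 K)) : ‖ψ I‖ ≤ 1 := by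
  by_cases hc : IsCoprime I (Ideal.span {(f : 𝓞 K)})
  · exact (h.norm I hc).le
  · rw [h.zero I hc, norm_zero]
    exact zero_le_one

/-- `IsCoprime.mul_left_iff`; `f ∣ x - 1` gives `IsCoprime x f` (`Ideal.isCoprime_span_singleton_iff`) -/
theorem one0_hChar' (hf : 2 ≤ f) : HChar (K := K) f 0 (one0 f) := by
  refine ⟨hf, by simp, if_pos isCoprime_one_left, fun I J => ?_, fun I hI => if_neg hI,
    fun I hI => by simp [one0, hI], fun x hx => ?_⟩
  · simp only [one0, IsCoprime.mul_left_iff]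
    split_ifs <;> simp_all
  · obtain ⟨y, hy⟩ := hx
    rw [ch_zero, one0, if_pos]
    exact (Ideal.isCoprime_span_singleton_iff _ _).2 ⟨1, -y, by linear_combination hy⟩

theorem chi_aux (h : HChar f ξ ψ) {x z : 𝓞 K} (hd : (f : 𝓞 K) ∣ x * z - 1) :
    chi0 ψ ξ x * ψ (Ideal.span {z}) = ch ξ (z : K) := by
  have h0 : x * z ≠ 0 := fun h0 => chi_not_isUnit h.two_le (isUnit_of_dvd_one (by
    rwa [h0, zero_sub, dvd_neg] at hd))
  have hx : (x : K) ≠ 0 := by simpa using left_ne_zero_of_mul h0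
  have hz : (z : K) ≠ 0 := by simpa using right_ne_zero_of_mul h0
  have h1 := h.ray _ hd
  rw [← Ideal.span_singleton_mul_span_singleton, h.mul, chi_coe_mul, ch_mul ξ hx hz] at h1
  rw [chi0]
  linear_combination conj (ch ξ (x : K)) * h1 + ch ξ (z : K) * chi_mul_conj ξ (x : K)

/-- If `x` is not coprime to `f`, neither is `x + f y` and both sides vanish.  Otherwise choose `z` with
`f ∣ x z - 1`; then `f ∣ (x + f y) z - 1`, all of `x, z, x + f y` are non-zero (`2 ≤ f`), and `ray`, `mul`,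
`ch_mul` give `chi0 x * ψ (z) = ch ξ z = chi0 (x + f y) * ψ (z)`, `ψ (z) ≠ 0`. -/
theorem chi0_per (h : HChar f ξ ψ) : PerO f (chi0 ψ ξ) := by
  intro x y
  by_cases hc : IsCoprime x (f : 𝓞 K)
  · obtain ⟨a, b, hab⟩ := hc
    have h1 := chi_aux h (x := x) (z := a) ⟨-b, by linear_combination hab⟩
    have h2 := chi_aux h (x := x + f * y) (z := a) ⟨y * a - b, by linear_combination hab⟩
    have h3 : ψ (Ideal.span {a}) ≠ 0 := fun h0 => by
      have := norm_ch ξ (a : K)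
      rw [← h1, h0] at this
      simp at this
    exact mul_right_cancel₀ h3 (h2.trans h1.symm)
  · rw [chi0, chi0, h.zero _ (mt (Ideal.isCoprime_span_singleton_iff _ _).1 hc),
      h.zero _ (mt (Ideal.isCoprime_span_singleton_iff _ _).1 (mt IsCoprime.add_mul_left_left_iff.1 hc)),
      zero_mul, zero_mul]

theorem chi0_eqv (h : HChar f ξ ψ) : Eqv ξ (chi0 ψ ξ) := by
  intro u x
  rw [chi0, chi0, Ideal.span_singleton_mul_left_unit u.isUnit]
  by_cases hx : x = 0
  · rw [hx, Ideal.span_singleton_eq_bot.2 rfl, psi_bot h]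
    simp
  · rw [chi_coe_mul, ch_mul ξ (unit_ne_zero u) (by simpa using hx), map_mul]
    linear_combination ψ (Ideal.span {x}) * conj (ch ξ (x : K)) * chi_mul_conj ξ ((u : 𝓞 K) : K)

theorem norm_chi0_le (h : HChar f ξ ψ) (x : 𝓞 K) : ‖chi0 ψ ξ x‖ ≤ 1 := by
  rw [chi0, norm_mul, Complex.norm_conj, norm_ch, mul_one]
  exact norm_psi_le h _

/-- `Ideal.absNorm_mem` -/
theorem phiA_per (h : HChar f ξ ψ) (A : Ideal (𝓞 K)) :
    PerO (f * Ideal.absNorm A) (phiA ψ ξ A) := by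
  intro x y
  have h1 : ((f * Ideal.absNorm A : ℕ) : 𝓞 K) * y ∈ A := by
    rw [Nat.cast_mul]
    exact A.mul_mem_right _ (A.mul_mem_left _ (Ideal.absNorm_mem A))
  rw [phiA, phiA, Nat.cast_mul, mul_assoc, chi0_per h, ← mul_assoc, ← Nat.cast_mul]
  simp only [Ideal.add_mem_iff_left A h1]

theorem phiA_eqv (h : HChar f ξ ψ) (A : Ideal (𝓞 K)) : Eqv ξ (phiA ψ ξ A) := by
  intro u x
  rw [phiA, phiA]
  simp only [Ideal.unit_mul_mem_iff_mem A u.isUnit]
  split_ifs
  · exact chi0_eqv h u x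
  · exact zero_mul _

theorem phiA_zero (h : HChar f ξ ψ) (A : Ideal (𝓞 K)) : phiA ψ ξ A 0 = 0 := by
  rw [phiA, if_pos A.zero_mem, chi0, Ideal.span_singleton_eq_bot.2 rfl, psi_bot h, zero_mul]

theorem norm_phiA_le (h : HChar f ξ ψ) (A : Ideal (𝓞 K)) (x : 𝓞 K) : ‖phiA ψ ξ A x‖ ≤ 1 := by
  rw [phiA]
  split_ifs
  · exact norm_chi0_le h x
  · simp

/-- unfold `pc`; `x ∈ A ↔ A ∣ span {x}` (`Ideal.dvd_span_singleton`) -/
theorem pc_phiA (h : HChar f ξ ψ) (A I : Ideal (𝓞 K)) :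
    pc (phiA ψ ξ A) ξ I = if I.IsPrincipal ∧ A ∣ I then ψ I else 0 := by
  rw [pc]
  split_ifs with h1 h2 h2
  · have hs := h1.choose_spec.2
    rw [phiA, if_pos (Ideal.dvd_span_singleton.1 (h2.2.trans hs.symm.dvd)), chi0, hs]
    linear_combination ψ I * chi_mul_conj ξ ((h1.choose : 𝓞 K) : K)
  · have hs := h1.choose_spec.2
    rw [phiA, if_neg, zero_mul]
    intro hm
    exact h2 ⟨⟨h1.choose, hs.symm⟩, hs ▸ Ideal.dvd_span_singleton.2 hm⟩
  · obtain ⟨x, hx⟩ := h2.1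
    by_cases h0 : x = 0
    · rw [hx, h0, Submodule.span_singleton_eq_bot.2 rfl, psi_bot h]
    · exact absurd ⟨x, h0, hx.symm⟩ h1
  · rfl

omit [Fld K] in
/-- fibres of a surjective homomorphism of finite groups have the same size
(`Finset.sum_fiberwise`/`Finset.sum_comp`, `AddMonoidHom.card_fiber_eq_of_mem_range`) -/
theorem card_mul_tsum_comp {G H : Type} [AddCommGroup G] [AddCommGroup H] [Finite G]
    (π : G →+ H) (hπ : Function.Surjective π) (g : H → ℂ) :
    (Nat.card H : ℂ) * ∑' x : G, g (π x) = (Nat.card G : ℂ) * ∑' y : H, g y := by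
  have : Finite H := Finite.of_surjective π hπ
  have := Fintype.ofFinite G
  have := Fintype.ofFinite H
  have key : ∀ g : H → ℂ, ∑ x : G, g (π x) =
      ((Finset.univ.filter fun x => π x = 0).card : ℂ) * ∑ y : H, g y := fun g => by
    rw [← Finset.sum_fiberwise Finset.univ π, Finset.mul_sum]
    refine Finset.sum_congr rfl fun y _ => ?_
    rw [Finset.sum_congr rfl (fun x hx => by rw [(Finset.mem_filter.1 hx).2]), Finset.sum_const, nsmul_eq_mul,
      AddMonoidHom.card_fiber_eq_of_mem_range π (hπ y) (hπ 0)]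
  have h1 := key fun _ => 1
  simp only [Finset.sum_const, Finset.card_univ, nsmul_eq_mul, mul_one] at h1
  rw [tsum_fintype, tsum_fintype, key, Nat.card_eq_fintype_card, Nat.card_eq_fintype_card, h1]
  ring

/-- CRT: `𝓞/(f a) → 𝓞/f × 𝓞/A` (`Ideal.Quotient.factor`) is surjective for `A` coprime to `f`; apply
`card_mul_tsum_comp` to `(c, b) ↦ if b = 0 then g c.out else 0`; `card_Qt`, `Ideal.absNorm_apply`,
`Submodule.cardQuot_apply`. -/
theorem tsum_mem (hf : f ≠ 0) {A : Ideal (𝓞 K)} (hA : A ≠ ⊥)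
    (hc : IsCoprime A (Ideal.span {(f : 𝓞 K)})) {g : 𝓞 K → ℂ} (hg : PerO f g) :
    (Ideal.absNorm A : ℂ) * ∑' c : Qt K (f * Ideal.absNorm A),
        (if Quotient.out c ∈ A then g (Quotient.out c) else 0) =
      (Ideal.absNorm A : ℂ) ^ (2 * dd K) * ∑' c : Qt K f, g (Quotient.out c) := by
  have ha : Ideal.absNorm A ≠ 0 := mt Ideal.absNorm_eq_zero_iff.1 hA
  have := finite_Qt (K := K) (mul_ne_zero hf ha)
  have := finite_Qt (K := K) hf
  have : Finite (𝓞 K ⧸ A) := Ideal.finiteQuotientOfFreeOfNeBot A hA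
  have h1 : Ideal.span {((f * Ideal.absNorm A : ℕ) : 𝓞 K)} ≤ Ideal.span {(f : 𝓞 K)} :=
    Ideal.span_singleton_le_span_singleton.2 (by rw [Nat.cast_mul]; exact dvd_mul_right _ _)
  have h2 : Ideal.span {((f * Ideal.absNorm A : ℕ) : 𝓞 K)} ≤ A :=
    (Ideal.span_singleton_le_iff_mem _).2 (by rw [Nat.cast_mul]; exact A.mul_mem_left _ (Ideal.absNorm_mem A))
  let π : Qt K (f * Ideal.absNorm A) →+* Qt K f × (𝓞 K ⧸ A) :=
    (Ideal.Quotient.factor h1).prod (Ideal.Quotient.factor h2)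
  have hπ : ∀ x, π (Ideal.Quotient.mk _ x) = (Ideal.Quotient.mk _ x, Ideal.Quotient.mk _ x) := fun x => rfl
  have hs : Function.Surjective π.toAddMonoidHom := by
    rintro ⟨c, b⟩
    obtain ⟨x, rfl⟩ := Ideal.Quotient.mk_surjective c
    obtain ⟨y, rfl⟩ := Ideal.Quotient.mk_surjective b
    obtain ⟨i, hi, j, hj, hij⟩ := Ideal.isCoprime_iff_exists.1 hc
    refine ⟨Ideal.Quotient.mk _ (x * i + y * j), (hπ _).trans (Prod.ext ?_ ?_)⟩
    · refine Ideal.Quotient.eq.2 ?_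
      rw [show x * i + y * j - x = (y - x) * j by linear_combination x * hij]
      exact Ideal.mul_mem_left _ _ hj
    · refine Ideal.Quotient.eq.2 ?_
      rw [show x * i + y * j - y = (x - y) * i by linear_combination y * hij]
      exact Ideal.mul_mem_left _ _ hi
  have key := card_mul_tsum_comp π.toAddMonoidHom hs
    fun p => if p.2 = 0 then g (Quotient.out p.1) else 0
  have e1 : ∀ c : Qt K (f * Ideal.absNorm A), (if (π.toAddMonoidHom c).2 = 0 then
      g (Quotient.out (π.toAddMonoidHom c).1) else 0) =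
      if Quotient.out c ∈ A then g (Quotient.out c) else 0 := fun c => by
    have : π.toAddMonoidHom c = (Ideal.Quotient.mk _ (Quotient.out c), Ideal.Quotient.mk _ (Quotient.out c)) := by
      rw [← hπ, Ideal.Quotient.mk_out]
      rfl
    rw [this]
    simp only [Ideal.Quotient.eq_zero_iff_mem, hg.out]
  have e2 : ∑' p : Qt K f × (𝓞 K ⧸ A), (if p.2 = 0 then g (Quotient.out p.1) else 0) =
      ∑' c : Qt K f, g (Quotient.out c) := by
    rw [Summable.tsum_prod Summable.of_finite]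
    simp
  simp only [e1] at key
  rw [e2, Nat.card_prod, card_Qt, card_Qt, ← Submodule.cardQuot_apply, ← Ideal.absNorm_apply] at key
  push_cast at key
  refine mul_left_cancel₀ (pow_ne_zero (2 * dd K) (Nat.cast_ne_zero.2 hf : (f : ℂ) ≠ 0)) ?_
  rw [← mul_assoc, key, mul_pow, mul_assoc]

theorem ft_phiA_zero (h : HChar f ξ ψ) {A : Ideal (𝓞 K)} (hA : A ≠ ⊥)
    (hc : IsCoprime A (Ideal.span {(f : 𝓞 K)})) :
    (Ideal.absNorm A : ℂ) * (ft (f * Ideal.absNorm A) (phiA ψ ξ A) 0 /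
        ((f * Ideal.absNorm A : ℕ) : ℂ) ^ (2 * dd K)) =
      ft f (chi0 ψ ξ) 0 / (f : ℂ) ^ (2 * dd K) := by
  have hf : f ≠ 0 := by have := h.two_le; omega
  have ha : (Ideal.absNorm A : ℂ) ≠ 0 := Nat.cast_ne_zero.2 (mt Ideal.absNorm_eq_zero_iff.1 hA)
  have hf' : (f : ℂ) ≠ 0 := Nat.cast_ne_zero.2 hf
  rw [ft_zero, ft_zero, ← mul_div_assoc]
  simp only [phiA]
  rw [tsum_mem hf hA hc (chi0_per h), Nat.cast_mul, mul_pow]
  field_simp

/-- triangle inequality and `tsum_mem` with `g = 1` -/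
theorem norm_ft_phiA_le (h : HChar f ξ ψ) {A : Ideal (𝓞 K)} (hA : A ≠ ⊥)
    (hc : IsCoprime A (Ideal.span {(f : 𝓞 K)})) (x : 𝓞 K) :
    ‖ft (f * Ideal.absNorm A) (phiA ψ ξ A) x‖ ≤
      ((f * Ideal.absNorm A : ℕ) : ℝ) ^ (2 * dd K) / (Ideal.absNorm A : ℝ) := by
  have hf : f ≠ 0 := by have := h.two_le; omega
  have ha : Ideal.absNorm A ≠ 0 := mt Ideal.absNorm_eq_zero_iff.1 hA
  have := finite_Qt (K := K) (mul_ne_zero hf ha)
  have := finite_Qt (K := K) hf
  have := Fintype.ofFinite (Qt K (f * Ideal.absNorm A))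
  have := Fintype.ofFinite (Qt K f)
  have key := tsum_mem hf hA hc (g := fun _ => 1) fun _ _ => rfl
  rw [tsum_fintype, tsum_fintype, Finset.sum_const, Finset.card_univ, ← Nat.card_eq_fintype_card, card_Qt,
    nsmul_eq_mul, mul_one] at key
  have key' : (Ideal.absNorm A : ℝ) * ∑ c : Qt K (f * Ideal.absNorm A),
      (if Quotient.out c ∈ A then (1 : ℝ) else 0) = ((f * Ideal.absNorm A : ℕ) : ℝ) ^ (2 * dd K) := by
    apply Complex.ofReal_injective
    push_cast at key ⊢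
    simp only [apply_ite Complex.ofReal, Complex.ofReal_one, Complex.ofReal_zero]
    rw [key, mul_pow, mul_comm]
  rw [le_div_iff₀ (Nat.cast_pos.2 (Nat.pos_of_ne_zero ha)), ← key', mul_comm, ft, tsum_fintype]
  refine mul_le_mul_of_nonneg_left ((norm_sum_le _ _).trans (Finset.sum_le_sum fun c _ => ?_)) (Nat.cast_nonneg _)
  rw [norm_mul, norm_eT, mul_one, phiA]
  split_ifs
  · exact norm_chi0_le h _
  · simp

/-- `phiA` is invariant under the shift by `f y z` (`y ∈ A`, `z ∈ 𝓞`); `ft_shift` gives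
`eT ((x y / a) z) = 1` for all `z`; `isIntegral_of_eT`. -/
theorem ft_phiA_supp (h : HChar f ξ ψ) {A : Ideal (𝓞 K)} (hA : A ≠ ⊥) {x : 𝓞 K}
    (hx : ft (f * Ideal.absNorm A) (phiA ψ ξ A) x ≠ 0) {y : 𝓞 K} (hy : y ∈ A) :
    ((Ideal.absNorm A : ℕ) : 𝓞 K) ∣ x * y := by
  have hf : f ≠ 0 := by have := h.two_le; omega
  have ha : Ideal.absNorm A ≠ 0 := mt Ideal.absNorm_eq_zero_iff.1 hA
  have hf' : (f : K) ≠ 0 := Nat.cast_ne_zero.2 hf
  have ha' : (Ideal.absNorm A : K) ≠ 0 := Nat.cast_ne_zero.2 ha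
  have hint : IsIntegral ℤ ((x : K) * (y : K) / (Ideal.absNorm A : K)) := isIntegral_of_eT fun z => by
    have h1 := ft_shift (mul_ne_zero hf ha) (phiA_per h A) (b := (f : 𝓞 K) * (y * z)) (fun w => by
      rw [phiA, phiA, chi0_per h]
      simp only [Ideal.add_mem_iff_left A (A.mul_mem_left (f : 𝓞 K) (A.mul_mem_right z hy))]) x
    have h2 := (mul_left_eq_self₀.1 h1.symm).resolve_right hx
    rw [← h2]
    congr 1
    push_cast
    field_simp
  refine ⟨⟨_, hint⟩, Subtype.ext ?_⟩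
  change (x : K) * (y : K) = (Ideal.absNorm A : K) * ((x : K) * (y : K) / (Ideal.absNorm A : K))
  field_simp

/-- the number of residues coprime to `f`; the class of `1` contributes `1` -/
theorem ft_one0_pos (hf : 2 ≤ f) :
    ∃ ρ : ℝ, 0 < ρ ∧ ft f (chi0 (one0 f) (0 : Pl K → ℝ)) 0 = ρ := by
  have := finite_Qt (K := K) (show f ≠ 0 by omega)
  have := Fintype.ofFinite (Qt K f)
  have e : ∀ x : 𝓞 K, chi0 (one0 f) (0 : Pl K → ℝ) x =
      ((if IsCoprime (Ideal.span {x}) (Ideal.span {(f : 𝓞 K)}) then 1 else 0 : ℝ) : ℂ) := fun x => by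
    rw [chi0, ch_zero, one0]
    split_ifs <;> simp
  refine ⟨∑ c : Qt K f, if IsCoprime (Ideal.span {Quotient.out c}) (Ideal.span {(f : 𝓞 K)}) then 1 else 0,
    Finset.sum_pos' (fun c _ => by positivity) ⟨Ideal.Quotient.mk _ 1, Finset.mem_univ _, ?_⟩, ?_⟩
  · have h1 := (chi0_per (one0_hChar' (K := K) hf)).out 1
    rw [e, e, Complex.ofReal_inj] at h1
    rw [h1, if_pos ((Ideal.isCoprime_span_singleton_iff _ _).2 isCoprime_one_left)]
    exact one_pos
  · rw [ft_zero, tsum_fintype, Complex.ofReal_sum]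
    exact Finset.sum_congr rfl fun c _ => e _

end Crest.Agent.R312.TC.BL
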