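import Crest.Agent.R27.T3L_Lat
import Crest.Agent.R27.T3L_Cls

/-!
PORT (helper4, rid 27) of `R312/B3L_Fin.lean` to totally complex fields (`R27/TDefs.lean`); same proofs.

# R312 / B3L_Fin : assembly (port of R17/LCont1 `Ef_*`, R17/LGrowth `Ef_left, Ef_right, Ef_growth'`)
-/

set_option autoImplicit false

noncomputable section

open scoped Classical ComplexConjugate NumberField nonZeroDivisors
open MeasureTheory

namespace Crest.Agent.R312.TC.BL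

variable {K : Type} [Field K] [NumberField K] [Fld K]

variable {f : ℕ} {ξ : Pl K → ℝ} {ψ : Ideal (𝓞 K) → ℂ}

omit [Fld K] in
/-- identity theorem (copy R17 `Ef_eq_EE`) -/
theorem Ef_unique {a : Ideal (𝓞 K) → ℂ} {E : ℂ → ℂ} (hE : Differentiable ℂ E)
    (h : ∀ s : ℂ, 1 < s.re → E s = (s - 1) * Lser a s) : Ef a = E := by
  have hex : ∃ E : ℂ → ℂ, Differentiable ℂ E ∧ ∀ s : ℂ, 1 < s.re → E s = (s - 1) * Lser a s :=
    ⟨E, hE, h⟩
  rw [Ef, dif_pos hex]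
  have h1 : AnalyticOnNhd ℂ hex.choose Set.univ :=
    hex.choose_spec.1.differentiableOn.analyticOnNhd isOpen_univ
  have h2 : AnalyticOnNhd ℂ E Set.univ := hE.differentiableOn.analyticOnNhd isOpen_univ
  refine h1.eq_of_eventuallyEq h2 (z₀ := 2) ?_
  have h3 : {s : ℂ | 1 < s.re} ∈ nhds (2 : ℂ) :=
    (isOpen_lt continuous_const Complex.continuous_re).mem_nhds (by simp)
  filter_upwards [h3] with s hs
  rw [hex.choose_spec.2 s hs, h s hs]

/-- `E = ∑_c ψ(A c)⁻¹ N(A c)^s E_c` with `E_c` from `lat_main` for `q = f N(A c)`, `φ = phiA ψ ξ (A c)`;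
`Lser_decomp`, `Ef_unique`, `ft_phiA_zero`, `dual_bound` (`‖ψ (A c)‖ = 1`). -/
theorem Ef_main : ∃ c : (Pl K → ℝ) → ℂ, (∃ ρ : ℝ, 0 < ρ ∧ c 0 = ρ) ∧
    ∀ (f : ℕ) (ξ : Pl K → ℝ) (ψ : Ideal (𝓞 K) → ℂ), HChar f ξ ψ →
      Differentiable ℂ (Ef ψ) ∧
      (∀ s : ℂ, 1 < s.re → Ef ψ s = (s - 1) * Lser ψ s) ∧
      (∀ A : ClassGroup (𝓞 K) → (Ideal (𝓞 K))⁰, Reps f A → Ef ψ 1 =
        c ξ * (ft f (chi0 ψ ξ) 0 / (f : ℂ) ^ (2 * dd K)) * ∑ k, (ψ (A k))⁻¹) ∧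
      (∀ s : ℂ, s.re < 0 → ‖Ef ψ s‖ ≤ ‖s - 1‖ * (‖GF (-ξ) (1 - s)‖ * ‖(GF ξ s)⁻¹‖) *
        ((f : ℝ) ^ (2 * dd K * (1 - s.re)) * zetaK K (1 - s.re))) ∧
      ∀ a b : ℝ, ∃ C A : ℝ, 0 ≤ C ∧ 0 ≤ A ∧ ∀ s : ℂ, a ≤ s.re → s.re ≤ b →
        ‖Ef ψ s‖ ≤ C * Real.exp (A * |s.im|) := by
  obtain ⟨c, hc0, hlat⟩ := lat_main (K := K)
  refine ⟨c, hc0, fun f ξ ψ h => ?_⟩
  have hf : f ≠ 0 := by have := h.two_le; omega
  have hA0 : ∀ A : (Ideal (𝓞 K))⁰, (A : Ideal (𝓞 K)) ≠ ⊥ := fun A => nonZeroDivisors.coe_ne_zero _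
  have hN : ∀ A : (Ideal (𝓞 K))⁰, Ideal.absNorm (A : Ideal (𝓞 K)) ≠ 0 := fun A => by
    rw [Ne, Ideal.absNorm_eq_zero_iff]; exact hA0 A
  choose E e1 e2 e3 e4 e5 using fun A : (Ideal (𝓞 K))⁰ =>
    hlat (f * Ideal.absNorm (A : Ideal (𝓞 K))) (phiA ψ ξ A) ξ (mul_ne_zero hf (hN A)) (phiA_per h A)
      (phiA_eqv h A) h.sum_zero (phiA_zero h A)
  have hd : ∀ A : ClassGroup (𝓞 K) → (Ideal (𝓞 K))⁰, Differentiable ℂ fun s : ℂ =>
      ∑ k, (ψ (A k))⁻¹ * (Ideal.absNorm (A k : Ideal (𝓞 K)) : ℂ) ^ s * E (A k) s := fun A =>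
    Differentiable.fun_sum fun k _ => ((differentiable_id.const_cpow
      (Or.inl (Nat.cast_ne_zero.2 (hN _)))).const_mul _).mul (e1 _)
  have hs : ∀ A, Reps f A → ∀ s : ℂ, 1 < s.re →
      ∑ k, (ψ (A k))⁻¹ * (Ideal.absNorm (A k : Ideal (𝓞 K)) : ℂ) ^ s * E (A k) s =
        (s - 1) * Lser ψ s := fun A hA s hs => by
    rw [Lser_decomp h hA hs, Finset.mul_sum]
    exact Finset.sum_congr rfl fun k _ => by rw [e2 _ s hs]; ring
  have key : ∀ A, Reps f A → Ef ψ = fun s : ℂ =>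
      ∑ k, (ψ (A k))⁻¹ * (Ideal.absNorm (A k : Ideal (𝓞 K)) : ℂ) ^ s * E (A k) s := fun A hA =>
    Ef_unique (hd A) (hs A hA)
  obtain ⟨A, hA⟩ := exists_reps (K := K) hf
  have hψ : ∀ k, ‖(ψ (A k))⁻¹‖ = 1 := fun k => by rw [norm_inv, h.norm _ (hA.cop k), inv_one]
  refine ⟨key A hA ▸ hd A, fun s hs' => by rw [key A hA]; exact hs A hA s hs', fun B hB => ?_,
    fun s hs' => ?_, fun a b => ?_⟩
  · rw [key B hB, Finset.mul_sum]
    refine Finset.sum_congr rfl fun k _ => ?_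
    rw [e3, Complex.cpow_one, ← ft_phiA_zero h (hA0 (B k)) (hB.cop k)]
    ring
  · rw [key A hA]
    refine (norm_sum_le _ _).trans (le_trans (le_of_eq ?_)
      (mul_le_mul_of_nonneg_left (dual_bound h hA hs') (by positivity)))
    rw [Finset.mul_sum]
    refine Finset.sum_congr rfl fun k _ => ?_
    rw [e4 _ s hs']
    simp only [norm_mul, hψ]
    ring
  · choose C D hC hD hb using fun k => e5 (A k) a b
    refine ⟨∑ k, (Ideal.absNorm (A k : Ideal (𝓞 K)) : ℝ) ^ b * C k, ∑ k, D k,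
      Finset.sum_nonneg fun k _ => mul_nonneg (by positivity) (hC k),
      Finset.sum_nonneg fun k _ => hD k, fun s h1 h2 => ?_⟩
    rw [key A hA, Finset.sum_mul]
    refine (norm_sum_le _ _).trans (Finset.sum_le_sum fun k _ => ?_)
    have h3 : (1 : ℝ) ≤ Ideal.absNorm (A k : Ideal (𝓞 K)) := by
      exact_mod_cast Nat.one_le_iff_ne_zero.2 (hN _)
    rw [norm_mul, norm_mul, hψ, one_mul, Complex.norm_natCast_cpow_of_pos (Nat.pos_of_ne_zero (hN _)),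
      mul_assoc]
    refine mul_le_mul (Real.rpow_le_rpow_of_exponent_le h3 h2) ((hb k s h1 h2).trans ?_)
      (norm_nonneg _) (by positivity)
    have := hC k
    gcongr
    exact Finset.single_le_sum (fun k _ => hD k) (Finset.mem_univ k)

/-- pick `B` coprime to `f` with `ψ B ≠ 1`; compare the formula for `A` and for `A * B` (`Reps.mul`) -/
theorem Ef_one_eq_zero' (h : HChar f ξ ψ) (hne : ψ ≠ one0 f) : Ef ψ 1 = 0 := by
  obtain ⟨c, -, hm⟩ := Ef_main (K := K)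
  obtain ⟨-, -, h1, -⟩ := hm f ξ ψ h
  obtain ⟨A, hA⟩ := exists_reps (K := K) (f := f) (by have := h.two_le; omega)
  obtain ⟨B, hB⟩ := Function.ne_iff.1 hne
  have hc : IsCoprime B (Ideal.span {(f : 𝓞 K)}) := by
    by_contra hc
    exact hB (by rw [h.zero B hc, one0, if_neg hc])
  rw [one0, if_pos hc] at hB
  have hB0 : B ≠ 0 := by
    rintro rfl
    exact not_isCoprime_bot h.two_le hc
  have h2 := h1 _ (hA.mul ⟨B, mem_nonZeroDivisors_of_ne_zero hB0⟩ hc)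
  simp only [Submonoid.coe_mul, h.mul, mul_inv, ← Finset.sum_mul] at h2
  rw [← mul_assoc, ← h1 A hA] at h2
  by_contra h0
  exact hB (inv_eq_one.1 (mul_left_cancel₀ h0 (h2.symm.trans (mul_one _).symm)))

theorem fin_norm (z : ℂ) (R : ℝ) (r1 : |z.re - 1| ≤ R) (r2 : 1 ≤ R) : ‖z - 1‖ ≤ R * (1 + |z.im|) := by
  refine (Complex.norm_le_abs_re_add_abs_im _).trans ?_
  rw [Complex.sub_re, Complex.one_re, Complex.sub_im, Complex.one_im, sub_zero]
  nlinarith [abs_nonneg z.im]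

theorem fin_exp {j d : ℕ} (N : ℕ) (hd : 1 ≤ d) : (8 * j + 3) * d + 3 ≤ (N + (8 * j + 6)) * d := by
  nlinarith [Nat.zero_le (N * d)]

theorem Ef_one_one0' (hf : 2 ≤ f) : ∃ ρ : ℝ, 0 < ρ ∧ Ef (one0 (K := K) f) 1 = ρ := by
  obtain ⟨c, ⟨ρ, hρ, hc⟩, hm⟩ := Ef_main (K := K)
  obtain ⟨-, -, h1, -⟩ := hm f 0 _ (one0_hChar' hf)
  obtain ⟨A, hA⟩ := exists_reps (K := K) (f := f) (by omega)
  obtain ⟨ρ', hρ', h2⟩ := ft_one0_pos (K := K) hf
  have hf' : (0 : ℝ) < f := by exact_mod_cast (by omega : 0 < f)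
  have hcard : (0 : ℝ) < Fintype.card (ClassGroup (𝓞 K)) := by exact_mod_cast Fintype.card_pos
  refine ⟨ρ * (ρ' / f ^ (2 * dd K)) * Fintype.card (ClassGroup (𝓞 K)), by positivity, ?_⟩
  rw [h1 A hA, hc, h2]
  simp [one0, hA.cop]

/-- `a = 1/2 - j ≤ σ1` (`j ≥ 1`), `b = max σ2 2`, `B = 2 j d + 1`.  Left edge: `Ef_main`, `norm_GF_ratio`,
`zetaK_le`, `two_mul_dd'`; right edge: `norm_Lser_le`; then `R17.PL_poly` with
`M = (j+1)^{B} (1+‖ξ‖)^{2jd} (∏dl)^{2j} f^{(2j+1)d} C₁^{2d} + b C₂^{2d}`; collect using `1 ≤ d`, `2 ≤ f`,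
`1 ≤ ∏ dl` (`one_le_prod_dl0`), `1+‖ξ‖, 1+|t| ≤ 1+|t|+‖ξ‖`. -/
theorem Ef_growth' (σ1 σ2 : ℝ) : ∃ C : ℕ, ∀ (K : Type) [Field K] [NumberField K] [Fld K]
    (f : ℕ) (ξ : Pl K → ℝ) (ψ : Ideal (𝓞 K) → ℂ), HChar f ξ ψ → ∀ s : ℂ, σ1 ≤ s.re → s.re ≤ σ2 →
      ‖Ef ψ s‖ ≤ (C * f * (1 + |s.im| + ‖ξ‖)) ^ (C * dd K) * (∏ v : Pl K, dl v) ^ C := by
  obtain ⟨j0, hj0⟩ := exists_nat_ge (-σ1)
  set j := j0 + 1 with hj
  have hjr : (j : ℝ) = j0 + 1 := by rw [hj]; push_cast; ring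
  have hj00 : (0 : ℝ) ≤ j0 := Nat.cast_nonneg _
  set a : ℝ := 1 / 2 - j with ha
  set b : ℝ := max σ2 2 with hb
  have hb2 : 2 ≤ b := le_max_right _ _
  have hab : a < b := by linarith
  have hb' : σ2 ≤ b := le_max_left _ _
  clear_value a b j
  obtain ⟨C₁, hC₁, z₁⟩ := zetaK_le (σ := 1 - a) (by linarith)
  obtain ⟨C₂, hC₂, z₂⟩ := zetaK_le (σ := b) (by linarith)
  obtain ⟨N, hN⟩ := exists_nat_ge (C₁ + C₂ + 2 * (b - a + 1) + b)
  refine ⟨N + (8 * j + 6), fun K _ _ _ f ξ ψ h s h1 h2 => ?_⟩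
  obtain ⟨c, -, hm⟩ := Ef_main (K := K)
  obtain ⟨m1, m2, -, m4, m5⟩ := hm f ξ ψ h
  obtain ⟨C', A', -, hA', m5⟩ := m5 a b
  set C : ℝ := ((N + (8 * j + 6) : ℕ) : ℝ) with hC
  have hC' : C = N + (8 * j + 6) := by rw [hC]; push_cast; ring
  clear_value C
  have hd := one_le_dd (K := K)
  set d := dd K with hdd
  have hP := one_le_prod_dl0 (K := K)
  set P := ∏ v : Pl K, dl v
  have hf : (1 : ℝ) ≤ f := by exact_mod_cast (by have := h.two_le; omega : 1 ≤ f)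
  have hξ := norm_nonneg ξ
  have hC1 : 1 ≤ C := by linarith
  set Y : ℝ := C * f * (1 + ‖ξ‖) with hY
  have y0 : C * (1 + ‖ξ‖) ≤ Y := by rw [hY]; gcongr; exact le_mul_of_one_le_right (by linarith) hf
  have y1 : C ≤ Y := (le_mul_of_one_le_right (by linarith) (by linarith)).trans y0
  have y2 : (f : ℝ) ≤ Y := (le_mul_of_one_le_left (by linarith) hC1).trans
    (le_mul_of_one_le_right (by positivity) (by linarith))
  have y3 : ((j : ℝ) + 1) * (1 + ‖ξ‖) ≤ Y := le_trans (by gcongr; linarith) y0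
  have y4 : 1 ≤ Y := hC1.trans y1
  have hr : Module.finrank ℚ K = 2 * d := two_mul_dd'.symm
  have h := R17.PL_poly m1 hab hA' (fun s h1 h2 _ => m5 s h1 h2)
    (M := Y ^ (1 + 2 * j * d + (2 * j + 1) * d + 2 * d) * P ^ (2 * j)) (by positivity)
    (B := 2 * j * d + 1) (fun z hz => ?_) (fun z hz => ?_) (s := s) (by linarith)
    (h2.trans hb')
  · have ht := abs_nonneg s.im
    set X : ℝ := C * f * (1 + |s.im| + ‖ξ‖) with hX
    have x1 : Y ≤ X := by rw [hX, hY]; gcongr; linarith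
    have x2 : 1 + |s.im| ≤ X := le_trans (by linarith)
      (le_mul_of_one_le_left (by positivity) (one_le_mul_of_one_le_of_one_le hC1 hf))
    have x3 : 2 * (b - a + 1) ≤ X := le_trans (by linarith) (y1.trans x1)
    have x4 : 0 ≤ 2 * (b - a + 1) := by linarith
    calc _ ≤ _ := h
      _ ≤ X ^ (1 + 2 * j * d + (2 * j + 1) * d + 2 * d) * P ^ (2 * j) * X ^ (2 * j * d + 1) *
          X ^ (2 * j * d + 1) := by gcongr
      _ = X ^ ((8 * j + 3) * d + 3) * P ^ (2 * j) := by ring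
      _ ≤ _ := mul_le_mul (pow_le_pow_right₀ (y4.trans x1) (fin_exp N hd))
        (pow_le_pow_right₀ hP (by omega)) (by positivity) (pow_nonneg (by linarith) _)
  · have ht := abs_nonneg z.im
    have g1 := fin_norm z Y (by rw [hz, abs_le]; constructor <;> linarith) y4
    have g2 : ‖GF (-ξ) (1 - z)‖ * ‖(GF ξ z)⁻¹‖ ≤ (Y * (1 + |z.im|)) ^ (2 * j * d) * P ^ (2 * j) :=
      (norm_GF_ratio ξ (j := j) (hz.trans ha)).trans (mul_le_mul_of_nonneg_right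
        (pow_le_pow_left₀ (by positivity) (mul_le_mul_of_nonneg_right y3 (by positivity)) _)
        (by positivity))
    have g3 : (f : ℝ) ^ (2 * d * (1 - z.re)) ≤ Y ^ ((2 * j + 1) * d) := by
      rw [show 2 * d * (1 - z.re) = (((2 * j + 1) * d : ℕ) : ℝ) by rw [hz, ha]; push_cast; ring,
        Real.rpow_natCast]
      gcongr
    have g4 : zetaK K (1 - z.re) ≤ Y ^ (2 * d) := by
      rw [hz, ← hr]
      exact (z₁ K).trans (by gcongr; linarith)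
    have g5 := zetaK_nonneg (K := K) (1 - z.re)
    calc _ ≤ _ := m4 z (by linarith)
      _ ≤ Y * (1 + |z.im|) * ((Y * (1 + |z.im|)) ^ (2 * j * d) * P ^ (2 * j)) *
          (Y ^ ((2 * j + 1) * d) * Y ^ (2 * d)) :=
        mul_le_mul (mul_le_mul g1 g2 (by positivity) (by positivity))
          (mul_le_mul g3 g4 g5 (by positivity)) (by positivity) (by positivity)
      _ = _ := by rw [mul_pow]; ring
  · have ht := abs_nonneg z.im
    have g1 := fin_norm z Y (by rw [hz, abs_le]; constructor <;> linarith) y4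
    have g2 := norm_Lser_le (norm_psi_le ‹HChar f ξ ψ›) (s := z) (by linarith)
    have g4 : zetaK K z.re ≤ Y ^ (2 * d) := by
      rw [hz, ← hr]
      exact (z₂ K).trans (by gcongr; linarith)
    rw [m2 z (by linarith), norm_mul]
    calc _ ≤ Y * (1 + |z.im|) * Y ^ (2 * d) :=
          mul_le_mul g1 (g2.trans ((one_mul _).le.trans g4)) (norm_nonneg _) (by positivity)
      _ = Y ^ (1 + 2 * d) * 1 * (1 + |z.im|) ^ 1 := by ring
      _ ≤ _ := mul_le_mul (mul_le_mul (pow_le_pow_right₀ y4 (by omega)) (one_le_pow₀ hP) zero_le_one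
          (by positivity)) (pow_le_pow_right₀ (le_add_of_nonneg_right ht) (by omega)) (by positivity)
          (by positivity)

end Crest.Agent.R312.TC.BL
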