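import Crest.Agent.R27.T3L_Unit
import Crest.Agent.R17.LGrowth

/-!
PORT (helper4, rid 27) of `R312/B3L_Gam.lean` to totally complex fields (`R27/TDefs.lean`); same proofs.

# R312 / B3L_Gam : the Gamma factor (use R17/LGrowth `norm_inv_Gamma_le`, `norm_Gamma_ratio`)

`(GF ξ s)⁻¹ = ∏_v (Γ(s - iξ_v))⁻¹ (2π/dl v)^{s - iξ_v}` (`Finset.prod_inv_distrib`, `Complex.cpow_neg`).
-/

set_option autoImplicit false

noncomputable section

open scoped Classical ComplexConjugate NumberField nonZeroDivisors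
open MeasureTheory

namespace Crest.Agent.R312.TC.BL

variable {K : Type} [Field K] [NumberField K] [Fld K]

theorem GF_inv (ξ : Pl K → ℝ) (s : ℂ) : (GF ξ s)⁻¹ =
    ∏ v : Pl K, (Complex.Gamma (s - ξ v * Complex.I))⁻¹ *
      ((2 * Real.pi / dl v : ℝ) : ℂ) ^ (s - ξ v * Complex.I) := by
  unfold GF
  rw [← Finset.prod_inv_distrib]
  refine Finset.prod_congr rfl fun v _ => ?_
  rw [mul_inv, Complex.cpow_neg, inv_inv]

theorem cv_pos (v : Pl K) : 0 < 2 * Real.pi / dl v := div_pos Real.two_pi_pos (dl_pos v)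

/-- `Complex.differentiable_one_div_Gamma` -/
theorem differentiable_GF_inv (ξ : Pl K → ℝ) : Differentiable ℂ (fun s => (GF ξ s)⁻¹) := by
  simp only [GF_inv]
  have h : ∀ v : Pl K, Differentiable ℂ fun s : ℂ => (Complex.Gamma (s - ξ v * Complex.I))⁻¹ *
      ((2 * Real.pi / dl v : ℝ) : ℂ) ^ (s - ξ v * Complex.I) := fun v =>
    (Complex.differentiable_one_div_Gamma.comp (differentiable_id.sub_const _)).mul
      ((differentiable_id.sub_const _).const_cpow (Or.inl (Complex.ofReal_ne_zero.2 (cv_pos v).ne')))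
  have h2 := Differentiable.fun_finsetProd (u := Finset.univ) fun v _ => h v
  exact h2

theorem GF_ne_zero (ξ : Pl K → ℝ) {s : ℂ} (hs : 0 < s.re) : GF ξ s ≠ 0 := by
  unfold GF
  refine Finset.prod_ne_zero_iff.2 fun v _ => mul_ne_zero
    (Complex.Gamma_ne_zero_of_re_pos (by simpa using hs)) ?_
  rw [Ne, Complex.cpow_eq_zero_iff]
  exact fun h => (Complex.ofReal_ne_zero.2 (cv_pos v).ne') h.1

theorem GF_zero_one : ∃ ρ : ℝ, 0 < ρ ∧ GF (0 : Pl K → ℝ) 1 = ρ := by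
  refine ⟨∏ v : Pl K, (2 * Real.pi / dl v)⁻¹, Finset.prod_pos fun v _ => inv_pos.2 (cv_pos v), ?_⟩
  unfold GF
  rw [Complex.ofReal_prod]
  refine Finset.prod_congr rfl fun v _ => ?_
  rw [Pi.zero_apply, Complex.ofReal_zero, zero_mul, sub_zero, Complex.Gamma_one, one_mul,
    Complex.cpow_neg_one, Complex.ofReal_inv]

/-- `R17.norm_inv_Gamma_le` for `1 ≤ |Im z|`, compactness (continuity of `1/Γ`) for `|Im z| ≤ 1` -/
theorem norm_inv_Gamma_le' (a b : ℝ) : ∃ C : ℝ, 0 ≤ C ∧ ∀ z : ℂ, a ≤ z.re → z.re ≤ b →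
    ‖(Complex.Gamma z)⁻¹‖ ≤ C * Real.exp (Real.pi * |z.im|) := by
  obtain ⟨C1, hC1, h1⟩ := R17.norm_inv_Gamma_le a b
  have hc : IsCompact (Set.Icc a b ×ℂ Set.Icc (-1 : ℝ) 1) := isCompact_Icc.reProdIm isCompact_Icc
  obtain ⟨C2, h2⟩ := hc.exists_bound_of_continuousOn
    Complex.differentiable_one_div_Gamma.continuous.continuousOn
  refine ⟨max C1 C2, le_max_of_le_left hC1, fun z ha hb => ?_⟩
  rcases le_total 1 |z.im| with h | h
  · exact (h1 z ha hb h).trans (mul_le_mul_of_nonneg_right (le_max_left _ _) (Real.exp_pos _).le)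
  · refine (h2 z ⟨⟨ha, hb⟩, abs_le.1 h⟩).trans ((le_max_right C1 C2).trans ?_)
    exact le_mul_of_one_le_right (le_max_of_le_left hC1) (Real.one_le_exp (by positivity))

/-- a priori bound, not uniform -/
theorem norm_GF_inv_le (ξ : Pl K → ℝ) (a b : ℝ) : ∃ C A : ℝ, 0 ≤ C ∧ 0 ≤ A ∧
    ∀ s : ℂ, a ≤ s.re → s.re ≤ b → ‖(GF ξ s)⁻¹‖ ≤ C * Real.exp (A * |s.im|) := by
  obtain ⟨C, hC, h⟩ := norm_inv_Gamma_le' a b
  refine ⟨∏ v : Pl K, C * Real.exp (Real.pi * |ξ v|) *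
    ((2 * Real.pi / dl v) ^ a + (2 * Real.pi / dl v) ^ b), dd K * Real.pi,
    Finset.prod_nonneg fun v _ => ?_, by positivity, fun s ha hb => ?_⟩
  · have := cv_pos v
    positivity
  have h1 : Real.exp (dd K * Real.pi * |s.im|) = ∏ _v : Pl K, Real.exp (Real.pi * |s.im|) := by
    rw [Finset.prod_const, Finset.card_univ, ← Real.exp_nat_mul, mul_assoc]
    rfl
  rw [GF_inv, norm_prod, h1, ← Finset.prod_mul_distrib]
  refine Finset.prod_le_prod (fun v _ => norm_nonneg _) fun v _ => ?_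
  have hv := cv_pos v
  have h2 := h (s - ξ v * Complex.I) (by simpa using ha) (by simpa using hb)
  have h3 : |(s - ξ v * Complex.I).im| ≤ |ξ v| + |s.im| := by
    have : (s - ξ v * Complex.I).im = s.im - ξ v := by simp
    rw [this, add_comm]
    exact abs_sub _ _
  have h4 : ‖(Complex.Gamma (s - ξ v * Complex.I))⁻¹‖ ≤
      C * Real.exp (Real.pi * |ξ v|) * Real.exp (Real.pi * |s.im|) := by
    rw [mul_assoc, ← Real.exp_add, ← mul_add]
    exact h2.trans (mul_le_mul_of_nonneg_left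
      (Real.exp_le_exp.2 (mul_le_mul_of_nonneg_left h3 Real.pi_pos.le)) hC)
  have h5 : ‖((2 * Real.pi / dl v : ℝ) : ℂ) ^ (s - ξ v * Complex.I)‖ ≤
      (2 * Real.pi / dl v) ^ a + (2 * Real.pi / dl v) ^ b := by
    rw [Complex.norm_cpow_eq_rpow_re_of_pos hv]
    have h6 : (s - ξ v * Complex.I).re = s.re := by simp
    rw [h6]
    have h7 := Real.rpow_nonneg hv.le a
    have h8 := Real.rpow_nonneg hv.le b
    rcases le_total (2 * Real.pi / dl v) 1 with h9 | h9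
    · linarith [Real.rpow_le_rpow_of_exponent_ge hv h9 ha]
    · linarith [Real.rpow_le_rpow_of_exponent_le h9 hb]
  rw [norm_mul, mul_right_comm]
  exact mul_le_mul h4 h5 (norm_nonneg _) (by positivity)

/-- `R17.norm_Gamma_ratio` at `z = s - iξ_v` (`1 - s - (-ξ_v) i = 1 - z`), `|ξ_v| ≤ ‖ξ‖`,
`j + |t - ξ_v| ≤ (j+1)(1+‖ξ‖)(1+|t|)`, and `(2π/dl v)^{-(1-σ)+σ} = (dl v/2π)^{2j} ≤ (dl v)^{2j}`. -/
theorem norm_GF_ratio (ξ : Pl K → ℝ) {j : ℕ} {s : ℂ} (hs : s.re = 1 / 2 - j) :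
    ‖GF (-ξ) (1 - s)‖ * ‖(GF ξ s)⁻¹‖ ≤
      ((j + 1) * (1 + ‖ξ‖) * (1 + |s.im|)) ^ (2 * j * dd K) * (∏ v : Pl K, dl v) ^ (2 * j) := by
  have h1 : ((j + 1) * (1 + ‖ξ‖) * (1 + |s.im|)) ^ (2 * j * dd K) =
      ∏ _v : Pl K, ((j + 1) * (1 + ‖ξ‖) * (1 + |s.im|)) ^ (2 * j) := by
    rw [Finset.prod_const, Finset.card_univ, ← pow_mul]
    rfl
  rw [GF_inv, GF, norm_prod, norm_prod, ← Finset.prod_mul_distrib, h1, ← Finset.prod_pow,
    ← Finset.prod_mul_distrib]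
  refine Finset.prod_le_prod (fun v _ => by positivity) fun v _ => ?_
  have hv := cv_pos v
  have hd := dl_pos v
  have h2 := R17.norm_Gamma_ratio (j := j) (s := s - ξ v * Complex.I) (by simpa using hs)
  have h3 : 1 - s - ((-ξ) v : ℝ) * Complex.I = 1 - (s - ξ v * Complex.I) := by
    rw [Pi.neg_apply]
    push_cast
    ring
  have h4 : (j : ℝ) + |(s - ξ v * Complex.I).im| ≤ (j + 1) * (1 + ‖ξ‖) * (1 + |s.im|) := by
    have e : (s - ξ v * Complex.I).im = s.im - ξ v := by simp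
    have h5 : |ξ v| ≤ ‖ξ‖ := norm_le_pi_norm ξ v
    have h6 := abs_sub s.im (ξ v)
    have h7 := abs_nonneg s.im
    have h8 := norm_nonneg ξ
    have h9 : (0 : ℝ) ≤ j := Nat.cast_nonneg j
    rw [e]
    nlinarith [mul_nonneg h7 h8, mul_nonneg h9 h7, mul_nonneg h9 h8, mul_nonneg h9 (mul_nonneg h7 h8)]
  have h5 : ‖((2 * Real.pi / dl v : ℝ) : ℂ) ^ (-(1 - (s - ξ v * Complex.I)))‖ *
      ‖((2 * Real.pi / dl v : ℝ) : ℂ) ^ (s - ξ v * Complex.I)‖ ≤ dl v ^ (2 * j) := by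
    rw [Complex.norm_cpow_eq_rpow_re_of_pos hv, Complex.norm_cpow_eq_rpow_re_of_pos hv,
      ← Real.rpow_add hv]
    have e : (-(1 - (s - ξ v * Complex.I))).re + (s - ξ v * Complex.I).re = -((2 * j : ℕ) : ℝ) := by
      simp [hs]
      ring
    rw [e, Real.rpow_neg hv.le, Real.rpow_natCast, ← inv_pow, inv_div]
    refine pow_le_pow_left₀ (by positivity) (div_le_self hd.le ?_) _
    linarith [Real.pi_gt_three]
  rw [h3, norm_mul, norm_mul, mul_mul_mul_comm]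
  exact mul_le_mul (h2.trans (pow_le_pow_left₀ (by positivity) h4 _)) h5 (by positivity)
    (by positivity)

end Crest.Agent.R312.TC.BL
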