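import Crest.Agent.R27.T3L_Mel
import Crest.Agent.R27.T3L_Gam

/-!
PORT (helper4, rid 27) of `R312/B3L_Lat.lean` to totally complex fields (`R27/TDefs.lean`); same proofs.

# R312 / B3L_Lat : the lattice zeta function (port of R17/LCont1 `thP, EE, Lf_fe`, R17/LGrowth `Ef_apriori`)

`P : WeakFEPair ℂ` with `f = FF φ ξ`, `g y = FF (ft q φ) (-ξ) (y * (q²)⁻¹)`, `k = d`, `ε = (q^{2d})⁻¹`,
`f₀ = φ 0 * kap ξ = 0`, `g₀ = ft q φ 0 * kap (-ξ)` (`continuousOn_FF`, `FF_isBigO`, `FF_feq`).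
`E s = C₀⁻¹ (GF ξ s)⁻¹ ((s-1) Λ₀(d s) + ε g₀/d)`; for `s ≠ 1` this is `C₀⁻¹ (GF ξ s)⁻¹ (s-1) Λ(d s)`.
`c ξ = C₀⁻¹ (GF ξ 1)⁻¹ kap (-ξ) / d`.  For `Re s > 1`: `P.hasMellin`, `mellin_FF`.  For `Re s < 0`:
`P.functional_equation (d(1-s))`, `P.symm.hasMellin`, `mellin_comp_mul_right`, `mellin_FF` for `ft q φ`
(`ft_per`, `ft_eqv`, `PerO.bdd`).  A priori bound: `R17.Lam0_bdd`, `norm_GF_inv_le`.
-/

set_option autoImplicit false

noncomputable section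

open scoped Classical ComplexConjugate NumberField nonZeroDivisors
open MeasureTheory

namespace Crest.Agent.R312.TC.BL

variable {K : Type} [Field K] [NumberField K] [Fld K]

theorem lat_pos {q : ℕ} (hq : q ≠ 0) : 0 < ((q : ℝ) ^ 2)⁻¹ := by positivity

/-- the `WeakFEPair` attached to a periodic equivariant function -/
def thP {q : ℕ} (hq : q ≠ 0) {φ : 𝓞 K → ℂ} (hφ : PerO q φ) {ξ : Pl K → ℝ} (he : Eqv ξ φ) :
    WeakFEPair ℂ where
  f := FF φ ξ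
  g := fun y => FF (ft q φ) (-ξ) (y * ((q : ℝ) ^ 2)⁻¹)
  k := dd K
  ε := ((q : ℂ) ^ (2 * dd K))⁻¹
  f₀ := φ 0 * kap ξ
  g₀ := ft q φ 0 * kap (-ξ)
  hf_int := (continuousOn_FF (hφ.bdd hq).choose_spec ξ).locallyIntegrableOn measurableSet_Ioi
  hg_int := ((continuousOn_FF ((ft_per hq φ).bdd hq).choose_spec (-ξ)).comp
    (continuousOn_id.mul continuousOn_const) fun _ hy => mul_pos hy (lat_pos hq)).locallyIntegrableOn
      measurableSet_Ioi
  hk := Nat.cast_pos.2 one_le_dd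
  hε := inv_ne_zero (pow_ne_zero _ (Nat.cast_ne_zero.2 hq))
  h_feq := fun _ hy => FF_feq hq hφ he hy
  hf_top := FF_isBigO (hφ.bdd hq).choose_spec ξ
  hg_top := fun r => by
    refine ((FF_isBigO ((ft_per hq φ).bdd hq).choose_spec (-ξ) r).comp_tendsto
      (Filter.tendsto_id.atTop_mul_const (lat_pos hq))).trans ?_
    refine ((Asymptotics.isBigO_refl (fun y : ℝ => y ^ r) _).const_mul_left (((q : ℝ) ^ 2)⁻¹ ^ r)).congr' ?_
      Filter.EventuallyEq.rfl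
    filter_upwards [Filter.eventually_ge_atTop 0] with y hy
    rw [mul_comm, ← Real.mul_rpow hy (lat_pos hq).le]
    rfl

theorem lat_re_mul (d : ℕ) (s : ℂ) : ((d : ℂ) * s).re = d * s.re := by simp

theorem lat_re {s : ℂ} (hs : 1 < s.re) : (dd K : ℝ) < ((dd K : ℂ) * s).re := by
  have h : (0 : ℝ) < dd K := Nat.cast_pos.2 one_le_dd
  rw [lat_re_mul]
  exact lt_mul_of_one_lt_right h hs

theorem lat_cpow {q : ℕ} (hq : q ≠ 0) (d : ℕ) (s : ℂ) :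
    ((q : ℂ) ^ (2 * d))⁻¹ * ((((q : ℝ) ^ 2)⁻¹ : ℝ) : ℂ) ^ (-(d * (1 - s))) = (q : ℂ) ^ (-(2 * d * s)) := by
  have h1 : (q : ℂ) ≠ 0 := Nat.cast_ne_zero.2 hq
  have h2 : ((((q : ℝ) ^ 2)⁻¹ : ℝ) : ℂ) ^ (-(d * (1 - s))) = (q : ℂ) ^ (2 * (d * (1 - s))) := by
    rw [Complex.cpow_def_of_ne_zero (Complex.ofReal_ne_zero.2 (lat_pos hq).ne'),
      Complex.cpow_def_of_ne_zero h1, ← Complex.ofReal_log (lat_pos hq).le, Real.log_inv, Real.log_pow,
      ← Complex.natCast_log]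
    congr 1
    push_cast
    ring
  rw [h2, ← Complex.cpow_natCast, ← Complex.cpow_neg, ← Complex.cpow_add _ _ h1]
  congr 1
  push_cast
  ring

theorem lat_norm {a b : ℝ} {s : ℂ} (h1 : a ≤ s.re) (h2 : s.re ≤ b) :
    ‖s - 1‖ ≤ (|a| + |b| + 1) * Real.exp |s.im| := by
  refine (Complex.norm_le_abs_re_add_abs_im _).trans ?_
  have ha := abs_nonneg a
  have hb := abs_nonneg b
  have h4 : |(s - 1).re| ≤ |a| + |b| + 1 := by
    rw [abs_le, Complex.sub_re, Complex.one_re]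
    constructor <;> linarith [neg_abs_le a, le_abs_self b]
  have h5 := mul_le_mul_of_nonneg_left (Real.add_one_le_exp |s.im|) (show 0 ≤ |a| + |b| + 1 by linarith)
  have h6 := mul_nonneg (add_nonneg ha hb) (abs_nonneg s.im)
  rw [Complex.sub_im, Complex.one_im, sub_zero]
  linarith

/-- **Lattice zeta functions**: continuation, residue, functional equation, a priori growth. -/
theorem lat_main : ∃ c : (Pl K → ℝ) → ℂ, (∃ ρ : ℝ, 0 < ρ ∧ c 0 = ρ) ∧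
    ∀ (q : ℕ) (φ : 𝓞 K → ℂ) (ξ : Pl K → ℝ), q ≠ 0 → PerO q φ → Eqv ξ φ → ∑ v, ξ v = 0 → φ 0 = 0 →
      ∃ E : ℂ → ℂ, Differentiable ℂ E ∧
        (∀ s : ℂ, 1 < s.re → E s = (s - 1) * Lser (pc φ ξ) s) ∧
        E 1 = c ξ * (ft q φ 0 / (q : ℂ) ^ (2 * dd K)) ∧
        (∀ s : ℂ, s.re < 0 → E s = (s - 1) * (q : ℂ) ^ (-(2 * dd K * s)) *
          (GF (-ξ) (1 - s) * (GF ξ s)⁻¹) * Lser (pc (ft q φ) (-ξ)) (1 - s)) ∧
        ∀ a b : ℝ, ∃ C A : ℝ, 0 ≤ C ∧ 0 ≤ A ∧ ∀ s : ℂ, a ≤ s.re → s.re ≤ b →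
          ‖E s‖ ≤ C * Real.exp (A * |s.im|) := by
  obtain ⟨C0, hC0, hmel⟩ := mellin_FF (K := K)
  have hC0' : (C0 : ℂ) ≠ 0 := Complex.ofReal_ne_zero.2 hC0.ne'
  have hd : (0 : ℝ) < dd K := Nat.cast_pos.2 one_le_dd
  have hd' : (dd K : ℂ) ≠ 0 := Nat.cast_ne_zero.2 (Nat.one_le_iff_ne_zero.1 one_le_dd)
  refine ⟨fun ξ => (C0 : ℂ)⁻¹ * (GF ξ 1)⁻¹ * kap (-ξ) / dd K, ?_, fun q φ ξ hq hφ he hξ h0 => ?_⟩
  · obtain ⟨ρ, hρ, e⟩ := GF_zero_one (K := K)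
    refine ⟨C0⁻¹ * ρ⁻¹ / dd K, by positivity, ?_⟩
    simp only [e, neg_zero, kap_zero, mul_one]
    push_cast
    rfl
  have hE : ∀ s : ℂ, s ≠ 1 → (s - 1) * (thP hq hφ he).Λ₀ (dd K * s) +
      ((q : ℂ) ^ (2 * dd K))⁻¹ * (ft q φ 0 * kap (-ξ)) / dd K = (s - 1) * (thP hq hφ he).Λ (dd K * s) := by
    intro s hs
    have h1 : (1 : ℂ) - s ≠ 0 := sub_ne_zero.2 hs.symm
    have e : (thP hq hφ he).Λ (dd K * s) = (thP hq hφ he).Λ₀ (dd K * s) - (1 / (dd K * s)) * (φ 0 * kap ξ) -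
        (((q : ℂ) ^ (2 * dd K))⁻¹ / (((dd K : ℝ) : ℂ) - dd K * s)) * (ft q φ 0 * kap (-ξ)) := rfl
    rw [e, h0, Complex.ofReal_natCast, ← mul_one_sub]
    field_simp
    ring
  refine ⟨fun s => (C0 : ℂ)⁻¹ * (GF ξ s)⁻¹ * ((s - 1) * (thP hq hφ he).Λ₀ (dd K * s) +
    ((q : ℂ) ^ (2 * dd K))⁻¹ * (ft q φ 0 * kap (-ξ)) / dd K), ?_, fun s hs => ?_, ?_, fun s hs => ?_,
    fun a b => ?_⟩
  · exact ((differentiable_GF_inv ξ).const_mul _).mul (((differentiable_id.sub_const 1).mul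
      ((thP hq hφ he).differentiable_Λ₀.comp (differentiable_id.const_mul _))).add_const _)
  · have h1 : s ≠ 1 := by
      rintro rfl
      simp at hs
    have h2 := GF_ne_zero ξ (s := s) (by linarith)
    have h3 : (thP hq hφ he).Λ (dd K * s) = C0 * GF ξ s * Lser (pc φ ξ) s :=
      ((thP hq hφ he).hasMellin (lat_re hs)).2.symm.trans (hmel φ _ ξ (hφ.bdd hq).choose_spec he hξ s hs)
    simp only
    rw [hE s h1, h3]
    field_simp
  · simp only [sub_self, zero_mul, zero_add]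
    ring
  · have h1 : s ≠ 1 := by
      rintro rfl
      simp at hs
      linarith
    have hs' : 1 < (1 - s).re := by
      rw [Complex.sub_re, Complex.one_re]
      linarith
    have h3 : (thP hq hφ he).symm.Λ (dd K * (1 - s)) =
        ((((q : ℝ) ^ 2)⁻¹ : ℝ) : ℂ) ^ (-(dd K * (1 - s))) *
          (C0 * GF (-ξ) (1 - s) * Lser (pc (ft q φ) (-ξ)) (1 - s)) := by
      rw [← hmel _ _ (-ξ) ((ft_per hq φ).bdd hq).choose_spec (ft_eqv hq hφ he) (by simp [hξ]) _ hs']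
      exact ((thP hq hφ he).symm.hasMellin (lat_re hs')).2.symm.trans
        (mellin_comp_mul_right (fun y => FF (ft q φ) (-ξ) y - ft q φ 0 * kap (-ξ)) _ (lat_pos hq))
    have hfe := (thP hq hφ he).functional_equation (dd K * (1 - s))
    have hk : (((thP hq hφ he).k : ℝ) : ℂ) - dd K * (1 - s) = dd K * s := by
      show ((dd K : ℝ) : ℂ) - _ = _
      rw [Complex.ofReal_natCast]
      ring
    have hε : (thP hq hφ he).ε = ((q : ℂ) ^ (2 * dd K))⁻¹ := rfl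
    rw [hk, hε, h3, smul_eq_mul, ← mul_assoc, lat_cpow hq] at hfe
    simp only
    rw [hE s h1, hfe]
    field_simp
  · obtain ⟨L, hL0, hL⟩ := R17.Lam0_bdd (thP hq hφ he) (dd K * a) (dd K * b)
    obtain ⟨C, A, hC, hA, hG⟩ := norm_GF_inv_le ξ a b
    generalize ((q : ℂ) ^ (2 * dd K))⁻¹ * (ft q φ 0 * kap (-ξ)) / dd K = z
    refine ⟨‖(C0 : ℂ)⁻¹‖ * C * ((|a| + |b| + 1) * L + ‖z‖), A + 1, by positivity, by positivity,
      fun s h1 h2 => ?_⟩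
    have g1 := hL (dd K * s) (by rw [lat_re_mul]; gcongr) (by rw [lat_re_mul]; gcongr)
    have g2 := hG s h1 h2
    have g3 := lat_norm h1 h2
    have g4 : ‖z‖ ≤ ‖z‖ * Real.exp |s.im| :=
      le_mul_of_one_le_right (norm_nonneg _) (Real.one_le_exp (abs_nonneg _))
    calc _ ≤ ‖(C0 : ℂ)⁻¹‖ * (C * Real.exp (A * |s.im|)) *
          ((|a| + |b| + 1) * Real.exp |s.im| * L + ‖z‖ * Real.exp |s.im|) := by
          rw [norm_mul, norm_mul]
          refine mul_le_mul (by gcongr) ((norm_add_le _ _).trans (add_le_add ?_ g4)) (norm_nonneg _)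
            (by positivity)
          rw [norm_mul]
          gcongr
      _ = _ := by
          rw [add_mul A, Real.exp_add, one_mul]
          ring

end Crest.Agent.R312.TC.BL
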