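import Crest.Agent.R27.T3L_Unit

/-!
PORT (helper4, rid 27) of `R312/B3L_Unf.lean` to totally complex fields (`R27/TDefs.lean`); same proofs.

# R312 / B3L_Unf : unfolding over `ℤ^r`, change of variables, the Gamma integral (pure measure theory)
-/

set_option autoImplicit false

noncomputable section

open scoped Classical ComplexConjugate NumberField nonZeroDivisors
open MeasureTheory

namespace Crest.Agent.R312.TC.BL

variable {K : Type} [Field K] [NumberField K] [Fld K]

/-- The sets `univ ×ˢ ∏_j [n_j, n_j+1)` partition `ℝ × ℝ^r` (`hasSum_integral_iUnion`, `Int.floor`);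
translate (`measurePreserving_add_right`) and replace `Set.pi univ (Ico 0 1)` by `Icc 0 1`
(`Measure.univ_pi_Ico_ae_eq_Icc`, `Measure.set_prod_ae_eq`). -/
theorem hasSum_cube {r : ℕ} {E : Type} [NormedAddCommGroup E] [NormedSpace ℝ E] [CompleteSpace E]
    {H : ℝ × (Fin r → ℝ) → E} (hH : Integrable H) :
    HasSum (fun n : Fin r → ℤ => ∫ p in (Set.univ : Set ℝ) ×ˢ Set.Icc (0 : Fin r → ℝ) 1,
      H (p.1, p.2 + fun j => (n j : ℝ))) (∫ p, H p) := by
  haveI : (volume : Measure (ℝ × (Fin r → ℝ))).IsAddRightInvariant :=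
    inferInstanceAs ((volume : Measure ℝ).prod (volume : Measure (Fin r → ℝ))).IsAddRightInvariant
  let S : (Fin r → ℤ) → Set (ℝ × (Fin r → ℝ)) := fun n => {p | ∀ j, ⌊p.2 j⌋ = n j}
  have hm : ∀ n, MeasurableSet (S n) := by
    intro n
    have h1 : S n = ⋂ j, (fun p : ℝ × (Fin r → ℝ) => ⌊p.2 j⌋) ⁻¹' {n j} := by
      ext p
      simp [S]
    rw [h1]
    refine MeasurableSet.iInter fun j => ?_
    exact (Measurable.floor ((measurable_pi_apply j).comp measurable_snd)) (measurableSet_singleton _)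
  have hd : Pairwise (Function.onFun Disjoint S) := by
    intro n n' hne
    refine Set.disjoint_left.2 fun p h1 h2 => hne (funext fun j => ?_)
    exact (h1 j).symm.trans (h2 j)
  have hU : ⋃ n, S n = Set.univ :=
    Set.eq_univ_of_forall fun p => Set.mem_iUnion.2 ⟨fun j => ⌊p.2 j⌋, fun _ => rfl⟩
  have h := hasSum_integral_iUnion hm hd hH.integrableOn
  rw [hU, Measure.restrict_univ] at h
  have hae : ((Set.univ : Set ℝ) ×ˢ Set.Icc (0 : Fin r → ℝ) 1 : Set (ℝ × (Fin r → ℝ))) =ᵐ[volume]
      ((Set.univ : Set ℝ) ×ˢ Set.pi Set.univ fun j => Set.Ico ((0 : Fin r → ℝ) j) ((1 : Fin r → ℝ) j) :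
        Set (ℝ × (Fin r → ℝ))) :=
    Measure.set_prod_ae_eq (Filter.EventuallyEq.refl _ _) Measure.univ_pi_Ico_ae_eq_Icc.symm
  have h2 : (fun n : Fin r → ℤ => ∫ p in (Set.univ : Set ℝ) ×ˢ Set.Icc (0 : Fin r → ℝ) 1,
      H (p.1, p.2 + fun j => (n j : ℝ))) = fun n => ∫ p in S n, H p := by
    funext n
    have h3 := (measurePreserving_add_right (volume : Measure (ℝ × (Fin r → ℝ)))
      (0, fun j => (n j : ℝ))).setIntegral_preimage_emb
      (measurableEmbedding_addRight _) H (S n)
    rw [← h3, setIntegral_congr_set hae]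
    have h4 : (fun p : ℝ × (Fin r → ℝ) => p + (0, fun j => (n j : ℝ))) ⁻¹' S n =
        (Set.univ : Set ℝ) ×ˢ Set.pi Set.univ
          fun j => Set.Ico ((0 : Fin r → ℝ) j) ((1 : Fin r → ℝ) j) := by
      ext p
      simp [S, Int.floor_eq_zero_iff]
    rw [h4]
    refine integral_congr_ae (Filter.Eventually.of_forall fun p => ?_)
    exact congrArg H (Prod.ext (add_zero _).symm rfl)
  rw [h2]
  exact h

/-- `exists_uL_equiv`; the image of Lebesgue measure under `e` is a Haar measure
(`ContinuousLinearEquiv.isAddHaarMeasure_map`), hence a positive multiple of `volume`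
(`Measure.isAddHaarMeasure_eq_smul` / `isAddLeftInvariant_eq_smul`, `addHaarScalarFactor_pos_of_isAddHaarMeasure`);
`integral_map_equiv`, `integrable_map_equiv`, `integral_smul_nnreal_measure`. -/
theorem exists_jac : ∃ J : ℝ, 0 < J ∧ ∀ g : (Pl K → ℝ) → ℂ, Integrable g →
    Integrable (fun p : ℝ × (Fin (rk K) → ℝ) => g (uL p)) ∧
      ∫ p : ℝ × (Fin (rk K) → ℝ), g (uL p) = (J : ℂ) * ∫ τ, g τ := by
  obtain ⟨e, he⟩ := exists_uL_equiv (K := K)
  haveI : (volume : Measure (ℝ × (Fin (rk K) → ℝ))).IsAddHaarMeasure :=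
    inferInstanceAs ((volume : Measure ℝ).prod (volume : Measure (Fin (rk K) → ℝ))).IsAddHaarMeasure
  haveI : (Measure.map e volume).IsAddHaarMeasure := e.isAddHaarMeasure_map _
  have h := Measure.isAddLeftInvariant_eq_smul (Measure.map e volume) (volume : Measure (Pl K → ℝ))
  have hpos := Measure.addHaarScalarFactor_pos_of_isAddHaarMeasure (Measure.map e volume)
    (volume : Measure (Pl K → ℝ))
  set c := Measure.addHaarScalarFactor (Measure.map e volume) (volume : Measure (Pl K → ℝ))
  refine ⟨c, hpos, fun g hg => ?_⟩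
  have hme : MeasurableEmbedding e := e.toHomeomorph.measurableEmbedding
  have h1 : (fun p : ℝ × (Fin (rk K) → ℝ) => g (uL p)) = g ∘ e := funext fun p => by
    rw [Function.comp_apply, he]
  constructor
  · rw [h1, ← hme.integrable_map_iff, h]
    exact hg.smul_measure_nnreal
  · have h2 := hme.integral_map (μ := volume) g
    rw [h, integral_smul_nnreal_measure] at h2
    simp only [he] at h2
    rw [← h2, NNReal.smul_def, Complex.real_smul]

theorem exp_image : Real.exp '' Set.univ = Set.Ioi 0 := by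
  rw [Set.image_univ, Real.range_exp]

theorem exp_aux (f : ℝ → ℂ) (s : ℂ) (w : ℝ) :
    |Real.exp w| • ((Real.exp w : ℂ) ^ (s - 1) • f (Real.exp w)) =
      Complex.exp (s * w) * f (Real.exp w) := by
  rw [abs_of_pos (Real.exp_pos w), Complex.real_smul, smul_eq_mul, ← mul_assoc,
    Complex.cpow_def_of_ne_zero (Complex.ofReal_ne_zero.2 (Real.exp_pos w).ne'),
    ← Complex.ofReal_log (Real.exp_pos w).le, Real.log_exp, Complex.ofReal_exp, ← Complex.exp_add]
  congr 2
  ring

/-- substitution `y = e^w` (`integral_image_eq_integral_abs_deriv_smul` with `Real.exp '' univ = Ioi 0`,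
cf. Mathlib `mellin_eq_fourier`) -/
theorem mellin_eq_exp (f : ℝ → ℂ) (s : ℂ) :
    mellin f s = ∫ w : ℝ, Complex.exp (s * w) * f (Real.exp w) := by
  unfold mellin
  rw [← exp_image, integral_image_eq_integral_abs_deriv_smul MeasurableSet.univ
    (fun x _ => (Real.hasDerivAt_exp x).hasDerivWithinAt) Real.exp_injective.injOn,
    Measure.restrict_univ]
  exact integral_congr_ae (Filter.Eventually.of_forall fun w => exp_aux f s w)

theorem mellinConvergent_iff_exp (f : ℝ → ℂ) (s : ℂ) :
    MellinConvergent f s ↔ Integrable (fun w : ℝ => Complex.exp (s * w) * f (Real.exp w)) := by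
  unfold MellinConvergent
  rw [← exp_image, integrableOn_image_iff_integrableOn_abs_deriv_smul MeasurableSet.univ
    (fun x _ => (Real.hasDerivAt_exp x).hasDerivWithinAt) Real.exp_injective.injOn,
    integrableOn_univ]
  simp only [exp_aux]

/-- `Complex.integral_cpow_mul_exp_neg_mul_Ioi`, `Complex.GammaIntegral_convergent`,
`MellinConvergent.comp_mul_left` -/
theorem integral_exp_exp {c : ℝ} (hc : 0 < c) {z : ℂ} (hz : 0 < z.re) :
    Integrable (fun τ : ℝ => (Real.exp (-(c * Real.exp τ)) : ℂ) * Complex.exp (z * τ)) ∧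
    ∫ τ : ℝ, (Real.exp (-(c * Real.exp τ)) : ℂ) * Complex.exp (z * τ) =
      Complex.Gamma z * (c : ℂ) ^ (-z) := by
  have h0 : MellinConvergent (fun y : ℝ => (Real.exp (-y) : ℂ)) z := by
    refine (Complex.GammaIntegral_convergent hz).congr_fun (fun y _ => ?_) measurableSet_Ioi
    simp only [smul_eq_mul]
    ring
  have h1 : mellin (fun y : ℝ => (Real.exp (-y) : ℂ)) z = Complex.Gamma z := by
    rw [Complex.Gamma_eq_integral hz, Complex.GammaIntegral_eq_mellin]
  have h2 := (MellinConvergent.comp_mul_left hc).2 h0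
  have h3 := mellin_comp_mul_left (fun y : ℝ => (Real.exp (-y) : ℂ)) z hc
  rw [mellinConvergent_iff_exp] at h2
  rw [mellin_eq_exp, h1, smul_eq_mul] at h3
  simp only [mul_comm (Complex.exp (z * _))] at h2 h3
  exact ⟨h2, h3.trans (mul_comm _ _)⟩

/-- `Integrable.fintype_prod`, `integral_fintype_prod_volume_eq_prod` -/
theorem integral_H1 (ξ : Pl K → ℝ) {s : ℂ} (hs : 0 < s.re) :
    Integrable (H1 ξ s) ∧ ∫ τ, H1 ξ s τ = GF ξ s := by
  have h : ∀ v : Pl K, _ := fun v => integral_exp_exp (c := 2 * Real.pi / dl v)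
    (div_pos Real.two_pi_pos (dl_pos v)) (z := s - ξ v * Complex.I) (by simpa using hs)
  constructor
  · exact Integrable.fintype_prod (f := fun (v : Pl K) (τ : ℝ) =>
      (Real.exp (-(2 * Real.pi / dl v * Real.exp τ)) : ℂ) *
        Complex.exp ((s - ξ v * Complex.I) * τ)) fun v => (h v).1
  · unfold H1 GF
    rw [integral_fintype_prod_volume_eq_prod (fun (v : Pl K) (τ : ℝ) =>
      (Real.exp (-(2 * Real.pi / dl v * Real.exp τ)) : ℂ) *
        Complex.exp ((s - ξ v * Complex.I) * τ))]
    exact Finset.prod_congr rfl fun v _ => (h v).2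

end Crest.Agent.R312.TC.BL
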