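import Crest.Agent.R27.T3L_P0

/-!
PORT (helper4, rid 27) of `R312/B3L_Pois.lean` to totally complex fields (`R27/TDefs.lean`); same proofs.

# R312 / B3L_Pois : residue systems, finite Fourier transform, theta transformation

`Qt K q` is finite for `q ≠ 0` (`Ideal.finiteQuotientOfFreeOfNeBot` or `Ideal.absNorm_ne_zero_iff`), so
`∑' c : Qt K q` is a finite sum (`Fintype.ofFinite`, `tsum_fintype`, `Summable.of_finite`).
Useful: `c.out - x ∈ span {q}` when `c = Ideal.Quotient.mk _ x` (`Ideal.Quotient.eq`,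
`Ideal.Quotient.mk_out`).
-/

set_option autoImplicit false

noncomputable section

open scoped Classical ComplexConjugate NumberField nonZeroDivisors
open MeasureTheory

namespace Crest.Agent.R312.TC.BL

variable {K : Type} [Field K] [NumberField K] [Fld K]

omit [Fld K] in
theorem finite_Qt {q : ℕ} (hq : q ≠ 0) : Finite (Qt K q) :=
  Ideal.finiteQuotientOfFreeOfNeBot _ (by
    rw [Ne, Ideal.span_singleton_eq_bot]
    exact Nat.cast_ne_zero.2 hq)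

theorem card_Qt (q : ℕ) : Nat.card (Qt K q) = q ^ (2 * dd K) := by
  rw [← absNorm_natCast (K := K), Ideal.absNorm_apply, Submodule.cardQuot_apply]

omit [NumberField K] [Fld K] in
theorem PerO.congr {q : ℕ} {φ : 𝓞 K → ℂ} (hφ : PerO q φ) {x y : 𝓞 K} (h : (q : 𝓞 K) ∣ x - y) :
    φ x = φ y := by
  obtain ⟨z, hz⟩ := h
  rw [← hφ y z, ← hz, add_sub_cancel]

omit [NumberField K] [Fld K] in
theorem dvd_out_sub (q : ℕ) (x : 𝓞 K) :
    (q : 𝓞 K) ∣ Quotient.out (Ideal.Quotient.mk (Ideal.span {(q : 𝓞 K)}) x) - x := by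
  rw [← Ideal.mem_span_singleton, ← Ideal.Quotient.eq, Ideal.Quotient.mk_out]

omit [NumberField K] [Fld K] in
theorem PerO.out {q : ℕ} {φ : 𝓞 K → ℂ} (hφ : PerO q φ) (x : 𝓞 K) :
    φ (Quotient.out (Ideal.Quotient.mk (Ideal.span {(q : 𝓞 K)}) x)) = φ x := hφ.congr (dvd_out_sub q x)

omit [Fld K] in
theorem PerO.bdd {q : ℕ} (hq : q ≠ 0) {φ : 𝓞 K → ℂ} (hφ : PerO q φ) : ∃ M, ∀ x, ‖φ x‖ ≤ M := by
  haveI := finite_Qt (K := K) hq
  haveI : Fintype (Qt K q) := Fintype.ofFinite _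
  refine ⟨∑ c : Qt K q, ‖φ (Quotient.out c)‖, fun x => ?_⟩
  rw [← hφ.out x]
  exact Finset.single_le_sum (f := fun c : Qt K q => ‖φ (Quotient.out c)‖)
    (fun _ _ => norm_nonneg _) (Finset.mem_univ _)

omit [NumberField K] [Fld K] in
/-- reindexing by an affine map `x ↦ u x + b` (`Equiv.tsum_eq` for the induced permutation of `Qt`) -/
theorem PerO.tsum_affine {q : ℕ} {φ : 𝓞 K → ℂ} (hφ : PerO q φ) (u : (𝓞 K)ˣ) (b : 𝓞 K) :
    ∑' c : Qt K q, φ ((u : 𝓞 K) * Quotient.out c + b) = ∑' c : Qt K q, φ (Quotient.out c) := by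
  let mk := Ideal.Quotient.mk (Ideal.span {(q : 𝓞 K)})
  let e : Qt K q ≃ Qt K q := ((Units.map (mk : 𝓞 K →* Qt K q) u).mulLeft).trans (Equiv.addRight (mk b))
  rw [← e.tsum_eq (fun c => φ (Quotient.out c))]
  refine tsum_congr fun c => ?_
  have h : e c = mk ((u : 𝓞 K) * Quotient.out c + b) := by
    rw [map_add, map_mul, Ideal.Quotient.mk_out]
    rfl
  rw [h, hφ.out]

/-- the summand of `ft` is periodic -/
theorem PerO.mul_eT {q : ℕ} (hq : q ≠ 0) {φ : 𝓞 K → ℂ} (hφ : PerO q φ) (h : 𝓞 K) :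
    PerO q (fun x => φ x * eT ((h : K) * (x : K) / (q : K))) := by
  intro x y
  have hq' : (q : K) ≠ 0 := Nat.cast_ne_zero.2 hq
  have h1 : (h : K) * ((x + (q : 𝓞 K) * y : 𝓞 K) : K) / (q : K) =
      (h : K) * (x : K) / (q : K) + ((h * y : 𝓞 K) : K) := by
    push_cast
    field_simp
  simp only
  rw [hφ x y, h1, eT_add, eT_int, mul_one]

theorem ft_zero (q : ℕ) (φ : 𝓞 K → ℂ) : ft q φ 0 = ∑' c : Qt K q, φ (Quotient.out c) := by
  unfold ft
  simp [eT_zero]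

theorem ft_per {q : ℕ} (hq : q ≠ 0) (φ : 𝓞 K → ℂ) : PerO q (ft q φ) := by
  intro x y
  have hq' : (q : K) ≠ 0 := Nat.cast_ne_zero.2 hq
  unfold ft
  refine tsum_congr fun c => ?_
  have h1 : ((x + (q : 𝓞 K) * y : 𝓞 K) : K) * ((Quotient.out c : 𝓞 K) : K) / (q : K) =
      (x : K) * ((Quotient.out c : 𝓞 K) : K) / (q : K) + ((y * Quotient.out c : 𝓞 K) : K) := by
    push_cast
    field_simp
  rw [h1, eT_add, eT_int, mul_one]

/-- substitute `c ↦ u⁻¹ c`; `φ (u⁻¹ c) = φ c * ch ξ u` -/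
theorem ft_eqv {q : ℕ} (hq : q ≠ 0) {φ : 𝓞 K → ℂ} (hφ : PerO q φ) {ξ : Pl K → ℝ} (he : Eqv ξ φ) :
    Eqv (-ξ) (ft q φ) := by
  intro u h
  have h1 := (hφ.mul_eT hq h).tsum_affine u 0
  have h2 : ch ξ ((u : 𝓞 K) : K) * ch (-ξ) ((u : 𝓞 K) : K) = 1 := by
    rw [← ch_add, add_neg_cancel, ch_zero]
  unfold ft
  rw [← h1, ← tsum_mul_right]
  refine tsum_congr fun c => ?_
  rw [add_zero, ← he u (Quotient.out c)]
  have h3 : (((u : 𝓞 K) * h : 𝓞 K) : K) * ((Quotient.out c : 𝓞 K) : K) =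
      (h : K) * (((u : 𝓞 K) * Quotient.out c : 𝓞 K) : K) := by
    push_cast
    ring
  rw [h3]
  linear_combination (φ ((u : 𝓞 K) * Quotient.out c) *
    eT ((h : K) * (((u : 𝓞 K) * Quotient.out c : 𝓞 K) : K) / (q : K))) * h2

/-- if `φ` is invariant under the shift by `b` then `ft q φ h = eT (h b / q) * ft q φ h` -/
theorem ft_shift {q : ℕ} (hq : q ≠ 0) {φ : 𝓞 K → ℂ} (hφ : PerO q φ) {b : 𝓞 K}
    (hb : ∀ x, φ (x + b) = φ x) (h : 𝓞 K) :
    ft q φ h = eT ((h : K) * (b : K) / (q : K)) * ft q φ h := by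
  have h1 := (hφ.mul_eT hq h).tsum_affine 1 b
  unfold ft
  rw [← tsum_mul_left, ← h1]
  refine tsum_congr fun c => ?_
  rw [Units.val_one, one_mul, hb]
  push_cast
  rw [mul_add, add_div, eT_add]
  ring

theorem gr_pos (t : Pl K → ℝ) (x : K) : 0 < gr t x := Real.exp_pos _

theorem gr_zero (t : Pl K → ℝ) : gr t (0 : K) = 1 := by
  unfold gr
  simp

theorem gr_mul (t : Pl K → ℝ) (a x : K) :
    gr t (a * x) = gr (fun v => t v * ‖emb v a‖ ^ 2) x := by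
  unfold gr
  simp only [emb_mul, norm_mul, mul_pow, mul_assoc]

theorem summable_th {φ : 𝓞 K → ℂ} {M : ℝ} (hM : ∀ x, ‖φ x‖ ≤ M) {t : Pl K → ℝ}
    (ht : ∀ v, 0 < t v) : Summable (fun x : 𝓞 K => φ x * (gr t (x : K) : ℂ)) := by
  refine Summable.of_norm_bounded ((summable_gr ht 0).mul_left M) fun x => ?_
  rw [norm_mul, Complex.norm_real, Real.norm_eq_abs, abs_of_pos (gr_pos _ _), add_zero]
  exact mul_le_mul_of_nonneg_right (hM x) (gr_pos _ _).le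

/-- `x ↦ u x` permutes `𝓞 K` -/
theorem th_unit {φ : 𝓞 K → ℂ} {ξ : Pl K → ℝ} (he : Eqv ξ φ) (u : (𝓞 K)ˣ) (t : Pl K → ℝ) :
    th φ (fun v => t v * ‖emb v ((u : 𝓞 K) : K)‖ ^ 2) = ch ξ ((u : 𝓞 K) : K) * th φ t := by
  unfold th
  rw [← tsum_mul_left, ← u.mulLeft.tsum_eq (fun x => ch ξ ((u : 𝓞 K) : K) * (φ x * (gr t (x : K) : ℂ)))]
  refine tsum_congr fun x => ?_
  have h1 : ((u.mulLeft x : 𝓞 K) : K) = ((u : 𝓞 K) : K) * (x : K) :=
    map_mul (algebraMap (𝓞 K) K) _ _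
  rw [h1, gr_mul, ← he u x, Units.mulLeft_apply]
  ring

omit [Fld K] in
theorem exists_resEquiv {q : ℕ} (hq : q ≠ 0) :
    ∃ e : Qt K q × 𝓞 K ≃ 𝓞 K, ∀ c y, e (c, y) = Quotient.out c + (q : 𝓞 K) * y := by
  have hq' : (q : 𝓞 K) ≠ 0 := Nat.cast_ne_zero.2 hq
  refine ⟨Equiv.ofBijective (fun p => Quotient.out p.1 + (q : 𝓞 K) * p.2) ⟨?_, fun x => ?_⟩,
    fun _ _ => rfl⟩
  · rintro ⟨c, y⟩ ⟨c', y'⟩ h
    simp only at h
    have h1 : c = c' := by
      rw [← Ideal.Quotient.mk_out c, ← Ideal.Quotient.mk_out c', Ideal.Quotient.eq,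
        Ideal.mem_span_singleton]
      exact ⟨y' - y, by linear_combination h⟩
    subst h1
    rw [mul_left_cancel₀ hq' (add_left_cancel h)]
  · obtain ⟨z, hz⟩ := dvd_out_sub q x
    exact ⟨(Ideal.Quotient.mk _ x, -z), by simp only; linear_combination hz⟩

/-- **Theta transformation.**  `𝓞 ≃ Qt × 𝓞`, `(c,y) ↦ c.out + q y`;
`gr t (c + q y) = gr (q² t) (y + c/q)` (`gr_mul`, `‖emb v q‖ = q`); `poisson_gr`; swap the finite sum
with `∑' h` (`Summable.tsum_finsetSum`). -/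
theorem th_poisson {q : ℕ} (hq : q ≠ 0) {φ : 𝓞 K → ℂ} (hφ : PerO q φ) {t : Pl K → ℝ}
    (ht : ∀ v, 0 < t v) :
    th φ t = ((((q : ℝ) ^ (2 * dd K) * ∏ v, t v)⁻¹ : ℝ) : ℂ) *
      th (ft q φ) (fun v => ((q : ℝ) ^ 2 * t v)⁻¹) := by
  haveI := finite_Qt (K := K) hq
  haveI : Fintype (Qt K q) := Fintype.ofFinite _
  obtain ⟨M, hM⟩ := hφ.bdd hq
  have hq' : (q : K) ≠ 0 := Nat.cast_ne_zero.2 hq
  have hqR : (0 : ℝ) < q := Nat.cast_pos.2 (Nat.pos_of_ne_zero hq)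
  have ht' : ∀ v, 0 < (q : ℝ) ^ 2 * t v := fun v => mul_pos (pow_pos hqR 2) (ht v)
  obtain ⟨e, he⟩ := exists_resEquiv (K := K) hq
  have hs := summable_th hM ht
  have h1 : ∀ (c : Qt K q) (y : 𝓞 K), φ (e (c, y)) * (gr t (e (c, y) : K) : ℂ) = φ (Quotient.out c) *
      (gr (fun v => (q : ℝ) ^ 2 * t v) ((y : K) + ((Quotient.out c : 𝓞 K) : K) / (q : K)) : ℂ) := by
    intro c y
    have h2 : ((Quotient.out c + (q : 𝓞 K) * y : 𝓞 K) : K) =
        (q : K) * ((y : K) + ((Quotient.out c : 𝓞 K) : K) / (q : K)) := by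
      push_cast
      field_simp
      ring
    rw [he, hφ, h2, gr_mul]
    simp only [emb_natCast, Complex.norm_natCast, mul_comm]
  have h3 : ∀ c : Qt K q, Summable fun h : 𝓞 K => φ (Quotient.out c) *
      eT ((h : K) * ((Quotient.out c : 𝓞 K) : K) / (q : K)) *
        (gr (fun v => ((q : ℝ) ^ 2 * t v)⁻¹) (h : K) : ℂ) := by
    intro c
    refine summable_th (M := M) (fun h => ?_) fun v => inv_pos.2 (ht' v)
    rw [norm_mul, norm_eT, mul_one]
    exact hM _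
  have hs' : Summable fun p : Qt K q × 𝓞 K => φ (e p) * (gr t (e p : K) : ℂ) := (e.summable_iff).2 hs
  unfold th ft
  rw [← e.tsum_eq, hs'.tsum_prod, tsum_fintype]
  simp only [h1, tsum_mul_left, poisson_gr ht', tsum_fintype, Finset.sum_mul]
  rw [Summable.tsum_finsetSum fun c _ => h3 c, Finset.mul_sum]
  refine Finset.sum_congr rfl fun c _ => ?_
  rw [Finset.prod_mul_distrib, Finset.prod_const, Finset.card_univ, ← pow_mul, mul_left_comm,
    ← tsum_mul_left]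
  congr 1
  refine tsum_congr fun h => ?_
  rw [mul_div_assoc, mul_assoc]

end Crest.Agent.R312.TC.BL
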