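import Crest.Agent.R27.T3L_Pois

/-!
PORT (helper4, rid 27) of `R312/B3L_Theta.lean` to totally complex fields (`R27/TDefs.lean`); same proofs.

# R312 / B3L_Theta : the averaged theta function `FF` (port of R17/LCont1 `th` lemmas)

On the compact cube `eta` is bounded: `c ≤ exp (eta u v)` for some `c > 0` (`exists_eta_lower`), so for
`y ≥ y₀ > 0`: `gr (y e^{eta u}) x ≤ gr (fun _ => y₀ c) x`, which is summable (`summable_gr` with `a = 0`).
-/

set_option autoImplicit false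

noncomputable section

open scoped Classical ComplexConjugate NumberField nonZeroDivisors
open MeasureTheory

namespace Crest.Agent.R312.TC.BL

variable {K : Type} [Field K] [NumberField K] [Fld K]

theorem gr_mono {t t' : Pl K → ℝ} (h : ∀ v, t v ≤ t' v) (x : K) : gr t' x ≤ gr t x := by
  unfold gr
  refine Real.exp_le_exp.2 (neg_le_neg (mul_le_mul_of_nonneg_left ?_ Real.two_pi_pos.le))
  refine Finset.sum_le_sum fun v _ => ?_
  exact div_le_div_of_nonneg_right (mul_le_mul_of_nonneg_right (h v) (sq_nonneg _)) (dl_pos v).le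

theorem exists_eta_lower : ∃ c : ℝ, 0 < c ∧
    ∀ u ∈ Set.Icc (0 : Fin (rk K) → ℝ) 1, ∀ v : Pl K, c ≤ Real.exp (eta u v) := by
  obtain ⟨C, hC⟩ := (isCompact_Icc (a := (0 : Fin (rk K) → ℝ)) (b := 1)).exists_bound_of_continuousOn
    (continuous_eta (K := K)).continuousOn
  refine ⟨Real.exp (-C), Real.exp_pos _, fun u hu v => Real.exp_le_exp.2 ?_⟩
  have h1 := (norm_le_pi_norm (eta u) v).trans (hC u hu)
  rw [Real.norm_eq_abs, abs_le] at h1
  exact h1.1

theorem continuous_gr (x : K) : Continuous fun t : Pl K → ℝ => gr t x := by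
  unfold gr
  fun_prop

theorem norm_th_term {φ : 𝓞 K → ℂ} {M : ℝ} (hM : ∀ x, ‖φ x‖ ≤ M) (t : Pl K → ℝ) (x : 𝓞 K) :
    ‖φ x * (gr t (x : K) : ℂ)‖ ≤ M * gr t (x : K) := by
  rw [norm_mul, Complex.norm_real, Real.norm_eq_abs, abs_of_pos (gr_pos _ _)]
  exact mul_le_mul_of_nonneg_right (hM x) (gr_pos _ _).le

/-- `continuousOn_tsum` on `{t | ∀ v, t₀ v / 2 ≤ t v}` -/
theorem continuousOn_th {φ : 𝓞 K → ℂ} {M : ℝ} (hM : ∀ x, ‖φ x‖ ≤ M) :
    ContinuousOn (th φ) {t : Pl K → ℝ | ∀ v, 0 < t v} := by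
  have hM0 : 0 ≤ M := (norm_nonneg _).trans (hM 0)
  intro t0 ht0
  have h0 : ∀ v, 0 < t0 v / 2 := fun v => half_pos (ht0 v)
  have h1 : ContinuousOn (th φ) {t | ∀ v, t0 v / 2 < t v} := by
    unfold th
    refine continuousOn_tsum (u := fun x : 𝓞 K => M * gr (fun v => t0 v / 2) ((x : K) + 0))
      (fun x => (continuous_const.mul (Complex.continuous_ofReal.comp (continuous_gr _))).continuousOn)
      ((summable_gr h0 0).mul_left M) fun x t ht => ?_
    rw [add_zero]
    exact (norm_th_term hM t x).trans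
      (mul_le_mul_of_nonneg_left (gr_mono (fun v => (ht v).le) _) hM0)
  have h2 : IsOpen {t : Pl K → ℝ | ∀ v, t0 v / 2 < t v} := by
    rw [Set.setOf_forall]
    exact isOpen_iInter_of_finite fun v => isOpen_lt continuous_const (continuous_apply v)
  exact (h1.continuousAt (h2.mem_nhds fun v => half_lt_self (ht0 v))).continuousWithinAt

theorem continuous_chE (ξ : Pl K → ℝ) : Continuous (chE ξ) := by
  unfold chE
  fun_prop

/-- e.g. `continuousOn_of_dominated` / `ContinuousOn` of a parametric integral over a compact set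
(`continuous_parametric_integral_of_continuous` after writing `y = exp w`). -/
theorem continuousOn_FF {φ : 𝓞 K → ℂ} {M : ℝ} (hM : ∀ x, ‖φ x‖ ≤ M) (ξ : Pl K → ℝ) :
    ContinuousOn (FF φ ξ) (Set.Ioi 0) := by
  have he := continuous_eta (K := K)
  have h1 : Continuous fun p : ℝ × (Fin (rk K) → ℝ) =>
      (fun v => Real.exp p.1 * Real.exp (eta p.2 v) : Pl K → ℝ) := by
    refine continuous_pi fun v => ?_
    exact (Real.continuous_exp.comp continuous_fst).mul
      (Real.continuous_exp.comp ((continuous_apply v).comp (he.comp continuous_snd)))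
  have h2 : Continuous fun p : ℝ × (Fin (rk K) → ℝ) =>
      th φ (fun v => Real.exp p.1 * Real.exp (eta p.2 v)) * chE ξ (eta p.2) :=
    ((continuousOn_th hM).comp_continuous h1
      fun p v => mul_pos (Real.exp_pos _) (Real.exp_pos _)).mul
      ((continuous_chE ξ).comp (he.comp continuous_snd))
  have h3 : Continuous fun w : ℝ => FF φ ξ (Real.exp w) :=
    continuous_parametric_integral_of_continuous (f := fun (w : ℝ) (u : Fin (rk K) → ℝ) =>
      th φ (fun v => Real.exp w * Real.exp (eta u v)) * chE ξ (eta u)) h2 isCompact_Icc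
  have h4 : ContinuousOn (fun y => FF φ ξ (Real.exp (Real.log y))) (Set.Ioi 0) :=
    h3.comp_continuousOn (Real.continuousOn_log.mono fun y hy => (ne_of_gt hy : y ≠ 0))
  exact h4.congr fun y hy => by simp only [Real.exp_log hy]

omit [Fld K] in
theorem norm_cube_le {E : Type} [NormedAddCommGroup E] [NormedSpace ℝ E]
    {g : (Fin (rk K) → ℝ) → E} {C : ℝ} (h : ∀ u ∈ Set.Icc (0 : Fin (rk K) → ℝ) 1, ‖g u‖ ≤ C) :
    ‖∫ u in Set.Icc (0 : Fin (rk K) → ℝ) 1, g u‖ ≤ C := by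
  have h1 := norm_setIntegral_le_of_norm_le_const (μ := volume) (isCompact_Icc.measure_lt_top) h
  simpa [Measure.real, Real.volume_Icc_pi] using h1

theorem norm_term_le {φ : 𝓞 K → ℂ} {M : ℝ} (hM : ∀ x, ‖φ x‖ ≤ M) (ξ : Pl K → ℝ) {y c : ℝ}
    (hy : 0 < y) (hce : ∀ u ∈ Set.Icc (0 : Fin (rk K) → ℝ) 1, ∀ v : Pl K, c ≤ Real.exp (eta u v))
    (x : 𝓞 K) {u : Fin (rk K) → ℝ} (hu : u ∈ Set.Icc (0 : Fin (rk K) → ℝ) 1) :
    ‖φ x * ((gr (fun v => y * Real.exp (eta u v)) (x : K) : ℂ) * chE ξ (eta u))‖ ≤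
      M * gr (fun _ => y * c) (x : K) := by
  rw [← mul_assoc, norm_mul, norm_chE, mul_one]
  refine (norm_th_term hM _ x).trans (mul_le_mul_of_nonneg_left ?_ ((norm_nonneg _).trans (hM 0)))
  exact gr_mono (fun v => mul_le_mul_of_nonneg_left (hce u hu v) hy.le) _

/-- termwise integration (`hasSum_integral_of_summable_integral_norm`), removing the term `x = 0` -/
theorem hasSum_FF {φ : 𝓞 K → ℂ} {M : ℝ} (hM : ∀ x, ‖φ x‖ ≤ M) (ξ : Pl K → ℝ) {y : ℝ} (hy : 0 < y) :
    HasSum (fun x : {x : 𝓞 K // x ≠ 0} => φ x.1 * ∫ u in Set.Icc (0 : Fin (rk K) → ℝ) 1,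
      (gr (fun v => y * Real.exp (eta u v)) (x.1 : K) : ℂ) * chE ξ (eta u))
      (FF φ ξ y - φ 0 * kap ξ) := by
  haveI : Countable (𝓞 K) := (NumberField.RingOfIntegers.basis K).equivFun.injective.countable
  obtain ⟨c, hc, hce⟩ := exists_eta_lower (K := K)
  have he := continuous_eta (K := K)
  have h1 : Continuous fun u : Fin (rk K) → ℝ => (fun v => y * Real.exp (eta u v) : Pl K → ℝ) :=
    continuous_pi fun v => continuous_const.mul
      (Real.continuous_exp.comp ((continuous_apply v).comp he))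
  have h := hasSum_integral_of_summable_integral_norm
    (μ := volume.restrict (Set.Icc (0 : Fin (rk K) → ℝ) 1))
    (F := fun (x : 𝓞 K) (u : Fin (rk K) → ℝ) =>
      φ x * ((gr (fun v => y * Real.exp (eta u v)) (x : K) : ℂ) * chE ξ (eta u)))
    (fun x => (continuous_const.mul ((Complex.continuous_ofReal.comp ((continuous_gr _).comp h1)).mul
      ((continuous_chE ξ).comp he))).continuousOn.integrableOn_compact isCompact_Icc) (by
      refine Summable.of_nonneg_of_le (fun x => integral_nonneg fun _ => norm_nonneg _) (fun x => ?_)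
        ((summable_gr (t := fun _ => y * c) (fun _ => mul_pos hy hc) 0).mul_left M)
      refine (Real.le_norm_self _).trans (norm_cube_le fun u hu => ?_)
      rw [norm_norm, add_zero]
      exact norm_term_le hM ξ hy hce x hu)
  have h2 : ∫ u in Set.Icc (0 : Fin (rk K) → ℝ) 1, ∑' x : 𝓞 K,
      φ x * ((gr (fun v => y * Real.exp (eta u v)) (x : K) : ℂ) * chE ξ (eta u)) = FF φ ξ y := by
    unfold FF th
    simp only [← mul_assoc, tsum_mul_right]
  rw [h2] at h
  simp only [integral_const_mul] at h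
  have h3 := hasSum_ite_sub_hasSum h 0
  have h4 : ((0 : 𝓞 K) : K) = 0 := map_zero (algebraMap (𝓞 K) K)
  simp only [h4, gr_zero, Complex.ofReal_one, one_mul] at h3
  have h5 := (hasSum_subtype_iff_of_support_subset (s := {x : 𝓞 K | x ≠ 0}) (by
    intro x hx h0
    exact hx (if_pos h0))).2 h3
  have h6 : ∀ x : {x : 𝓞 K // x ≠ 0}, ¬ (x.1 = 0) := fun x => x.2
  simp only [Function.comp_def] at h5
  refine (funext fun x => ?_ : (fun x : {x : 𝓞 K // x ≠ 0} => _) = fun x => _) ▸ h5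
  exact if_neg x.2

theorem gr_decay {c : ℝ} (hc : 0 < c) : ∃ m : ℝ, 0 < m ∧ ∀ x : 𝓞 K, x ≠ 0 → ∀ y : ℝ, 1 ≤ y →
    gr (fun _ => y * c) (x : K) ≤
      Real.exp m * (gr (fun _ => c) (x : K) * Real.exp (-m * y)) := by
  set D := ∑ v : Pl K, dl v with hD
  have hle : ∀ v, dl v ≤ D := fun v =>
    Finset.single_le_sum (f := dl) (fun v _ => (dl_pos v).le) (Finset.mem_univ v)
  have hD0 : 0 < D := Finset.sum_pos (fun v _ => dl_pos v) Finset.univ_nonempty
  refine ⟨2 * Real.pi * (c / D), mul_pos Real.two_pi_pos (div_pos hc hD0), fun x hx y hy => ?_⟩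
  have h1 : c / D ≤ ∑ v : Pl K, c * ‖emb v (x : K)‖ ^ 2 / dl v := by
    calc c / D ≤ c / D * ∑ v : Pl K, ‖emb v (x : K)‖ ^ 2 :=
          le_mul_of_one_le_right (div_pos hc hD0).le (one_le_sum_sq hx)
      _ ≤ _ := by
          rw [Finset.mul_sum]
          refine Finset.sum_le_sum fun v _ => ?_
          rw [div_mul_eq_mul_div]
          exact div_le_div_of_nonneg_left (by positivity) (dl_pos v) (hle v)
  have h2 : ∑ v : Pl K, y * c * ‖emb v (x : K)‖ ^ 2 / dl v =
      y * ∑ v : Pl K, c * ‖emb v (x : K)‖ ^ 2 / dl v := by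
    rw [Finset.mul_sum]
    exact Finset.sum_congr rfl fun v _ => by ring
  unfold gr
  rw [h2, ← Real.exp_add, ← Real.exp_add, Real.exp_le_exp]
  have h3 := mul_nonneg Real.two_pi_pos.le (mul_nonneg (sub_nonneg.2 hy) (sub_nonneg.2 h1))
  nlinarith

/-- For `y ≥ 1`, `x ≠ 0`: put `S(x) = ∑ c |x_v|²/dl v ≥ m := c / max dl > 0` (`one_le_sum_sq`);
`y S ≥ S + (y-1) m`, so `‖FF y - φ 0 kap‖ ≤ M e^{2πm} (∑' gr (fun _ => c) x) e^{-2π m y}`;
`isLittleO_exp_neg_mul_rpow_atTop`. -/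
theorem FF_isBigO {φ : 𝓞 K → ℂ} {M : ℝ} (hM : ∀ x, ‖φ x‖ ≤ M) (ξ : Pl K → ℝ) (r : ℝ) :
    (fun y => FF φ ξ y - φ 0 * kap ξ) =O[Filter.atTop] (fun y : ℝ => y ^ r) := by
  have hM0 : 0 ≤ M := (norm_nonneg _).trans (hM 0)
  obtain ⟨c, hc, hce⟩ := exists_eta_lower (K := K)
  obtain ⟨m, hm, hmle⟩ := gr_decay (K := K) hc
  refine Asymptotics.IsBigO.trans ?_ (isLittleO_exp_neg_mul_rpow_atTop hm r).isBigO
  refine Asymptotics.IsBigO.of_bound
    (M * Real.exp m * ∑' x : {x : 𝓞 K // x ≠ 0}, gr (fun _ => c) ((x.1 : K) + 0)) ?_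
  filter_upwards [Filter.eventually_ge_atTop 1] with y hy
  have hy0 : 0 < y := lt_of_lt_of_le one_pos hy
  rw [Real.norm_eq_abs, abs_of_pos (Real.exp_pos _)]
  have h2 := ((((summable_gr (t := fun _ : Pl K => c) (fun _ => hc) 0).subtype
    (fun x => x ≠ 0)).hasSum.mul_left (M * Real.exp m)).mul_right (Real.exp (-m * y)))
  refine (hasSum_FF hM ξ hy0).norm_le_of_bounded h2 fun x => ?_
  rw [← integral_const_mul]
  refine norm_cube_le fun u hu => (norm_term_le hM ξ hy0 hce x.1 hu).trans ?_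
  simp only [Function.comp_apply, add_zero]
  rw [mul_assoc, mul_assoc]
  exact mul_le_mul_of_nonneg_left (hmle x.1 x.2 y hy) hM0

/-- the integrand of `FF` is invariant under `u ↦ u + n`, `n ∈ ℤ^r` (`th_unit`, `lg_prod_eps`, `exp_lg`,
`chE_lg_mul`) -/
theorem th_chE_periodic {φ : 𝓞 K → ℂ} {ξ : Pl K → ℝ} (he : Eqv ξ φ) (y : ℝ)
    (u : Fin (rk K) → ℝ) (n : Fin (rk K) → ℤ) :
    th φ (fun v => y * Real.exp (eta (u + fun j => (n j : ℝ)) v)) *
        chE ξ (eta (u + fun j => (n j : ℝ))) =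
      th φ (fun v => y * Real.exp (eta u v)) * chE ξ (eta u) := by
  have h1 : eta (u + fun j => (n j : ℝ)) = eta u + lg (((∏ j, eps j ^ n j : (𝓞 K)ˣ) : 𝓞 K) : K) := by
    rw [eta_add]
    congr 1
    exact funext fun v => (lg_prod_eps n v).symm
  have h2 := th_unit he (∏ j, eps j ^ n j) (fun v => y * Real.exp (eta u v))
  have h3 := chE_lg_mul ξ (((∏ j, eps j ^ n j : (𝓞 K)ˣ) : 𝓞 K) : K)
  rw [h1, chE_add]
  simp only [Pi.add_apply, Real.exp_add, exp_lg (unit_ne_zero _), ← mul_assoc]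
  rw [h2]
  linear_combination (th φ (fun v => y * Real.exp (eta u v)) * chE ξ (eta u)) * h3

omit [Fld K] in
/-- `u ↦ 1 - u` preserves the cube and the measure (`Measure.measurePreserving_sub_left`,
`MeasurePreserving.setIntegral_preimage_emb`) -/
theorem integral_cube_reflect (g : (Fin (rk K) → ℝ) → ℂ) :
    ∫ u in Set.Icc (0 : Fin (rk K) → ℝ) 1, g (1 - u) = ∫ u in Set.Icc (0 : Fin (rk K) → ℝ) 1, g u := by
  have h := (Measure.measurePreserving_sub_left (volume : Measure (Fin (rk K) → ℝ))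
    1).setIntegral_preimage_emb (Homeomorph.subLeft (1 : Fin (rk K) → ℝ)).measurableEmbedding g
    (Set.Icc 0 1)
  rwa [Set.preimage_const_sub_Icc, sub_self, sub_zero] at h

/-- **Functional equation.** `th_poisson` with `t = e^{eta u}/y`, `∏ t = y^{-d}` (`sum_eta`); then
`-u = (1 - u) + (-1)`, `th_chE_periodic` for `ft q φ` (`ft_eqv`) and `integral_cube_reflect`. -/
theorem FF_feq {q : ℕ} (hq : q ≠ 0) {φ : 𝓞 K → ℂ} (hφ : PerO q φ) {ξ : Pl K → ℝ} (he : Eqv ξ φ)
    {y : ℝ} (hy : 0 < y) :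
    FF φ ξ (1 / y) = (((q : ℂ) ^ (2 * dd K))⁻¹ * ((y ^ (dd K : ℝ) : ℝ) : ℂ)) *
      FF (ft q φ) (-ξ) (y * ((q : ℝ) ^ 2)⁻¹) := by
  unfold FF
  rw [← integral_cube_reflect (fun u => th (ft q φ)
    (fun v => y * ((q : ℝ) ^ 2)⁻¹ * Real.exp (eta u v)) * chE (-ξ) (eta u)), ← integral_const_mul]
  refine integral_congr_ae (Filter.Eventually.of_forall fun u => ?_)
  have h1 := th_chE_periodic (ft_eqv hq hφ he) (y * ((q : ℝ) ^ 2)⁻¹) (-u) 1
  have h2 : (-u + fun j => (((1 : Fin (rk K) → ℤ) j : ℤ) : ℝ)) = 1 - u := by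
    funext j
    simp only [Pi.add_apply, Pi.neg_apply, Pi.one_apply, Int.cast_one, Pi.sub_apply]
    ring
  rw [h2, eta_neg, chE_neg, neg_neg] at h1
  have h3 := th_poisson hq hφ (t := fun v => 1 / y * Real.exp (eta u v))
    (fun v => mul_pos (one_div_pos.2 hy) (Real.exp_pos _))
  have h4 : ∏ v : Pl K, 1 / y * Real.exp (eta u v) = (y ^ dd K)⁻¹ := by
    rw [Finset.prod_mul_distrib, ← Real.exp_sum, sum_eta, Real.exp_zero, mul_one, Finset.prod_const,
      Finset.card_univ, one_div, inv_pow]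
    rfl
  have h5 : (fun v => ((q : ℝ) ^ 2 * (1 / y * Real.exp (eta u v)))⁻¹) =
      fun v => y * ((q : ℝ) ^ 2)⁻¹ * Real.exp ((-eta u) v) := by
    funext v
    rw [Pi.neg_apply, Real.exp_neg, mul_inv, mul_inv, one_div, inv_inv]
    ring
  simp only
  rw [h1, h3, h4, h5, Real.rpow_natCast, mul_inv, inv_inv]
  push_cast
  ring

end Crest.Agent.R312.TC.BL
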