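import Crest.Agent.R27.T3Emb
import Crest.Agent.R312.B3PoisZ

/-!
PORT (helper4, rid 27) of `R312/B3Unit.lean` to totally complex fields (`R27/TDefs.lean`); same proofs.

# R312 / B3Unit : the unit lattice in `Pl K → ℝ`, its dual, fundamental domain, unfolding, Fourier
expansion (owner helper6)

`uco : (Pl K → ℝ) ≃L ℝ × (UI K → ℝ)` are coordinates with `(uco η).1 = ∑ η`, in which the unit lattice
`lam n = lg (upow n)` is `0 × ℤ^{UI K}`; `xi m` is the dual lattice.
-/

set_option autoImplicit false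
set_option linter.unusedSectionVars false

noncomputable section

open scoped Classical ComplexConjugate NumberField
open MeasureTheory

namespace Crest.Agent.R312.TC

variable (K : Type) [Field K] [NumberField K] [Fld K]

/-- index set of the fundamental units -/
abbrev UI : Type := Fin (NumberField.Units.rank K)

variable {K}

omit [Fld K] in
/-- `∏ ε_i ^ n_i` -/
def upow (n : UI K → ℤ) : (𝓞 K)ˣ := ∏ i, NumberField.Units.fundSystem K i ^ n i

/-- the unit lattice -/
def lam (n : UI K → ℤ) : Pl K → ℝ := lg (((upow n : (𝓞 K)ˣ) : 𝓞 K) : K)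

omit [Fld K] in
variable (K) in
/-- Dirichlet's unit theorem -/
def uEquiv : NumberField.Units.torsion K × (UI K → ℤ) ≃ (𝓞 K)ˣ :=
  Equiv.ofBijective (fun p => (p.1 : (𝓞 K)ˣ) * upow p.2) (by
    rw [Function.bijective_iff_existsUnique]
    intro x
    simpa only [eq_comm, upow] using NumberField.Units.exist_unique_eq_mul_prod K x)

omit [Fld K] in
theorem uEquiv_apply (p : NumberField.Units.torsion K × (UI K → ℤ)) :
    uEquiv K p = (p.1 : (𝓞 K)ˣ) * upow p.2 := rfl

theorem norm_emb_torsion (ζ : NumberField.Units.torsion K) (v : Pl K) :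
    ‖emb v ((((ζ : (𝓞 K)ˣ) : 𝓞 K)) : K)‖ = 1 := by
  rw [← plEquiv_apply]
  exact (NumberField.Units.mem_torsion K).1 ζ.2 _

omit [NumberField K] [Fld K] in
theorem un_ne (u : (𝓞 K)ˣ) : ((u : 𝓞 K) : K) ≠ 0 :=
  NumberField.RingOfIntegers.coe_ne_zero_iff.2 u.ne_zero

theorem lg_uEquiv (p : NumberField.Units.torsion K × (UI K → ℤ)) :
    lg (((uEquiv K p : (𝓞 K)ˣ) : 𝓞 K) : K) = lam p.2 := by
  rw [uEquiv_apply, Units.val_mul, NumberField.RingOfIntegers.coe_eq_algebraMap, map_mul,
    lg_mul' (un_ne _) (un_ne _), lam]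
  funext v
  have := norm_emb_torsion p.1 v
  rw [NumberField.RingOfIntegers.coe_eq_algebraMap] at this
  simp [lg, this]

theorem sum_lg_unit (u : (𝓞 K)ˣ) : ∑ v, lg ((u : 𝓞 K) : K) v = 0 := by
  rw [sum_lg (un_ne u), aN_unit, Real.log_one]

theorem sum_lam (n : UI K → ℤ) : ∑ v, lam n v = 0 := sum_lg_unit _

theorem lam_eq_sum (n : UI K → ℤ) : lam n = fun v =>
    ∑ j, (n j : ℝ) * lg (((NumberField.Units.fundSystem K j : (𝓞 K)ˣ) : 𝓞 K) : K) v := by
  funext v
  let φ : (𝓞 K)ˣ →* Multiplicative ℝ :=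
    { toFun := fun u => Multiplicative.ofAdd (lg ((u : 𝓞 K) : K) v)
      map_one' := by simp [lg_one]
      map_mul' := fun a b => by
        rw [← ofAdd_add, ← lg_mul (un_ne a) (un_ne b)]
        simp }
  have h := congrArg Multiplicative.toAdd (map_prod φ
    (fun i => NumberField.Units.fundSystem K i ^ n i) Finset.univ)
  simp only [map_zpow, toAdd_prod, toAdd_zpow, zsmul_eq_mul] at h
  exact h

theorem exists_uco (K : Type) [Field K] [NumberField K] [Fld K] :
    ∃ e : (Pl K → ℝ) ≃L[ℝ] ℝ × (UI K → ℝ), (∀ η, (e η).1 = ∑ v, η v) ∧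
      (∀ n, e (lam n) = (0, fun i => (n i : ℝ))) ∧ ∀ w : ℝ, e (fun _ => w) = (dd K * w, 0) := by
  have hd : (dd K : ℝ) ≠ 0 := Nat.cast_ne_zero.2 dd_pos.ne'
  let Ψ : (ℝ × (UI K → ℝ)) →ₗ[ℝ] (Pl K → ℝ) :=
    { toFun := fun p v => p.1 / dd K +
        ∑ j, p.2 j * lg (((NumberField.Units.fundSystem K j : (𝓞 K)ˣ) : 𝓞 K) : K) v
      map_add' := fun p q => by
        funext v
        simp only [Prod.fst_add, Prod.snd_add, Pi.add_apply, add_mul, Finset.sum_add_distrib]
        ring
      map_smul' := fun c p => by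
        funext v
        simp only [Prod.smul_fst, Prod.smul_snd, Pi.smul_apply, smul_eq_mul, RingHom.id_apply,
          mul_add, Finset.mul_sum, mul_assoc, mul_div_assoc] }
  have hΨ : ∀ p v, Ψ p v = p.1 / dd K +
      ∑ j, p.2 j * lg (((NumberField.Units.fundSystem K j : (𝓞 K)ˣ) : 𝓞 K) : K) v := fun _ _ => rfl
  have hsum : ∀ p, ∑ v, Ψ p v = p.1 := fun p => by
    simp only [hΨ, Finset.sum_add_distrib]
    rw [Finset.sum_comm]
    simp only [← Finset.mul_sum, sum_lg_unit, mul_zero, Finset.sum_const_zero, add_zero,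
      Finset.sum_const, Finset.card_univ, nsmul_eq_mul]
    rw [← dd]
    field_simp
  have hinj : Function.Injective Ψ := (injective_iff_map_eq_zero Ψ).2 fun p hp => by
    have h1 : p.1 = 0 := by rw [← hsum p, hp]; simp
    refine Prod.ext h1 (funext fun j => Fintype.linearIndependent_iff.1
      (NumberField.Units.isMaxRank_fundSystem K) p.2 (funext fun w => ?_) j)
    obtain ⟨w, hw⟩ := w
    obtain ⟨v, rfl⟩ := (plEquiv K).surjective w
    have h2 := congrFun hp v
    rw [hΨ, h1, zero_div, zero_add] at h2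
    simp only [Finset.sum_apply, Pi.smul_apply, smul_eq_mul,
      NumberField.Units.dirichletUnitTheorem.logEmbedding_component, plEquiv_mult]
    simp only [lg, Real.log_pow] at h2
    exact h2
  have hdim : Module.finrank ℝ (ℝ × (UI K → ℝ)) = Module.finrank ℝ (Pl K → ℝ) := by
    have := Fintype.card_congr (plEquiv K)
    have h0 : 0 < Fintype.card (Pl K) := dd_pos
    simp only [Module.finrank_prod, Module.finrank_self, Module.finrank_fintype_fun_eq_card,
      Fintype.card_fin, NumberField.Units.rank]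
    omega
  let E := (Ψ.linearEquivOfInjective hinj hdim).toContinuousLinearEquiv
  have hE : ∀ p, E p = Ψ p := fun _ => rfl
  refine ⟨E.symm, fun η => ?_, fun n => ?_, fun w => ?_⟩
  · rw [← hsum, ← hE, E.apply_symm_apply]
  · rw [E.symm_apply_eq, hE, lam_eq_sum]
    funext v
    simp [hΨ]
  · rw [E.symm_apply_eq, hE]
    funext v
    simp [hΨ, hd]

variable (K) in
/-- coordinates adapted to the unit lattice -/
def uco : (Pl K → ℝ) ≃L[ℝ] ℝ × (UI K → ℝ) := (exists_uco K).choose

theorem uco_fst (η : Pl K → ℝ) : (uco K η).1 = ∑ v, η v := (exists_uco K).choose_spec.1 η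

theorem uco_lam (n : UI K → ℤ) : uco K (lam n) = (0, fun i => (n i : ℝ)) :=
  (exists_uco K).choose_spec.2.1 n

theorem uco_const (w : ℝ) : uco K (fun _ => w) = (dd K * w, 0) := (exists_uco K).choose_spec.2.2 w

theorem lam_single (j : UI K) : lam (Pi.single j 1) =
    lg (((NumberField.Units.fundSystem K j : (𝓞 K)ˣ) : 𝓞 K) : K) := by
  rw [lam_eq_sum]
  funext v
  simp [Pi.single_apply]

theorem uco_symm_apply (w : ℝ) (t : UI K → ℝ) : (uco K).symm (w, t) = fun v => w / dd K +
    ∑ j, t j * lg (((NumberField.Units.fundSystem K j : (𝓞 K)ˣ) : 𝓞 K) : K) v := by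
  have hd : (dd K : ℝ) ≠ 0 := Nat.cast_ne_zero.2 dd_pos.ne'
  rw [ContinuousLinearEquiv.symm_apply_eq]
  have e : (fun v => w / dd K +
      ∑ j, t j * lg (((NumberField.Units.fundSystem K j : (𝓞 K)ˣ) : 𝓞 K) : K) v) =
      (fun _ => w / dd K) + ∑ j, t j • lam (Pi.single j 1) := by
    funext v
    simp [lam_single]
  rw [e, map_add, uco_const, map_sum]
  simp only [map_smul, uco_lam]
  refine Prod.ext ?_ (funext fun i => ?_)
  · simp [Prod.fst_sum, mul_div_cancel₀ _ hd]
  · simp [Prod.snd_sum, Pi.single_apply]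

theorem lam_add (n n' : UI K → ℤ) : lam (n + n') = lam n + lam n' := by
  funext v
  simp [lam_eq_sum, add_mul, Finset.sum_add_distrib]

theorem lam_neg (n : UI K → ℤ) : lam (-n) = -lam n := by
  funext v
  simp [lam_eq_sum]

theorem lam_injective : Function.Injective (lam : (UI K → ℤ) → Pl K → ℝ) := fun n n' h => by
  have h1 := uco_lam n
  rw [h, uco_lam] at h1
  funext i
  exact Int.cast_injective (α := ℝ) (congrFun (Prod.ext_iff.1 h1).2 i).symm

/-- the dual lattice -/
def xi (m : UI K → ℤ) : Pl K → ℝ :=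
  fun v => 2 * Real.pi * ∑ i, m i * (uco K (Pi.single v 1)).2 i

theorem xi_pair (m : UI K → ℤ) (η : Pl K → ℝ) :
    ∑ v, xi m v * η v = 2 * Real.pi * ∑ i, m i * (uco K η).2 i := by
  conv_rhs => rw [pi_eq_sum_univ' η, map_sum]
  simp only [xi, map_smul, Prod.snd_sum, Finset.sum_apply, Prod.smul_snd, Pi.smul_apply, smul_eq_mul,
    Finset.mul_sum, Finset.sum_mul]
  rw [Finset.sum_comm]
  exact Finset.sum_congr rfl fun i _ => Finset.sum_congr rfl fun v _ => by ring

theorem sum_xi (m : UI K → ℤ) : ∑ v, xi m v = 0 := by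
  simpa [uco_const] using xi_pair m fun _ => 1

theorem xi_zero : xi (0 : UI K → ℤ) = 0 := by
  funext v
  simp [xi]

theorem xi_lam (m n : UI K → ℤ) :
    ∑ v, xi m v * lam n v = 2 * Real.pi * ((∑ i, m i * n i : ℤ) : ℝ) := by
  rw [xi_pair, uco_lam]
  push_cast
  rfl

theorem xi_lam_single (m : UI K → ℤ) (j : UI K) :
    ∑ v, xi m v * lam (Pi.single j 1) v = 2 * Real.pi * m j := by
  rw [xi_lam]
  simp [Pi.single_apply]

theorem xi_injective : Function.Injective (xi : (UI K → ℤ) → Pl K → ℝ) := fun m m' h => by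
  funext j
  have h1 := xi_lam_single m j
  rw [h, xi_lam_single] at h1
  exact_mod_cast (mul_left_cancel₀ Real.two_pi_pos.ne' h1).symm

theorem ch_xi_unit (m : UI K → ℤ) (u : (𝓞 K)ˣ) : ch (xi m) ((u : 𝓞 K) : K) = 1 := by
  obtain ⟨p, rfl⟩ := (uEquiv K).surjective u
  rw [ch, lg_uEquiv, xi_lam, ← Complex.exp_int_mul_two_pi_mul_I (∑ i, m i * p.2 i)]
  congr 1
  push_cast
  ring

theorem exists_xi {ξ : Pl K → ℝ} (h0 : ∑ v, ξ v = 0)
    (h : ∀ u : (𝓞 K)ˣ, ch ξ ((u : 𝓞 K) : K) = 1) : ∃ m, ξ = xi m := by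
  have h1 : ∀ j, ∃ n : ℤ, ∑ v, ξ v * lam (Pi.single j 1) v = 2 * Real.pi * n := fun j => by
    obtain ⟨n, hn⟩ := Complex.exp_eq_one_iff.1 (h (NumberField.Units.fundSystem K j))
    refine ⟨n, ?_⟩
    rw [lam_single]
    apply Complex.ofReal_injective
    apply mul_right_cancel₀ Complex.I_ne_zero
    rw [hn]
    push_cast
    ring
  choose m hm using h1
  have key : ∀ {ξ : Pl K → ℝ}, ∑ v, ξ v = 0 →
      (∀ j, ∑ v, ξ v * lam (Pi.single j 1) v = 2 * Real.pi * m j) → ∀ η : Pl K → ℝ,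
      ∑ v, ξ v * η v = ∑ j, (uco K η).2 j * (2 * Real.pi * m j) := fun {ξ} h0 hm η => by
    conv_lhs => rw [← (uco K).symm_apply_apply η, ← Prod.mk.eta (p := uco K η), uco_symm_apply]
    simp only [mul_add, Finset.sum_add_distrib, ← Finset.sum_mul, h0, zero_mul, zero_add,
      Finset.mul_sum, ← hm, lam_single]
    rw [Finset.sum_comm]
    exact Finset.sum_congr rfl fun i _ => Finset.sum_congr rfl fun v _ => by ring
  refine ⟨m, funext fun v => ?_⟩
  have := (key h0 hm (Pi.single v 1)).trans (key (sum_xi m) (xi_lam_single m) (Pi.single v 1)).symm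
  simpa [Pi.single_apply] using this

theorem norm_le_xi : ∃ M : ℝ, 1 ≤ M ∧ ∀ m : UI K → ℤ, ‖(fun i => (m i : ℝ))‖ ≤ M * ‖xi m‖ := by
  refine ⟨1 + ∑ j : UI K, ∑ v, |lam (Pi.single j 1) v|, le_add_of_nonneg_right (by positivity),
    fun m => (pi_norm_le_iff_of_nonneg (by positivity)).2 fun j => ?_⟩
  have h1 : |2 * Real.pi * m j| ≤ (∑ v, |lam (Pi.single j 1) v|) * ‖xi m‖ := by
    rw [← xi_lam_single, Finset.sum_mul]
    refine (Finset.abs_sum_le_sum_abs _ _).trans (Finset.sum_le_sum fun v _ => ?_)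
    rw [abs_mul, mul_comm]
    exact mul_le_mul_of_nonneg_left (norm_le_pi_norm (xi m) v) (abs_nonneg _)
  have h2 : ∑ v, |lam (Pi.single j 1) v| ≤ ∑ j : UI K, ∑ v, |lam (Pi.single j 1) v| :=
    Finset.single_le_sum (f := fun j : UI K => ∑ v, |lam (Pi.single j 1) v|)
      (fun _ _ => by positivity) (Finset.mem_univ j)
  rw [abs_mul, abs_of_pos Real.two_pi_pos] at h1
  rw [Real.norm_eq_abs]
  nlinarith [Real.pi_gt_three, abs_nonneg (m j : ℝ), norm_nonneg (xi m)]

theorem summable_exp_xi {c : ℝ} (hc : 0 < c) :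
    Summable fun m : UI K → ℤ => Real.exp (-(c * ‖xi m‖)) := by
  obtain ⟨M, hM, h⟩ := norm_le_xi (K := K)
  have hM0 : 0 < M := by linarith
  refine (summable_exp_neg_norm_int (ι := UI K) (div_pos hc hM0)).of_nonneg_of_le
    (fun _ => (Real.exp_pos _).le) fun m => ?_
  rw [Real.exp_le_exp, neg_le_neg_iff, div_mul_eq_mul_div, div_le_iff₀ hM0]
  nlinarith [h m]

theorem summable_pow_xi : ∃ k : ℕ, Summable fun m : UI K → ℤ => ((1 + ‖xi m‖) ^ k)⁻¹ := by
  obtain ⟨M, hM, h⟩ := norm_le_xi (K := K)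
  have h1 : Summable fun n : ℤ => ((1 + |(n : ℝ)|) ^ 2)⁻¹ := by
    have h : Summable fun n : ℕ => ((1 + (n : ℝ)) ^ 2)⁻¹ := by
      simpa [add_comm] using (summable_nat_add_iff 1).2 (Real.summable_nat_pow_inv.2 one_lt_two)
    exact Summable.of_nat_of_neg (by simpa using h) (by simpa using h)
  refine ⟨2 * Fintype.card (UI K), ((summable_pi_prod (f := fun (_ : UI K) (n : ℤ) =>
    ((1 + |(n : ℝ)|) ^ 2)⁻¹) (fun _ _ => by positivity) fun _ => h1).mul_left
      (M ^ (2 * Fintype.card (UI K)))).of_nonneg_of_le (fun _ => by positivity) fun m => ?_⟩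
  rw [Finset.prod_inv_distrib, ← div_eq_mul_inv, inv_eq_one_div,
    div_le_div_iff₀ (by positivity) (by positivity), one_mul, ← mul_pow, pow_mul,
    ← Finset.card_univ, ← Finset.prod_const]
  refine Finset.prod_le_prod (fun _ _ => by positivity) fun i _ =>
    pow_le_pow_left₀ (by positivity) ?_ 2
  have := (norm_le_pi_norm (fun i => (m i : ℝ)) i).trans (h m)
  rw [Real.norm_eq_abs] at this
  linarith

theorem summable_exp_lam {c : ℝ} (hc : 0 < c) :
    Summable fun n : UI K → ℤ => Real.exp (-(c * ‖lam n‖)) := by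
  have hM : 0 < ‖(uco K : (Pl K → ℝ) →L[ℝ] ℝ × (UI K → ℝ))‖ + 1 := by positivity
  refine (summable_exp_neg_norm_int (ι := UI K) (div_pos hc hM)).of_nonneg_of_le
    (fun _ => (Real.exp_pos _).le) fun n => ?_
  rw [Real.exp_le_exp, neg_le_neg_iff, div_mul_eq_mul_div, div_le_iff₀ hM, mul_assoc]
  refine mul_le_mul_of_nonneg_left ?_ hc.le
  have h2 := (norm_snd_le _).trans ((uco K : (Pl K → ℝ) →L[ℝ] ℝ × (UI K → ℝ)).le_opNorm (lam n))
  rw [ContinuousLinearEquiv.coe_coe, uco_lam] at h2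
  nlinarith [norm_nonneg (lam n)]

theorem exists_ucJ (K : Type) [Field K] [NumberField K] [Fld K] : ∃ J : ℝ, 0 < J ∧
    Measure.map (uco K) volume = ENNReal.ofReal J • (volume : Measure (ℝ × (UI K → ℝ))) := by
  refine ⟨Measure.addHaarScalarFactor (Measure.map (uco K) volume) volume,
    Measure.addHaarScalarFactor_pos_of_isAddHaarMeasure _ _, ?_⟩
  rw [ENNReal.ofReal_coe_nnreal]
  exact Measure.isAddLeftInvariant_eq_smul _ _

variable (K) in
/-- the Jacobian of `uco` -/
def ucJ : ℝ := (exists_ucJ K).choose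

theorem ucJ_pos : 0 < ucJ K := (exists_ucJ K).choose_spec.1

theorem map_uco : Measure.map (uco K) volume =
    ENNReal.ofReal (ucJ K) • (volume : Measure (ℝ × (UI K → ℝ))) := (exists_ucJ K).choose_spec.2

theorem integral_uco (F : ℝ × (UI K → ℝ) → ℂ) : ∫ η, F (uco K η) = (ucJ K : ℂ) * ∫ p, F p := by
  have h := integral_map_equiv (μ := (volume : Measure (Pl K → ℝ)))
    (uco K).toHomeomorph.toMeasurableEquiv F
  simp only [Homeomorph.toMeasurableEquiv_coe, ContinuousLinearEquiv.coe_toHomeomorph] at h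
  rw [← h, map_uco, integral_smul_measure, ENNReal.toReal_ofReal ucJ_pos.le, Complex.real_smul]

theorem integrable_uco {F : ℝ × (UI K → ℝ) → ℂ} : Integrable (fun η => F (uco K η)) ↔ Integrable F := by
  have h := integrable_map_equiv (μ := (volume : Measure (Pl K → ℝ)))
    (uco K).toHomeomorph.toMeasurableEquiv F
  simp only [Homeomorph.toMeasurableEquiv_coe, ContinuousLinearEquiv.coe_toHomeomorph] at h
  rw [map_uco, integrable_smul_measure (by simpa using ucJ_pos) ENNReal.ofReal_ne_top] at h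
  exact h.symm

variable (K) in
/-- fundamental domain for the unit lattice -/
def FD : Set (Pl K → ℝ) := {η | ∀ i, (uco K η).2 i ∈ Set.Ico (0 : ℝ) 1}

theorem measurableSet_FD : MeasurableSet (FD K) := (uco K).continuous.measurable.snd measurableSet_cube

/-- on `FD` the point stays within bounded distance of the diagonal -/
theorem FD_bound : ∃ C : ℝ, ∀ η ∈ FD K, ∀ v, |η v - (∑ v, η v) / dd K| ≤ C := by
  refine ⟨∑ j, ‖lam (Pi.single j 1 : UI K → ℤ)‖, fun η hη v => ?_⟩
  have h := congrFun (uco_symm_apply (uco K η).1 (uco K η).2) v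
  rw [Prod.mk.eta, ContinuousLinearEquiv.symm_apply_apply, uco_fst] at h
  rw [h, add_sub_cancel_left]
  refine (Finset.abs_sum_le_sum_abs _ _).trans (Finset.sum_le_sum fun j _ => ?_)
  rw [abs_mul, ← lam_single, abs_of_nonneg (hη j).1]
  exact (mul_le_of_le_one_left (abs_nonneg _) (hη j).2.le).trans 
    (norm_le_pi_norm (lam (Pi.single j 1 : UI K → ℤ)) v)

theorem existsUnique_mem_FD (η : Pl K → ℝ) : ∃! n, η + lam n ∈ FD K := by
  have h : ∀ n, η + lam n ∈ FD K ↔ n = fun i => -⌊(uco K η).2 i⌋ := fun n => by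
    simp only [FD, Set.mem_ofPred_eq, map_add, uco_lam, Prod.snd_add, Pi.add_apply, funext_iff]
    refine forall_congr' fun i => ?_
    rw [eq_neg_iff_add_eq_zero, add_comm (n i), ← Int.floor_add_intCast, Int.floor_eq_zero_iff]
  simp only [h]
  exact existsUnique_eq

theorem exists_mem_FD (η : Pl K → ℝ) : ∃ n, η + lam n ∈ FD K := (existsUnique_mem_FD η).exists

/-- every element has a balanced associate -/
theorem exists_balanced : ∃ C : ℝ, ∀ x : K, x ≠ 0 → ∃ u : (𝓞 K)ˣ, ∀ v,
    |lg (((u : 𝓞 K) : K) * x) v - Real.log (aN x) / dd K| ≤ C := by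
  obtain ⟨C, hC⟩ := FD_bound (K := K)
  refine ⟨C, fun x hx => ?_⟩
  obtain ⟨n, hn⟩ := exists_mem_FD (lg x)
  refine ⟨upow n, fun v => ?_⟩
  have h := hC _ hn v
  simp only [Pi.add_apply, Finset.sum_add_distrib, sum_lam, add_zero, sum_lg hx] at h
  rwa [lg_mul (un_ne _) hx, add_comm]

/-- the coordinates along the unit lattice -/
def un_ell : (Pl K → ℝ) →+ (UI K → ℝ) where
  toFun η := (uco K η).2
  map_zero' := by simp
  map_add' a b := by simp

theorem un_ell_meas : Measurable (un_ell : (Pl K → ℝ) →+ (UI K → ℝ)) :=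
  (uco K).continuous.measurable.snd

theorem un_ell_lam (n : UI K → ℤ) (i : UI K) : un_ell (lam n) i = n i :=
  congrFun (congrArg Prod.snd (uco_lam n)) i

/-- **Unfolding** -/
theorem hasSum_FD {g : (Pl K → ℝ) → ℂ} (hg : Integrable g) :
    HasSum (fun n : UI K → ℤ => ∫ η in FD K, g (η + lam n)) (∫ η, g η) :=   hasSum_unfold volume un_ell un_ell_meas lam un_ell_lam hg

theorem lintegral_FD (g : (Pl K → ℝ) → ENNReal) :
    ∑' n : UI K → ℤ, ∫⁻ η in FD K, g (η + lam n) = ∫⁻ η, g η :=   lintegral_unfold volume un_ell un_ell_meas lam un_ell_lam g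

theorem integral_FD_tsum {g : (Pl K → ℝ) → ℂ} (hg : Integrable g) :
    ∫ η in FD K, ∑' n : UI K → ℤ, g (η + lam n) = ∫ η, g η := by
  rw [integral_tsum (fun n => (hg.comp_add_right (lam n)).aestronglyMeasurable.restrict)
    (by rw [lintegral_FD fun η => ‖g η‖ₑ]; exact hg.2.ne), (hasSum_FD hg).tsum_eq]

/-- integrals over `FD` in coordinates -/
theorem integral_FD_coord (g : (Pl K → ℝ) → ℂ) : ∫ η in FD K, g η = (ucJ K : ℂ) *
    ∫ p in (Set.univ : Set ℝ) ×ˢ {t : UI K → ℝ | ∀ i, t i ∈ Set.Ico (0 : ℝ) 1},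
      g ((uco K).symm p) := by
  rw [← integral_indicator (MeasurableSet.univ.prod measurableSet_cube), ← integral_uco,
    ← integral_indicator measurableSet_FD]
  refine integral_congr_ae (ae_of_all _ fun η => ?_)
  simp [Set.indicator, FD]

theorem un_fd_eq {g : (Pl K → ℝ) → ℂ} (hper : ∀ η n, g (η + lam n) = g η) {S : Set (Pl K → ℝ)}
    (hS : MeasurableSet S) (h : ∀ η, ∃! n, η + lam n ∈ S) : ∫ η in S, g η = ∫ η in FD K, g η := by
  let lamH : (UI K → ℤ) →+ (Pl K → ℝ) := AddMonoidHom.mk' lam lam_add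
  have : Countable lamH.range := (Set.countable_range lamH).to_subtype
  have key : ∀ {S : Set (Pl K → ℝ)}, MeasurableSet S → (∀ η, ∃! n, η + lam n ∈ S) →
      IsAddFundamentalDomain lamH.range S volume := fun hS h =>
    IsAddFundamentalDomain.mk' hS.nullMeasurableSet fun η => by
      obtain ⟨n, hn, hu⟩ := h η
      refine ⟨⟨_, n, rfl⟩, by rwa [add_comm] at hn, ?_⟩
      rintro ⟨_, n', rfl⟩ h'
      exact Subtype.ext (congrArg lam (hu n' (by beta_reduce; rw [add_comm]; exact h')))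
  refine (key hS h).setIntegral_eq (key measurableSet_FD existsUnique_mem_FD) ?_
  rintro ⟨_, n, rfl⟩ η
  exact (congrArg g (add_comm _ _)).trans (hper η n)

/-- the reflection `η ↦ -η` does not change integrals of periodic functions over `FD` -/
theorem integral_FD_neg {g : (Pl K → ℝ) → ℂ} (hper : ∀ η n, g (η + lam n) = g η) :
    ∫ η in FD K, g (-η) = ∫ η in FD K, g η := by
  rw [← un_fd_eq hper (S := Neg.neg ⁻¹' FD K) (measurable_neg measurableSet_FD) fun η => ?_]
  · simpa only [neg_neg] using ((Measure.measurePreserving_neg volume).setIntegral_preimage_emb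
      (MeasurableEquiv.neg _).measurableEmbedding (fun η => g (-η)) (FD K)).symm
  · refine ((Equiv.neg _).existsUnique_congr fun n => ?_).2 (existsUnique_mem_FD (-η))
    simp [lam_neg, add_comm]

/-- nor do translations -/
theorem integral_FD_add {g : (Pl K → ℝ) → ℂ} (hper : ∀ η n, g (η + lam n) = g η) (a : Pl K → ℝ) :
    ∫ η in FD K, g (η + a) = ∫ η in FD K, g η := by
  rw [← un_fd_eq hper (S := (fun η => η + -a) ⁻¹' FD K) (measurable_add_const _ measurableSet_FD)
    fun η => ?_]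
  · simpa only [neg_add_cancel_right] using ((measurePreserving_add_right volume
      (-a)).setIntegral_preimage_emb (measurableEmbedding_addRight (-a)) (fun η => g (η + a)) (FD K)).symm
  · simpa only [Set.mem_preimage, add_right_comm η _ (-a)] using existsUnique_mem_FD (η + -a)

/-- **Fourier expansion** of a sum over the unit lattice -/
theorem unit_fourier {g : (Pl K → ℝ) → ℂ} (hg : Continuous g) {C c : ℝ} (hc : 0 < c)
    (hdec : ∀ η, ‖g η‖ ≤ C * Real.exp (-(c * ‖η‖))) {F : (Pl K → ℝ) → ℂ}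
    (hF : ∀ ζ, F ζ = ∫ η, g η * Complex.exp (-(((∑ v, ζ v * η v : ℝ) : ℂ) * Complex.I)))
    (hi : ∀ m, Integrable fun τ : ℝ => F fun v => xi m v + τ)
    (hs : Summable fun m => ∫ τ : ℝ, ‖F fun v => xi m v + τ‖) (η : Pl K → ℝ) :
    ∑' n : UI K → ℤ, g (η + lam n) = ((2 * Real.pi * ucJ K : ℝ) : ℂ)⁻¹ *
      ∑' m : UI K → ℤ, ∫ τ : ℝ, (F fun v => xi m v + τ) *
        Complex.exp (((∑ v, (xi m v + τ) * η v : ℝ) : ℂ) * Complex.I) := by
  have hC : 0 ≤ C := by simpa using (norm_nonneg _).trans (hdec 0)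
  have hM : 0 < ‖(uco K : (Pl K → ℝ) →L[ℝ] ℝ × (UI K → ℝ))‖ + 1 := by positivity
  have hJ : ((ucJ K : ℝ) : ℂ) ≠ 0 := Complex.ofReal_ne_zero.2 ucJ_pos.ne'
  have he : ∀ (m : UI K → ℤ) (τ : ℝ) (η : Pl K → ℝ),
      ((∑ v, (xi m v + 2 * Real.pi * τ) * η v : ℝ) : ℂ) * Complex.I =
        2 * Real.pi * Complex.I * ((τ * (uco K η).1 + ∑ i, m i * (uco K η).2 i : ℝ) : ℂ) := by
    intro m τ η
    simp only [add_mul, Finset.sum_add_distrib, xi_pair, ← Finset.mul_sum, uco_fst]
    push_cast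
    ring
  have h := poisson_partial (G := fun p => g ((uco K).symm p)) (by fun_prop) (C := C)
    (div_pos hc hM) (fun p => (hdec _).trans (mul_le_mul_of_nonneg_left (by
      rw [Real.exp_le_exp, neg_le_neg_iff, div_mul_eq_mul_div, div_le_iff₀ hM, mul_assoc]
      refine mul_le_mul_of_nonneg_left ?_ hc.le
      have h2 := (uco K : (Pl K → ℝ) →L[ℝ] ℝ × (UI K → ℝ)).le_opNorm ((uco K).symm p)
      rw [ContinuousLinearEquiv.coe_coe, ContinuousLinearEquiv.apply_symm_apply] at h2
      nlinarith [norm_nonneg ((uco K).symm p)]) hC))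
    (F := fun m τ => ((ucJ K : ℝ) : ℂ)⁻¹ * F fun v => xi m v + 2 * Real.pi * τ)
    (fun m τ => by
      rw [inv_mul_eq_iff_eq_mul₀ hJ, ← integral_uco, hF]
      simp only [he, ContinuousLinearEquiv.symm_apply_apply, eR, Complex.ofReal_neg, mul_neg])
    (fun m => ((hi m).comp_mul_left' Real.two_pi_pos.ne').const_mul _)
    (by
      simp only [norm_mul, integral_const_mul]
      refine Summable.mul_left _ ?_
      simp only [fun m => Measure.integral_comp_mul_left
        (fun τ : ℝ => ‖F fun v => xi m v + τ‖) (2 * Real.pi), smul_eq_mul]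
      exact hs.mul_left _) (uco K η).1 (uco K η).2
  have e : ∀ n : UI K → ℤ, (uco K).symm ((uco K η).1, (uco K η).2 + fun i => (n i : ℝ)) =
      η + lam n := fun n => by
    rw [ContinuousLinearEquiv.symm_apply_eq, map_add, uco_lam]
    simp [Prod.ext_iff]
  simp only [e] at h
  rw [h, ← tsum_mul_left]
  refine tsum_congr fun m => ?_
  have h3 := Measure.integral_comp_mul_left (fun τ : ℝ => (F fun v => xi m v + τ) *
    Complex.exp (((∑ v, (xi m v + τ) * η v : ℝ) : ℂ) * Complex.I)) (2 * Real.pi)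
  simp only [he] at h3
  simp only [mul_assoc ((ucJ K : ℝ) : ℂ)⁻¹, integral_const_mul, eR, h3]
  rw [abs_of_pos (inv_pos.2 Real.two_pi_pos), Complex.real_smul]
  push_cast
  ring

end Crest.Agent.R312.TC
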