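import Crest.Agent.R27.T3L_Defs
import Crest.Agent.R27.T3Unit

/-!
PORT (helper4, rid 27) of `R312/B3L_Unit.lean` to totally complex fields (`R27/TDefs.lean`); same proofs.

# R312 / B3L_Unit : archimedean bookkeeping and Dirichlet's unit theorem in `Pl K` coordinates

Thin layer over `B3Emb`, `B3Unit` (owner helper45).
-/

set_option autoImplicit false

noncomputable section

open scoped Classical ComplexConjugate NumberField nonZeroDivisors
open MeasureTheory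

namespace Crest.Agent.R312.TC.BL

variable {K : Type} [Field K] [NumberField K] [Fld K]

/-- from `two_mul_dd` and `Module.finrank_pos` -/
theorem one_le_dd : 1 ≤ dd K := dd_pos

theorem prod_emb_sq (x : 𝓞 K) :
    ∏ v : Pl K, ‖emb v (x : K)‖ ^ 2 = (Ideal.absNorm (Ideal.span {x}) : ℝ) := by
  rw [← aN_eq_prod, aN_eq_absNorm]

theorem one_le_prod_dl0 : 1 ≤ ∏ v : Pl K, dl v := by
  have h := one_le_aN (K := K) (x := (Fld.δ : 𝓞 K)) Fld.δ_ne
  rw [aN_eq_prod, Finset.prod_pow] at h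
  have h0 : 0 ≤ ∏ v : Pl K, dl v := Finset.prod_nonneg fun v _ => (dl_pos v).le
  by_contra hlt
  have h1 : ∏ v : Pl K, dl v < 1 := lt_of_not_ge hlt
  have h2 : (∏ v : Pl K, dl v) ^ 2 < 1 := pow_lt_one₀ h0 h1 two_ne_zero
  exact absurd h (not_le.2 h2)

/-- `N(q) = q^{2d}` -/
theorem absNorm_natCast (q : ℕ) :
    Ideal.absNorm (Ideal.span {(q : 𝓞 K)}) = q ^ (2 * dd K) := by
  have h := aN_eq_absNorm (K := K) (q : 𝓞 K)
  have h2 : ((q : 𝓞 K) : K) = (q : K) := map_natCast (algebraMap (𝓞 K) K) q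
  rw [h2, aN_natCast] at h
  exact_mod_cast h.symm

/-- some `|x_v| ≥ 1` since `∏ |x_v|² = N(x) ≥ 1` -/
theorem one_le_sum_sq {x : 𝓞 K} (hx : x ≠ 0) : 1 ≤ ∑ v : Pl K, ‖emb v (x : K)‖ ^ 2 := by
  have h := one_le_aN hx
  rw [aN_eq_prod] at h
  by_contra hlt
  have h1 : ∀ v : Pl K, ‖emb v (x : K)‖ ^ 2 < 1 := fun v =>
    lt_of_le_of_lt (Finset.single_le_sum (f := fun v : Pl K => ‖emb v (x : K)‖ ^ 2)
      (fun _ _ => sq_nonneg _) (Finset.mem_univ v)) (lt_of_not_ge hlt)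
  obtain ⟨v0⟩ : Nonempty (Pl K) := inferInstance
  rw [← Finset.mul_prod_erase _ _ (Finset.mem_univ v0)] at h
  have h2 : ∏ v ∈ Finset.univ.erase v0, ‖emb v (x : K)‖ ^ 2 ≤ 1 :=
    Finset.prod_le_one (fun _ _ => sq_nonneg _) (fun v _ => (h1 v).le)
  have h3 := mul_le_of_le_one_right (sq_nonneg ‖emb v0 (x : K)‖) h2
  linarith [h1 v0]

omit [Fld K] [NumberField K] in
theorem unit_ne_zero (u : (𝓞 K)ˣ) : ((u : 𝓞 K) : K) ≠ 0 :=
  NumberField.RingOfIntegers.coe_ne_zero_iff.2 u.ne_zero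

theorem sum_lg_unit (u : (𝓞 K)ˣ) : ∑ v : Pl K, lg ((u : 𝓞 K) : K) v = 0 := by
  rw [sum_lg (unit_ne_zero u), aN_unit, Real.log_one]

/-- `NumberField.Units.mem_torsion` -/
theorem lg_torsion {ζ : (𝓞 K)ˣ} (hζ : ζ ∈ NumberField.Units.torsion K) (v : Pl K) :
    lg ((ζ : 𝓞 K) : K) v = 0 := by
  have h := norm_emb_torsion (K := K) ⟨ζ, hζ⟩ v
  simp only [lg]
  rw [h, one_pow, Real.log_one]

theorem lg_unit_mul (a b : (𝓞 K)ˣ) : lg (((a * b : (𝓞 K)ˣ) : 𝓞 K) : K) =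
    lg ((a : 𝓞 K) : K) + lg ((b : 𝓞 K) : K) := by
  rw [← lg_mul' (unit_ne_zero a) (unit_ne_zero b)]
  congr 1

theorem lg_unit_zpow (a : (𝓞 K)ˣ) (n : ℤ) : lg (((a ^ n : (𝓞 K)ˣ) : 𝓞 K) : K) =
    (n : ℝ) • lg ((a : 𝓞 K) : K) := by
  rw [← lg_zpow]
  congr 1
  exact NumberField.Units.coe_zpow a n

theorem lg_prod_eps (n : Fin (rk K) → ℤ) (v : Pl K) :
    lg (((∏ j, eps j ^ n j : (𝓞 K)ˣ) : 𝓞 K) : K) v = eta (fun j => (n j : ℝ)) v := by
  have key : ∀ s : Finset (Fin (rk K)), lg (((∏ j ∈ s, eps j ^ n j : (𝓞 K)ˣ) : 𝓞 K) : K) v =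
      ∑ j ∈ s, (n j : ℝ) * lg ((eps j : 𝓞 K) : K) v := by
    intro s
    induction s using Finset.induction_on with
    | empty => simp [lg_one]
    | insert a s ha ih =>
      rw [Finset.prod_insert ha, Finset.sum_insert ha, lg_unit_mul, Pi.add_apply, ih, lg_unit_zpow]
      rfl
  exact key _

theorem norm_chE (ξ τ : Pl K → ℝ) : ‖chE ξ τ‖ = 1 := by
  unfold chE
  rw [Complex.norm_exp]
  simp

theorem chE_add (ξ τ τ' : Pl K → ℝ) : chE ξ (τ + τ') = chE ξ τ * chE ξ τ' := by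
  unfold chE
  rw [← Complex.exp_add]
  congr 1
  simp only [Pi.add_apply, mul_add, Finset.sum_add_distrib]
  push_cast
  ring

theorem chE_neg (ξ τ : Pl K → ℝ) : chE ξ (-τ) = chE (-ξ) τ := by
  unfold chE
  simp only [Pi.neg_apply, mul_neg, neg_mul]

theorem chE_lg_mul (ξ : Pl K → ℝ) (x : K) : chE ξ (lg x) * ch ξ x = 1 := by
  unfold chE ch
  rw [← Complex.exp_add, neg_add_cancel, Complex.exp_zero]

theorem eta_add (u u' : Fin (rk K) → ℝ) : eta (u + u') = eta u + eta u' := by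
  funext v
  simp only [eta, Pi.add_apply, add_mul, Finset.sum_add_distrib]

theorem eta_neg (u : Fin (rk K) → ℝ) : eta (-u) = -eta u := by
  funext v
  simp only [eta, Pi.neg_apply, neg_mul, Finset.sum_neg_distrib]

theorem continuous_eta : Continuous (eta (K := K)) := by
  refine continuous_pi fun v => ?_
  unfold eta
  fun_prop

theorem sum_eta (u : Fin (rk K) → ℝ) : ∑ v : Pl K, eta u v = 0 := by
  unfold eta
  rw [Finset.sum_comm]
  refine Finset.sum_eq_zero fun j _ => ?_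
  rw [← Finset.mul_sum, sum_lg_unit, mul_zero]

theorem kap_zero : kap (0 : Pl K → ℝ) = 1 := by
  unfold kap chE
  simp [Measure.real, Real.volume_Icc_pi]

theorem uco_uL (p : ℝ × (Fin (rk K) → ℝ)) : uco K (uL p) = (dd K * p.1, p.2) := by
  have h1 : uL p = (fun _ => p.1) + ∑ j, p.2 j • lam (K := K) (Pi.single j 1) := by
    funext v
    simp only [uL, eta, Pi.add_apply, Finset.sum_apply, Pi.smul_apply, smul_eq_mul]
    congr 1
    refine Finset.sum_congr rfl fun j _ => ?_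
    congr 1
    have h2 : upow (K := K) (Pi.single j 1) = eps j := by
      unfold upow
      rw [Finset.prod_eq_single j]
      · simp
      · intro i _ hi
        simp [Pi.single_eq_of_ne hi]
      · simp
    rw [lam, h2]
  rw [h1, map_add, map_sum, uco_const]
  simp only [map_smul, uco_lam]
  ext
  · simp [Prod.fst_sum]
  · rename_i i
    simp [Prod.snd_sum, Finset.sum_apply, Pi.single_apply]

/-- Dirichlet.  Injective: if `w + eta u = 0`, summing over `v` gives `d w = 0`, so `eta u = 0`; the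
vectors `logEmbedding (fundSystem j)` are linearly independent (`isMaxRank_fundSystem`) and their
component at `w = mk v.1` is `2 log ‖ε_v‖ = lg ε v` (`logEmbedding_component`), so `u = 0`.
Surjective: equal dimensions (`rk_add_one`, `LinearMap.injective_iff_surjective_of_finrank_eq_finrank`). -/
theorem exists_uL_equiv : ∃ e : (ℝ × (Fin (rk K) → ℝ)) ≃L[ℝ] (Pl K → ℝ), ∀ p, e p = uL p := by
  have hd : (dd K : ℝ) ≠ 0 := Nat.cast_ne_zero.2 (dd_pos (K := K)).ne'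
  let s : ℝ ≃L[ℝ] ℝ := ContinuousLinearEquiv.unitsEquivAut ℝ (Units.mk0 (dd K : ℝ) hd)
  refine ⟨(s.prodCongr (ContinuousLinearEquiv.refl ℝ _)).trans (uco K).symm, fun p => ?_⟩
  rw [ContinuousLinearEquiv.trans_apply, ContinuousLinearEquiv.symm_apply_eq, uco_uL]
  simp [s, mul_comm]

/-- non-zero integers = principal ideal × root of unity × `ℤ^r`
(`NumberField.Units.exist_unique_eq_mul_prod`, `Ideal.span_singleton_eq_span_singleton`) -/
theorem exists_param (g : {I : Ideal (𝓞 K) // ∃ x : 𝓞 K, x ≠ 0 ∧ Ideal.span {x} = I} → 𝓞 K)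
    (hg : ∀ I, Ideal.span {g I} = I.1) :
    ∃ e : ({I : Ideal (𝓞 K) // ∃ x : 𝓞 K, x ≠ 0 ∧ Ideal.span {x} = I} ×
        NumberField.Units.torsion K) × (Fin (rk K) → ℤ) ≃ {x : 𝓞 K // x ≠ 0},
      ∀ I ζ n, (e ((I, ζ), n) : 𝓞 K) =
        ((((ζ : (𝓞 K)ˣ) * ∏ j, eps j ^ n j : (𝓞 K)ˣ)) : 𝓞 K) * g I := by
  have hg0 : ∀ I, g I ≠ 0 := by
    rintro ⟨I, x, hx, rfl⟩ h
    have h1 := hg ⟨_, x, hx, rfl⟩
    rw [h] at h1
    exact hx (Ideal.span_singleton_eq_bot.1 (h1.symm.trans (Ideal.span_singleton_eq_bot.2 rfl)))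
  let F : ({I : Ideal (𝓞 K) // ∃ x : 𝓞 K, x ≠ 0 ∧ Ideal.span {x} = I} ×
      NumberField.Units.torsion K) × (Fin (rk K) → ℤ) → {x : 𝓞 K // x ≠ 0} := fun p =>
    ⟨((uEquiv K (p.1.2, p.2) : (𝓞 K)ˣ) : 𝓞 K) * g p.1.1, mul_ne_zero (Units.ne_zero _) (hg0 _)⟩
  have hF : Function.Bijective F := by
    constructor
    · rintro ⟨⟨I, ζ⟩, n⟩ ⟨⟨I', ζ'⟩, n'⟩ h
      have h1 : ((uEquiv K (ζ, n) : (𝓞 K)ˣ) : 𝓞 K) * g I =
          ((uEquiv K (ζ', n') : (𝓞 K)ˣ) : 𝓞 K) * g I' := congrArg Subtype.val h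
      have h2 : I = I' := by
        apply Subtype.ext
        rw [← hg I, ← hg I', ← Ideal.span_singleton_mul_left_unit (uEquiv K (ζ, n)).isUnit (g I), h1,
          Ideal.span_singleton_mul_left_unit (uEquiv K (ζ', n')).isUnit]
      subst h2
      have h3 := (uEquiv K).injective (Units.ext (mul_right_cancel₀ (hg0 I) h1))
      obtain ⟨rfl, rfl⟩ := Prod.mk.inj h3
      rfl
    · rintro ⟨x, hx⟩
      have h1 := hg ⟨_, x, hx, rfl⟩
      obtain ⟨u, hu⟩ := Ideal.span_singleton_eq_span_singleton.1 h1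
      obtain ⟨⟨ζ, n⟩, rfl⟩ := (uEquiv K).surjective u
      exact ⟨((⟨_, x, hx, rfl⟩, ζ), n), Subtype.ext ((mul_comm _ _).trans hu)⟩
  exact ⟨Equiv.ofBijective F hF, fun I ζ n => rfl⟩

/-! ### the additive character -/

theorem eT_zero : eT (0 : K) = 1 := eT_of_isIntegral isIntegral_zero

/-- `Fld.dual` with `y = 1` -/
theorem eT_int (x : 𝓞 K) : eT (x : K) = 1 := eT_of_isIntegral x.isIntegral_coe

/-- `Complex.exp_eq_one_iff` and `Fld.dual` -/
theorem isIntegral_of_eT {x : K} (h : ∀ y : 𝓞 K, eT (x * (y : K)) = 1) : IsIntegral ℤ x := by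
  refine (Fld.dual x).1 fun y => ?_
  obtain ⟨n, hn⟩ := Complex.exp_eq_one_iff.1 (h y)
  refine ⟨n, ?_⟩
  have h1 : (2 * Real.pi * Complex.I : ℂ) ≠ 0 := Complex.two_pi_I_ne_zero
  rw [mul_comm (n : ℂ)] at hn
  have h2 := mul_left_cancel₀ h1 hn
  exact_mod_cast h2

end Crest.Agent.R312.TC.BL
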