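import Crest.Agent.R312.BDefs

/-!
# R27 / TDefs : totally complex fields (helper4)

The archimedean part of `R312/BDefs.lean` for a number field with an integer `om` that has non-real image
under every complex embedding (no cube root of unity needed).  The files `R27/T*.lean` are copies of
`R312/B0Arch, B3Emb, B3Pois, B3Unit, B3L*` in the namespace `Crest.Agent.R312.TC`.  `Lser`, `Ef`, `Lf`,
`one0` are those of `R312/BDefs.lean`.
-/

set_option autoImplicit false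

noncomputable section

open scoped Classical ComplexConjugate NumberField

namespace Crest.Agent.R312.TC

/-- a totally complex number field with a generator `δ` of the different -/
class Fld (K : Type) [Field K] [NumberField K] where
  om : 𝓞 K
  om_im : ∀ φ : K →+* ℂ, (φ (om : K)).im ≠ 0
  δ : 𝓞 K
  δ_ne : δ ≠ 0
  dual : ∀ x : K, (∀ y : 𝓞 K, ∃ n : ℤ, Algebra.trace ℚ K (x * y / (δ : K)) = n) ↔ IsIntegral ℤ x

variable (K : Type) [Field K] [NumberField K] [Fld K]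

/-- one complex embedding for each infinite place -/
def Pl : Type := {φ : K →+* ℂ // 0 < (φ ((Fld.om : 𝓞 K) : K)).im}

instance : Fintype (Pl K) := by unfold Pl; infer_instance

/-- the number of infinite places, `[K:ℚ]/2` -/
def dd : ℕ := Fintype.card (Pl K)

variable {K}

/-- `x_v` -/
def emb (v : Pl K) (x : K) : ℂ := v.1 x

/-- `|δ_v|` -/
def dl (v : Pl K) : ℝ := ‖emb v ((Fld.δ : 𝓞 K) : K)‖

/-- logarithmic embedding `log |x_v|²` -/
def lg (x : K) (v : Pl K) : ℝ := Real.log (‖emb v x‖ ^ 2)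

/-- `∏_v |x_v|^{2 i ξ_v}` -/
def ch (ξ : Pl K → ℝ) (x : K) : ℂ := Complex.exp (((∑ v, ξ v * lg x v : ℝ) : ℂ) * Complex.I)

/-- angular character `∏_v x_v/|x_v|` -/
def ang (x : K) : ℂ := ∏ v : Pl K, emb v x / (‖emb v x‖ : ℂ)

/-- `exp(2πi Tr(x/δ))`, trivial on `𝓞 K`; `𝓞 K` is self-dual -/
def eT (x : K) : ℂ :=
  Complex.exp (2 * Real.pi * Complex.I * ((Algebra.trace ℚ K (x / ((Fld.δ : 𝓞 K) : K)) : ℚ) : ℂ))

/-- the self-dual Gaussian at scale `T` -/
def gau (x : K) (T : ℝ) : ℝ :=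
  Real.exp (-(2 * Real.pi * ∑ v : Pl K, ‖emb v x‖ ^ 2 / (dl v * T ^ ((dd K : ℝ)⁻¹))))

/-- `ψ` is a Hecke character modulo the integer `f` with infinity type `ch ξ`, `∑ ξ = 0` -/
structure HChar (f : ℕ) (ξ : Pl K → ℝ) (ψ : Ideal (𝓞 K) → ℂ) : Prop where
  two_le : 2 ≤ f
  sum_zero : ∑ v, ξ v = 0
  one : ψ 1 = 1
  mul : ∀ I J, ψ (I * J) = ψ I * ψ J
  zero : ∀ I, ¬ IsCoprime I (Ideal.span {(f : 𝓞 K)}) → ψ I = 0
  norm : ∀ I, IsCoprime I (Ideal.span {(f : 𝓞 K)}) → ‖ψ I‖ = 1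
  ray : ∀ x : 𝓞 K, (f : 𝓞 K) ∣ x - 1 → ψ (Ideal.span {x}) = ch ξ (x : K)

theorem ch_add (ξ η : Pl K → ℝ) (x : K) : ch (ξ + η) x = ch ξ x * ch η x := by
  unfold ch
  rw [← Complex.exp_add]
  congr 1
  simp only [Pi.add_apply, add_mul, Finset.sum_add_distrib]
  push_cast
  ring

theorem ch_neg (ξ : Pl K → ℝ) (x : K) : ch (-ξ) x = conj (ch ξ x) := by
  unfold ch
  rw [← Complex.exp_conj, map_mul, Complex.conj_ofReal, Complex.conj_I]
  congr 1
  simp only [Pi.neg_apply, neg_mul, Finset.sum_neg_distrib]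
  push_cast
  ring

end Crest.Agent.R312.TC
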